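import Mathlib

/-!
P134: partial derivatives on `Fin n → ℝ`, a maximum principle and interior derivative bounds for
bounded functions with bounded Laplacian.
-/

namespace Vale.Agent.P134

open MeasureTheory Filter Set
open scoped BigOperators Topology

/-- The working space. -/
abbrev V (n : ℕ) : Type := Fin n → ℝ

variable {n : ℕ}

/-- The coordinate direction. -/
def e (i : Fin n) : V n := Pi.single i 1

/-- Partial derivative. -/
noncomputable def pd (i : Fin n) (f : V n → ℝ) (x : V n) : ℝ := fderiv ℝ f x (e i)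

/-- The Laplacian as the sum of the pure second partial derivatives. -/
noncomputable def lap (f : V n → ℝ) (x : V n) : ℝ := ∑ j, pd j (pd j f) x

theorem pd_contDiff {f : V n → ℝ} {k : ℕ∞} (hf : ContDiff ℝ (k + 1 : ℕ∞) f) (i : Fin n) :
    ContDiff ℝ k (pd i f) :=
  (hf.fderiv_right (m := (k : WithTop ℕ∞)) (by norm_cast)).clm_apply contDiff_const

theorem pd_c1 {f : V n → ℝ} (hf : ContDiff ℝ 2 f) (i : Fin n) : ContDiff ℝ 1 (pd i f) :=
  (hf.fderiv_right (m := 1) (by norm_num)).clm_apply contDiff_const

theorem pd_continuous {f : V n → ℝ} (hf : ContDiff ℝ 1 f) (i : Fin n) : Continuous (pd i f) :=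
  (hf.continuous_fderiv one_ne_zero).clm_apply continuous_const

theorem fderiv_apply_eq_sum (f : V n → ℝ) (x w : V n) :
    fderiv ℝ f x w = ∑ j, w j * pd j f x := by
  conv_lhs => rw [show w = ∑ j, w j • e j by ext l; simp [e, Finset.sum_apply, Pi.single_apply]]
  simp [map_sum, pd]

theorem pd_comp_affine {f : V n → ℝ} (hf : Differentiable ℝ f) (A : V n →L[ℝ] V n) (c : V n)
    (j : Fin n) (y : V n) :
    pd j (fun z => f (A z + c)) y = fderiv ℝ f (A y + c) (A (e j)) := by
  have h : HasFDerivAt (fun z => f (A z + c)) ((fderiv ℝ f (A y + c)).comp A) y :=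
    (hf _).hasFDerivAt.comp y (A.hasFDerivAt.add_const c)
  rw [pd, h.fderiv]; rfl

theorem pd_add_right {f : V n → ℝ} (c : V n) (j : Fin n) :
    pd j (fun z => f (z + c)) = fun z => pd j f (z + c) := by
  funext z
  rw [pd, fderiv_comp_add_right]; rfl

theorem pd_sub {f g : V n → ℝ} (hf : Differentiable ℝ f) (hg : Differentiable ℝ g) (j : Fin n) :
    pd j (fun z => f z - g z) = fun z => pd j f z - pd j g z := by
  funext z
  rw [pd, fderiv_fun_sub (hf z) (hg z)]; rfl

theorem pd_const_mul {f : V n → ℝ} (hf : Differentiable ℝ f) (c : ℝ) (j : Fin n) :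
    pd j (fun z => c * f z) = fun z => c * pd j f z := by
  funext z
  rw [pd, ((hf z).hasFDerivAt.const_mul c).fderiv]; rfl

/-- At a local maximum the pure second derivatives are not positive. -/
theorem pd_pd_nonpos {f : V n → ℝ} (hf : ContDiff ℝ 2 f) {x : V n} (h : IsLocalMax f x)
    (j : Fin n) : pd j (pd j f) x ≤ 0 := by
  by_contra hpos
  push Not at hpos
  set g : ℝ → ℝ := fun s => f (x + s • e j) with hg
  have hline : ∀ s, HasDerivAt (fun s : ℝ => x + s • e j) (e j) s := fun s => by
    simpa using ((hasDerivAt_id s).smul_const (e j)).const_add x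
  have hd : ∀ s, HasDerivAt g (pd j f (x + s • e j)) s := fun s =>
    ((hf.differentiable (by norm_num) _).hasFDerivAt.comp_hasDerivAt s (hline s))
  have hd2 : ∀ s, HasDerivAt (deriv g) (pd j (pd j f) (x + s • e j)) s := fun s => by
    have e1 : deriv g = fun s => pd j f (x + s • e j) := funext fun s => (hd s).deriv
    rw [e1]
    exact ((pd_c1 hf j).differentiable one_ne_zero _).hasFDerivAt.comp_hasDerivAt s (hline s)
  have hcont : Continuous fun s : ℝ => x + s • e j := by fun_prop
  have hmax : IsLocalMax g 0 :=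
    IsLocalMax.comp_continuous (g := fun s : ℝ => x + s • e j) (by simpa using h) hcont.continuousAt
  have hmin : IsLocalMin g 0 :=
    isLocalMin_of_deriv_deriv_pos (by rw [(hd2 0).deriv]; simpa using hpos) hmax.deriv_eq_zero
      (hd 0).continuousAt
  have hconst : g =ᶠ[𝓝 0] fun _ => g 0 := by
    filter_upwards [hmax, hmin] with s a b using le_antisymm a b
  have h0 : deriv g =ᶠ[𝓝 0] fun _ => (0 : ℝ) := by
    filter_upwards [hconst.eventuallyEq_nhds] with s hs
    rw [hs.deriv_eq, deriv_const]
  have := (hd2 0).unique ((hasDerivAt_const (0 : ℝ) (0 : ℝ)).congr_of_eventuallyEq h0)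
  simp at this
  linarith

/-- The reflection of coordinate `i` about `a`. -/
noncomputable def refl (i : Fin n) : V n →L[ℝ] V n :=
  ContinuousLinearMap.id ℝ (V n) -
    (2 : ℝ) • (ContinuousLinearMap.proj i : V n →L[ℝ] ℝ).smulRight (e i)

theorem refl_e (i j : Fin n) : refl i (e j) = if j = i then -e j else e j := by
  ext l
  by_cases h : j = i
  · subst h; simp [refl, e, Pi.single_apply]; split_ifs <;> norm_num
  · simp [refl, e, h, Ne.symm h, Pi.single_apply]

/-- The interior bound for one partial derivative. -/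
theorem abs_pd_le {w : V n → ℝ} (hw : ContDiff ℝ 2 w) {A B : ℝ} (hA : ∀ y, |w y| ≤ A)
    (hB : ∀ y, |lap w y| ≤ B) (i : Fin n) (x : V n) :
    |pd i w x| ≤ 2 * (B + ((n : ℝ) + 2) * A) := by
  suffices H : ∀ w : V n → ℝ, ContDiff ℝ 2 w → (∀ y, |w y| ≤ A) → (∀ y, |lap w y| ≤ B) →
      pd i w x ≤ 2 * (B + ((n : ℝ) + 2) * A) by
    refine abs_le.2 ⟨?_, H w hw hA hB⟩
    have h1 : ∀ j, pd j (fun z => -1 * w z) = fun z => -1 * pd j w z := fun j =>
      pd_const_mul (hw.differentiable (by norm_num)) (-1) j
    have := H (fun z => -1 * w z) (contDiff_const.mul hw) (fun y => by simpa using hA y)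
      (fun y => by
        have : lap (fun z => -1 * w z) y = -lap w y := by
          simp only [lap, h1, pd_const_mul ((pd_c1 hw _).differentiable one_ne_zero)]
          simp
        rw [this, abs_neg]; exact hB y)
    rw [h1] at this
    linarith
  intro w hw hA hB
  have hA0 : 0 ≤ A := (abs_nonneg _).trans (hA x)
  have hB0 : 0 ≤ B := (abs_nonneg _).trans (hB x)
  refine le_of_forall_pos_le_add fun δ hδ => ?_
  set K := B + ((n : ℝ) + 2) * A + δ / 2 with hK
  set R := refl i with hR
  set c : V n := (2 * x i) • e i with hc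
  set q : V n → ℝ := fun y => (1 / 2) * (w y - w (R y + c)) with hq
  set β : V n → ℝ := fun y => ∑ j, (if j = i then K * ((y j - x i) * (2 - (y j - x i)))
    else A * (y j - x j) ^ 2) with hβ
  have hterm : ∀ l : Fin n, ContDiff ℝ 2 fun y : V n =>
      (if l = i then K * ((y l - x i) * (2 - (y l - x i))) else A * (y l - x l) ^ 2) := by
    intro l; split_ifs <;> fun_prop
  have hβc : ContDiff ℝ 2 β := ContDiff.sum fun l _ => hterm l
  have hRc : ContDiff ℝ 2 fun y => w (R y + c) := hw.comp (R.contDiff.add contDiff_const)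
  have hqc : ContDiff ℝ 2 q := contDiff_const.mul (hw.sub hRc)
  have hwd := hw.differentiable (by norm_num : (2 : WithTop ℕ∞) ≠ 0)
  have hrefl : ∀ j, pd j (pd j fun y => w (R y + c)) = fun y => pd j (pd j w) (R y + c) := by
    intro j
    have e1 : pd j (fun y => w (R y + c)) =
        fun y => (if j = i then -1 else 1) * pd j w (R y + c) := by
      funext y
      rw [pd_comp_affine hwd, hR, refl_e]
      split_ifs with h <;> simp [pd]
    have hd1 := (pd_c1 hw j).differentiable one_ne_zero
    rw [e1, pd_const_mul (f := fun y => pd j w (R y + c))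
      (hd1.comp (R.differentiable.add_const c))]
    funext y
    rw [pd_comp_affine hd1, hR, refl_e]
    split_ifs with h <;> simp [pd]
  have hqlap : ∀ y, lap q y = (1 / 2) * (lap w y - lap w (R y + c)) := by
    intro y
    simp only [lap, ← Finset.sum_sub_distrib, Finset.mul_sum]
    refine Finset.sum_congr rfl fun j _ => ?_
    rw [hq, pd_const_mul (f := fun y => w y - w (R y + c))
      ((hw.sub hRc).differentiable (by norm_num)), pd_sub hwd (hRc.differentiable (by norm_num)),
      pd_const_mul (f := fun y => pd j w y - pd j (fun y => w (R y + c)) y)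
        (((pd_c1 hw j).sub (pd_c1 hRc j)).differentiable one_ne_zero),
      pd_sub ((pd_c1 hw j).differentiable one_ne_zero) ((pd_c1 hRc j).differentiable one_ne_zero),
      hrefl]
  have hβ1 : ∀ j, pd j β = fun y =>
      if j = i then K * (2 - 2 * (y j - x i)) else A * (2 * (y j - x j)) := by
    intro j; funext y
    have h : HasFDerivAt β (∑ l, ((if l = i then K * (2 - 2 * (y l - x i))
        else A * (2 * (y l - x l))) • (ContinuousLinearMap.proj l : V n →L[ℝ] ℝ))) y := by
      rw [hβ]
      refine HasFDerivAt.fun_sum fun l _ => ?_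
      have hp := (ContinuousLinearMap.proj l : V n →L[ℝ] ℝ).hasFDerivAt (x := y)
      split_ifs
      · refine (((hp.sub_const (x i)).mul ((hp.sub_const (x i)).const_sub 2)).const_mul K).congr_fderiv ?_
        ext v; simp; ring
      · refine (((hp.sub_const (x l)).pow 2).const_mul A).congr_fderiv ?_
        ext v; simp; ring
    rw [pd, h.fderiv]
    simp only [sum_apply, smul_apply,
      ContinuousLinearMap.proj_apply, smul_eq_mul, e]
    rw [Finset.sum_eq_single j (fun l _ hl => by simp [hl])
      (fun hj => absurd (Finset.mem_univ j) hj)]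
    simp
  have hβlap : ∀ y, lap β y ≤ -2 * K + 2 * A * n := by
    intro y
    have e2 : ∀ j, pd j (pd j β) y = if j = i then -2 * K else 2 * A := by
      intro j
      rw [hβ1 j, pd]
      have hp := (ContinuousLinearMap.proj j : V n →L[ℝ] ℝ).hasFDerivAt (x := y)
      split_ifs
      · have h : HasFDerivAt (fun y : V n => K * (2 - 2 * (y j - x i)))
            (K • -((2 : ℝ) • (ContinuousLinearMap.proj j : V n →L[ℝ] ℝ))) y :=
          (((hp.sub_const (x i)).const_mul 2).const_sub 2).const_mul K
        rw [h.fderiv]; simp [e]; ring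
      · have h : HasFDerivAt (fun y : V n => A * (2 * (y j - x j)))
            (A • ((2 : ℝ) • (ContinuousLinearMap.proj j : V n →L[ℝ] ℝ))) y :=
          ((hp.sub_const (x j)).const_mul 2).const_mul A
        rw [h.fderiv]; simp [e]; ring
    simp only [lap, e2]
    calc ∑ j, (if j = i then -2 * K else 2 * A)
        = -2 * K + ∑ j ∈ Finset.univ.erase i, 2 * A := by
          rw [← Finset.add_sum_erase _ _ (Finset.mem_univ i)]
          simp only [if_true]
          congr 1
          exact Finset.sum_congr rfl fun j hj => by rw [if_neg (Finset.ne_of_mem_erase hj)]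
      _ ≤ -2 * K + ∑ _j : Fin n, 2 * A := by
          gcongr
          exact Finset.subset_univ _
      _ = -2 * K + 2 * A * n := by simp; ring
  have hlappos : ∀ y, 0 < lap (fun z => q z - β z) y := by
    intro y
    have e3 : lap (fun z => q z - β z) y = lap q y - lap β y := by
      simp only [lap, ← Finset.sum_sub_distrib]
      refine Finset.sum_congr rfl fun j _ => ?_
      rw [pd_sub (hqc.differentiable (by norm_num)) (hβc.differentiable (by norm_num)),
        pd_sub ((pd_c1 hqc j).differentiable one_ne_zero) ((pd_c1 hβc j).differentiable one_ne_zero)]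
    have h1 := abs_le.1 (hB y)
    have h2 := abs_le.1 (hB (R y + c))
    have h3 := hβlap y
    rw [e3, hqlap y]
    have : 0 ≤ A * n := by positivity
    linarith
  -- the cylinder
  set D : Set (V n) := Set.univ.pi fun j =>
    if j = i then Icc (x i) (x i + 1) else Icc (x j - 1) (x j + 1) with hD
  have hDc : IsCompact D := isCompact_univ_pi fun j => by split_ifs <;> exact isCompact_Icc
  have hxD : x ∈ D := fun j _ => by
    show x j ∈ if j = i then _ else _
    split_ifs with h
    · subst h; exact ⟨le_rfl, by linarith⟩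
    · exact ⟨by linarith, by linarith⟩
  obtain ⟨y, hyD, hymax⟩ := hDc.exists_isMaxOn ⟨x, hxD⟩ (hqc.sub hβc).continuous.continuousOn
  have hy : ∀ z ∈ D, q z - β z ≤ q y - β y := fun z hz => hymax hz
  have hyi : x i ≤ y i ∧ y i ≤ x i + 1 := by simpa [mem_Icc] using hyD i (mem_univ i)
  have hyj : ∀ j, j ≠ i → x j - 1 ≤ y j ∧ y j ≤ x j + 1 := fun j hj => by
    simpa [hj, mem_Icc] using hyD j (mem_univ j)
  have hK2 : 2 * A ≤ K := by
    have : 0 ≤ (n : ℝ) * A := by positivity
    linarith
  have hKnn : 0 ≤ K := by linarith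
  have hqA : q y ≤ A := by
    have := abs_le.1 (hA y)
    have := abs_le.1 (hA (R y + c))
    show (1 / 2) * (w y - w (R y + c)) ≤ A
    linarith
  have hβsplit : β y = K * ((y i - x i) * (2 - (y i - x i))) +
      ∑ j ∈ Finset.univ.erase i, A * (y j - x j) ^ 2 := by
    simp only [hβ]
    rw [← Finset.add_sum_erase _ _ (Finset.mem_univ i)]
    simp only [if_true]
    congr 1
    exact Finset.sum_congr rfl fun j hj => by rw [if_neg (Finset.ne_of_mem_erase hj)]
  have hrest : 0 ≤ ∑ j ∈ Finset.univ.erase i, A * (y j - x j) ^ 2 :=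
    Finset.sum_nonneg fun j _ => by positivity
  have hval : q y - β y ≤ 0 := by
    by_cases h0 : y i = x i
    · have : R y + c = y := by
        ext l
        by_cases hl : l = i
        · subst hl; simp [hR, hc, refl, e, h0]
        · simp [hR, hc, refl, e, hl]
      have hq0 : q y = 0 := by simp [hq, this]
      rw [hq0, hβsplit, h0]
      simp only [sub_self, zero_mul, mul_zero]
      linarith
    by_cases h1 : y i = x i + 1
    · rw [hβsplit, h1]
      simp only [add_sub_cancel_left]
      linarith
    by_cases h2 : ∃ j, j ≠ i ∧ (y j = x j - 1 ∨ y j = x j + 1)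
    · obtain ⟨j, hj, hjv⟩ := h2
      have : A ≤ ∑ l ∈ Finset.univ.erase i, A * (y l - x l) ^ 2 := by
        refine le_trans (le_of_eq ?_) (Finset.single_le_sum (fun l _ => by positivity)
          (Finset.mem_erase.2 ⟨hj, Finset.mem_univ j⟩))
        rcases hjv with h | h <;> rw [h] <;> ring
      have : 0 ≤ K * ((y i - x i) * (2 - (y i - x i))) :=
        mul_nonneg hKnn (mul_nonneg (by linarith) (by linarith))
      rw [hβsplit]; linarith
    push Not at h2
    have hint : D ∈ 𝓝 y := by
      refine set_pi_mem_nhds finite_univ fun j _ => ?_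
      split_ifs with h
      · subst h
        exact Icc_mem_nhds (lt_of_le_of_ne hyi.1 (Ne.symm h0)) (lt_of_le_of_ne hyi.2 h1)
      · exact Icc_mem_nhds (lt_of_le_of_ne (hyj j h).1 (Ne.symm (h2 j h).1))
          (lt_of_le_of_ne (hyj j h).2 (h2 j h).2)
    have hmax : IsLocalMax (fun z => q z - β z) y := Filter.mem_of_superset hint fun z hz => hy z hz
    have hle : lap (fun z => q z - β z) y ≤ 0 :=
      Finset.sum_nonpos fun j _ => pd_pd_nonpos (hqc.sub hβc) hmax j
    linarith [hlappos y]
  -- evaluate along the axis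
  have hline : ∀ s ∈ Icc (0 : ℝ) 1, w (x + s • e i) - w (x - s • e i) ≤ 4 * K * s := by
    intro s hs
    have hsD : x + s • e i ∈ D := fun j _ => by
      show (x + s • e i) j ∈ if j = i then _ else _
      split_ifs with h
      · subst h; simp [e]; exact ⟨by linarith [hs.1], by linarith [hs.2]⟩
      · simp [e, h]
    have h := (hy _ hsD).trans hval
    have e4 : R (x + s • e i) + c = x - s • e i := by
      ext l
      by_cases hl : l = i
      · subst hl; simp [hR, hc, refl, e]; ring
      · simp [hR, hc, refl, e, hl]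
    have e5 : β (x + s • e i) = K * (s * (2 - s)) := by
      simp only [hβ]
      rw [Finset.sum_eq_single i (fun j _ hj => by simp [e, hj])
        (fun h => absurd (Finset.mem_univ i) h)]
      simp [e]
    have e6 : q (x + s • e i) = (1 / 2) * (w (x + s • e i) - w (x - s • e i)) := by
      show (1 / 2) * (w (x + s • e i) - w (R (x + s • e i) + c)) = _
      rw [e4]
    rw [e5, e6] at h
    have : 0 ≤ K * (s * s) := mul_nonneg hKnn (mul_self_nonneg s)
    linarith
  have hder : HasDerivAt (fun s : ℝ => w (x + s • e i) - w (x - s • e i)) (2 * pd i w x) 0 := by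
    have a := ((hasDerivAt_id (0 : ℝ)).smul_const (e i)).const_add x
    have b := ((hasDerivAt_id (0 : ℝ)).smul_const (e i)).const_sub x
    have a' := (hwd (x + (0 : ℝ) • e i)).hasFDerivAt.comp_hasDerivAt (0 : ℝ) a
    have b' := (hwd (x - (0 : ℝ) • e i)).hasFDerivAt.comp_hasDerivAt (0 : ℝ) b
    refine (a'.sub b').congr_deriv ?_
    simp [pd]; ring
  have hlim : 2 * pd i w x ≤ 4 * K := by
    refine le_of_tendsto (hasDerivAt_iff_tendsto_slope.1 hder |>.mono_left
      (nhdsGT_le_nhdsNE 0)) ?_
    filter_upwards [Ioc_mem_nhdsGT one_pos] with s hs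
    simp only [slope_def_field, zero_smul, add_zero, sub_zero, sub_self]
    rw [div_le_iff₀ hs.1]
    exact hline s ⟨hs.1.le, hs.2⟩
  linarith

/-- Bounds on the first and second derivatives of bounded solutions. -/
theorem derivative_bounds {u : V n → ℝ} (hu : ContDiff ℝ 2 u) (hb : ∀ x, |u x| ≤ 1)
    (heq : ∀ x, lap u x = u x ^ 3 - u x) :
    ∃ C : ℝ, 0 ≤ C ∧ (∀ i x, |pd i u x| ≤ C) ∧ (∀ i j x, |pd j (pd i u) x| ≤ C) := by
  set K₁ := 2 * ((1 : ℝ) + ((n : ℝ) + 2) * 1) with hK₁
  set K₂ := 2 * ((2 : ℝ) * K₁ + ((n : ℝ) + 2) * K₁) with hK₂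
  have hn : (0 : ℝ) ≤ n := Nat.cast_nonneg n
  have h1 : ∀ i x, |pd i u x| ≤ K₁ := fun i x => abs_pd_le hu hb (fun y => by
    rw [heq y, abs_le]
    obtain ⟨a, b⟩ := abs_le.1 (hb y)
    constructor <;> nlinarith [mul_nonneg (sub_nonneg.2 b) (neg_le_iff_add_nonneg.1 a), sq_nonneg (u y), sq_nonneg (u y - 1), sq_nonneg (u y + 1)]) i x
  have hK₁0 : 0 ≤ K₁ := by positivity
  have hud := hu.differentiable (by norm_num : (2 : WithTop ℕ∞) ≠ 0)
  have hdiff : ∀ j x (s : ℝ), |u (x + s • e j) - u x| ≤ K₁ * |s| := by
    intro j x s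
    have h := Convex.norm_image_sub_le_of_norm_hasDerivWithin_le
      (f := fun r : ℝ => u (x + r • e j)) (f' := fun r => pd j u (x + r • e j))
      (fun r _ => HasDerivAt.hasDerivWithinAt <| (hud _).hasFDerivAt.comp_hasDerivAt r
        (by simpa using ((hasDerivAt_id r).smul_const (e j)).const_add x))
      (fun r _ => by rw [Real.norm_eq_abs]; exact h1 j _) convex_univ (mem_univ (0 : ℝ)) (mem_univ s)
    simpa [Real.norm_eq_abs] using h
  refine ⟨max K₁ K₂, le_max_of_le_left hK₁0, fun i x => (h1 i x).trans (le_max_left _ _),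
    fun i j x => le_trans ?_ (le_max_right _ _)⟩
  have hd : ∀ s : ℝ, |pd i u (x + s • e j) - pd i u x| ≤ K₂ * |s| := by
    intro s
    set w : V n → ℝ := fun y => u (y + s • e j) - u y with hw
    have hsh : ContDiff ℝ 2 fun y => u (y + s • e j) := hu.comp (contDiff_id.add contDiff_const)
    have hwc : ContDiff ℝ 2 w := hsh.sub hu
    have hwA : ∀ y, |w y| ≤ K₁ * |s| := fun y => hdiff j y s
    have hwB : ∀ y, |lap w y| ≤ 2 * K₁ * |s| := by
      intro y
      have e1 : lap w y = lap u (y + s • e j) - lap u y := by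
        simp only [lap, ← Finset.sum_sub_distrib]
        refine Finset.sum_congr rfl fun l _ => ?_
        rw [hw, pd_sub (hsh.differentiable (by norm_num)) hud, pd_add_right,
          pd_sub (f := fun z => pd l u (z + s • e j))
            (((pd_c1 hu l).differentiable one_ne_zero).comp (differentiable_id.add_const _))
            ((pd_c1 hu l).differentiable one_ne_zero), pd_add_right]
      rw [e1, heq, heq]
      set a := u (y + s • e j)
      set b := u y
      have ha := abs_le.1 (hb (y + s • e j))
      have hb' := abs_le.1 (hb y)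
      have e2 : |a ^ 3 - a - (b ^ 3 - b)| ≤ 2 * |a - b| := by
        rw [show a ^ 3 - a - (b ^ 3 - b) = (a ^ 2 + a * b + b ^ 2 - 1) * (a - b) by ring, abs_mul]
        refine mul_le_mul_of_nonneg_right (abs_le.2 ⟨?_, ?_⟩) (abs_nonneg _)
        · nlinarith [sq_nonneg (a + b)]
        · nlinarith [mul_nonneg (sub_nonneg.2 ha.2) (neg_le_iff_add_nonneg.1 ha.1),
            mul_nonneg (sub_nonneg.2 hb'.2) (neg_le_iff_add_nonneg.1 hb'.1),
            sq_nonneg (a - b)]
      calc |a ^ 3 - a - (b ^ 3 - b)| ≤ 2 * |a - b| := e2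
        _ ≤ 2 * K₁ * |s| := by linarith [hdiff j y s]
    have := abs_pd_le hwc hwA hwB i x
    rw [hw, pd_sub (hsh.differentiable (by norm_num)) hud, pd_add_right] at this
    calc |pd i u (x + s • e j) - pd i u x| ≤ _ := this
      _ = K₂ * |s| := by rw [hK₂]; ring
  have hder : HasDerivAt (fun s : ℝ => pd i u (x + s • e j)) (pd j (pd i u) x) 0 := by
    have a : HasDerivAt (fun s : ℝ => x + s • e j) (e j) 0 := by
      simpa using ((hasDerivAt_id (0 : ℝ)).smul_const (e j)).const_add x
    have h := (((pd_c1 hu i).differentiable one_ne_zero) (x + (0 : ℝ) • e j)).hasFDerivAt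
    rw [zero_smul, add_zero] at h
    exact HasFDerivAt.comp_hasDerivAt (l := pd i u) (0 : ℝ) (by simpa using h) a
  refine le_of_tendsto ((hasDerivAt_iff_tendsto_slope.1 hder).abs) ?_
  filter_upwards [self_mem_nhdsWithin] with s hs
  simp only [slope_def_field, sub_zero, zero_smul, add_zero]
  rw [abs_div, div_le_iff₀ (abs_pos.2 hs)]
  exact hd s

/-- Closeness of values gives closeness of partial derivatives. -/
theorem abs_pd_le_of_small {w : V n → ℝ} (hw : ContDiff ℝ 2 w) {C ε r : ℝ} (hr : 0 < r) {i : Fin n}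
    {x : V n} (h2 : ∀ y, |pd i (pd i w) y| ≤ C) (h0 : |w x| ≤ ε) (h1 : |w (x + r • e i)| ≤ ε) :
    |pd i w x| ≤ 2 * ε / r + C * r := by
  have hline : ∀ s : ℝ, HasDerivAt (fun s : ℝ => x + s • e i) (e i) s := fun s => by
    simpa using ((hasDerivAt_id s).smul_const (e i)).const_add x
  have hd : ∀ s : ℝ, HasDerivAt (fun s : ℝ => w (x + s • e i)) (pd i w (x + s • e i)) s :=
    fun s => (hw.differentiable (by norm_num) _).hasFDerivAt.comp_hasDerivAt s (hline s)
  have hd2 : ∀ s : ℝ,
      HasDerivAt (fun s : ℝ => pd i w (x + s • e i)) (pd i (pd i w) (x + s • e i)) s :=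
    fun s => ((pd_c1 hw i).differentiable one_ne_zero _).hasFDerivAt.comp_hasDerivAt s (hline s)
  obtain ⟨c, hc, hceq⟩ := exists_hasDerivAt_eq_slope (fun s : ℝ => w (x + s • e i)) _ hr
    (fun s _ => (hd s).continuousAt.continuousWithinAt) fun s _ => hd s
  have h := Convex.norm_image_sub_le_of_norm_hasDerivWithin_le
    (fun s _ => (hd2 s).hasDerivWithinAt) (fun s _ => by rw [Real.norm_eq_abs]; exact h2 _)
    convex_univ (mem_univ (0 : ℝ)) (mem_univ c)
  simp only [Real.norm_eq_abs, zero_smul, add_zero, sub_zero, abs_of_pos hc.1] at h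
  simp only [zero_smul, add_zero, sub_zero] at hceq
  have hsl : |pd i w (x + c • e i)| ≤ 2 * ε / r := by
    rw [hceq, abs_div, abs_of_pos hr]
    refine div_le_div_of_nonneg_right ((abs_sub _ _).trans ?_) hr.le
    linarith
  have hC0 : 0 ≤ C := (abs_nonneg _).trans (h2 x)
  have htri := abs_sub_abs_le_abs_sub (pd i w x) (pd i w (x + c • e i))
  rw [abs_sub_comm] at htri
  have : C * c ≤ C * r := mul_le_mul_of_nonneg_left hc.2.le hC0
  linarith

end Vale.Agent.P134
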