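import Vale.Agent.P134.Slice

/-!
P134: the energy of a monotone solution whose upper limit is one-dimensional.
-/

namespace Vale.Agent.P134

open MeasureTheory Filter Set
open scoped BigOperators Topology

variable {n : ℕ} {u w : V n → ℝ} {d : Fin n} {C : ℝ}

/-- The energy density. -/
noncomputable def dens (u : V n → ℝ) (x : V n) : ℝ := gsq u x / 2 + (1 - u x ^ 2) ^ 2 / 4

theorem dens_c1 (h : Sol u d) : ContDiff ℝ 1 (dens u) := by
  have h1 : ∀ j, ContDiff ℝ 1 fun x => pd j u x ^ 2 := fun j => (pd_c1 h.c2 j).pow 2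
  exact ((ContDiff.sum fun j _ => h1 j).div_const 2).add
    ((((h.c2.of_le (by norm_num)).pow 2 |> contDiff_const.sub).pow 2).div_const 4)

theorem pd_dens (h : Sol u d) (x : V n) :
    pd d (dens u) x = (∑ l, pd l (fun y => pd d u y * pd l u y) x) := by
  have hd : HasFDerivAt (dens u) ((1 / 2 : ℝ) • (∑ l, (2 * pd l u x) • fderiv ℝ (pd l u) x) +
      (u x ^ 3 - u x) • fderiv ℝ u x) x := by
    have h1 : HasFDerivAt (fun y => gsq u y) (∑ l, (2 * pd l u x) • fderiv ℝ (pd l u) x) x := by
      refine HasFDerivAt.fun_sum fun l _ => ?_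
      simpa using ((pd_c1 h.c2 l).differentiable one_ne_zero x).hasFDerivAt.pow 2
    have hF : HasDerivAt (fun s : ℝ => (1 - s ^ 2) ^ 2 / 4) (u x ^ 3 - u x) (u x) := by
      refine ((((hasDerivAt_id' (u x)).fun_pow 2).const_sub 1).fun_pow 2 |>.div_const 4).congr_deriv ?_
      push_cast; ring
    have h2 := hF.comp_hasFDerivAt x (h.c2.differentiable (by norm_num) x).hasFDerivAt
    refine ((h1.const_mul (1 / 2 : ℝ)).add h2).congr_of_eventuallyEq (Eventually.of_forall fun y => ?_)
    simp [dens, Function.comp_apply]; ring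
  rw [pd, hd.fderiv]
  simp only [add_apply, smul_apply, sum_apply, smul_eq_mul]
  have hm : ∀ l, pd l (fun y => pd d u y * pd l u y) x =
      pd l (pd d u) x * pd l u x + pd d u x * pd l (pd l u) x := fun l =>
    pd_mul ((pd_c1 h.c2 d).differentiable one_ne_zero) ((pd_c1 h.c2 l).differentiable one_ne_zero) l x
  simp only [hm, Finset.sum_add_distrib, ← Finset.mul_sum]
  rw [show ∑ l, pd l (pd l u) x = u x ^ 3 - u x from h.eq x]
  have e1 : ∀ l, fderiv ℝ (pd l u) x (e d) = pd l (pd d u) x := fun l => pd_comm h.c2 d l x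
  simp only [e1, show fderiv ℝ u x (e d) = pd d u x from rfl, Finset.mul_sum]
  rw [mul_comm (u x ^ 3 - u x)]
  congr 1
  exact Finset.sum_congr rfl fun l _ => by ring

/-- The derivative of the energy along the increasing direction. -/
theorem Sol.dens_flux (h : Sol u d) {φ : V n → ℝ} (hφ : ContDiff ℝ 1 φ) (hφs : HasCompactSupport φ)
    {C : ℝ} (hC : ∀ i x, |pd i u x| ≤ C) :
    0 ≤ (∫ x, pd d (dens u) x * φ x) + C * ∫ x, pd d u x * ∑ l, |pd l φ x| := by
  have hi : ∀ l, Integrable fun x => pd l (fun y => pd d u y * pd l u y) x * φ x := fun l =>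
    integrable_mul_supp (pd_continuous ((pd_c1 h.c2 d).mul (pd_c1 h.c2 l)) l) hφ.continuous hφs
  have hsum : ∫ x, pd d (dens u) x * φ x = -∫ x, ∑ l, pd d u x * pd l u x * pd l φ x := by
    rw [show (fun x => pd d (dens u) x * φ x) = fun x =>
      ∑ l, pd l (fun y => pd d u y * pd l u y) x * φ x from funext fun x => by
        rw [pd_dens h, Finset.sum_mul],
      integral_finsetSum _ fun l _ => hi l, integral_finsetSum _ fun l _ =>
        integrable_mul_supp (f := fun x => pd d u x * pd l u x)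
          ((pd_c1 h.c2 d).continuous.mul (pd_c1 h.c2 l).continuous) (pd_continuous hφ l)
          (hasCompactSupport_pd hφs l), ← Finset.sum_neg_distrib]
    refine Finset.sum_congr rfl fun l _ => ?_
    rw [ibp (f := fun y => pd d u y * pd l u y) ((pd_c1 h.c2 d).mul (pd_c1 h.c2 l)) hφ hφs l, neg_neg]
  have ha : ∀ l, Continuous fun x => |pd l φ x| := fun l => (pd_continuous hφ l).abs
  have hψs : HasCompactSupport fun x => ∑ l, |pd l φ x| :=
    HasCompactSupport.intro (K := tsupport φ) hφs fun x hx => Finset.sum_eq_zero fun l _ => by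
      rw [image_eq_zero_of_notMem_tsupport fun h' => hx (tsupport_pd_subset φ l h'), abs_zero]
  rw [hsum, ← integral_const_mul, le_neg_add_iff_add_le, add_zero]
  refine integral_mono (integrable_finsetSum _ fun l _ =>
    integrable_mul_supp (f := fun x => pd d u x * pd l u x)
      ((pd_c1 h.c2 d).continuous.mul (pd_c1 h.c2 l).continuous) (pd_continuous hφ l)
      (hasCompactSupport_pd hφs l))
    ((integrable_mul_supp (g := fun x => ∑ l, |pd l φ x|) (pd_c1 h.c2 d).continuous
      (continuous_finsetSum _ fun l _ => ha l) hψs).const_mul C) fun x => ?_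
  simp only [Finset.mul_sum]
  refine Finset.sum_le_sum fun l _ => (le_abs_self _).trans ?_
  rw [abs_mul, abs_mul, abs_of_pos (h.mono x)]
  nlinarith [mul_le_mul_of_nonneg_left (mul_le_mul_of_nonneg_right (hC l x) (abs_nonneg (pd l φ x)))
    (h.mono x).le]

/-- The energy is bounded by that of the upper limit and the perimeter of the weight. -/
theorem Sol.energy_le_upper (h : Sol u d) (hw : Upper u d w C) {C₁ C₂ : ℝ} (hC₁0 : 0 ≤ C₁)
    (hC₁ : ∀ i x, |pd i u x| ≤ C₁) (hC₂ : ∀ i j x, |pd j (pd i u) x| ≤ C₂) {φ : V n → ℝ}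
    (hφ : ContDiff ℝ 1 φ) (hφs : HasCompactSupport φ) :
    ∫ x, dens u x * φ x ≤ (∫ x, dens w x * φ x) + 2 * C₁ * ∫ x, ∑ l, |pd l φ x| := by
  set ψ : V n → ℝ := fun x => ∑ l, |pd l φ x| with hψ
  have hψc : Continuous ψ := continuous_finsetSum _ fun l _ => (pd_continuous hφ l).abs
  have hψs : HasCompactSupport ψ :=
    HasCompactSupport.intro (K := tsupport φ) hφs fun x hx => Finset.sum_eq_zero fun l _ => by
      rw [image_eq_zero_of_notMem_tsupport fun h' => hx (tsupport_pd_subset φ l h'), abs_zero]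
  obtain ⟨D, hD⟩ : ∃ D, ∀ x, |pd d (dens u) x| ≤ D := by
    refine ⟨(n : ℝ) * (C₂ * C₁ + C₁ * C₂), fun x => ?_⟩
    rw [pd_dens h]
    refine (Finset.abs_sum_le_sum_abs _ _).trans ?_
    calc ∑ l, |pd l (fun y => pd d u y * pd l u y) x| ≤ ∑ _l : Fin n, (C₂ * C₁ + C₁ * C₂) :=
          Finset.sum_le_sum fun l _ => by
            rw [pd_mul ((pd_c1 h.c2 d).differentiable one_ne_zero) ((pd_c1 h.c2 l).differentiable one_ne_zero)]
            refine (abs_add_le _ _).trans (add_le_add ?_ ?_) <;> rw [abs_mul]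
            · exact mul_le_mul (hC₂ d l x) (hC₁ l x) (abs_nonneg _) ((abs_nonneg _).trans (hC₂ d l x))
            · exact mul_le_mul (hC₁ d x) (hC₂ l l x) (abs_nonneg _) hC₁0
      _ = _ := by simp; ring
  have hEd : ∀ T : ℝ, HasDerivAt (fun T : ℝ => (∫ x, dens u (x + T • e d) * φ x) +
      C₁ * ∫ x, u (x + T • e d) * ψ x)
      ((∫ x, pd d (dens u) (x + T • e d) * φ x) + C₁ * ∫ x, pd d u (x + T • e d) * ψ x) T := by
    have hline : ∀ (x : V n) (T : ℝ), HasDerivAt (fun T : ℝ => x + T • e d) (e d) T := fun x T => by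
      simpa using ((hasDerivAt_id T).smul_const (e d)).const_add x
    have aux : ∀ {f wt : V n → ℝ}, ContDiff ℝ 1 f → Continuous wt → HasCompactSupport wt →
        ∀ K : ℝ, (∀ x, |pd d f x| ≤ K) → ∀ T : ℝ,
          HasDerivAt (fun T : ℝ => ∫ x, f (x + T • e d) * wt x)
            (∫ x, pd d f (x + T • e d) * wt x) T := by
      intro f wt hf hwt hwts K hK T
      exact (hasDerivAt_integral_of_dominated_loc_of_deriv_le (μ := (volume : Measure (V n)))
        (F := fun T x => f (x + T • e d) * wt x) (F' := fun T x => pd d f (x + T • e d) * wt x)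
        (x₀ := T) (s := univ) (bound := fun x => K * |wt x|) univ_mem
        (Eventually.of_forall fun S => ((hf.continuous.comp (by fun_prop)).mul hwt).aestronglyMeasurable)
        (integrable_mul_supp (f := fun x => f (x + T • e d)) (hf.continuous.comp (by fun_prop)) hwt hwts)
        (((pd_continuous hf d).comp (by fun_prop)).mul hwt).aestronglyMeasurable
        (Eventually.of_forall fun x S _ => by
          rw [Real.norm_eq_abs, abs_mul]
          exact mul_le_mul_of_nonneg_right (hK _) (abs_nonneg _))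
        ((hwt.integrable_of_hasCompactSupport hwts).abs.const_mul K)
        (Eventually.of_forall fun x S _ =>
          ((hf.differentiable one_ne_zero _).hasFDerivAt.comp_hasDerivAt S (hline x S)).mul_const _)).2
    exact fun T => (aux (dens_c1 h) hφ.continuous hφs D hD T).fun_add
      ((aux (h.c2.of_le (by norm_num)) hψc hψs C₁ (hC₁ d) T).const_mul C₁)
  have hmono : Monotone fun T : ℝ => (∫ x, dens u (x + T • e d) * φ x) +
      C₁ * ∫ x, u (x + T • e d) * ψ x :=
    monotone_of_hasDerivAt_nonneg hEd fun T => by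
      have h' := (h.shift (T • e d)).dens_flux hφ hφs (C := C₁) (fun i x => by
        rw [pd_add_right]; exact hC₁ i _)
      have e1 : dens (fun x => u (x + T • e d)) = fun x => dens u (x + T • e d) := by
        funext x; simp only [dens, gsq, pd_add_right]
      rw [e1, pd_add_right, pd_add_right] at h'
      exact h'
  have h0 : ∀ k : ℕ, ∫ x, dens u x * φ x ≤
      (∫ x, dens u (x + (k : ℝ) • e d) * φ x) + 2 * C₁ * ∫ x, ψ x := by
    intro k
    have h1 := hmono (Nat.cast_nonneg k : (0 : ℝ) ≤ k)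
    simp only [zero_smul, add_zero] at h1
    have hb : ∀ T : V n, |∫ x, u (x + T) * ψ x| ≤ ∫ x, ψ x := fun T => by
      refine (abs_integral_le_integral_abs).trans (integral_mono_of_nonneg
        (Eventually.of_forall fun x => abs_nonneg _) (hψc.integrable_of_hasCompactSupport hψs)
        (Eventually.of_forall fun x => ?_))
      show |u (x + T) * ψ x| ≤ ψ x
      have hψ0 : 0 ≤ ψ x := Finset.sum_nonneg fun l _ => abs_nonneg _
      rw [abs_mul, abs_of_nonneg hψ0]
      exact mul_le_of_le_one_left hψ0 (h.bdd _)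
    have b1 := abs_le.1 (hb ((k : ℝ) • e d))
    have b2 := abs_le.1 (hb 0)
    simp only [add_zero] at b2
    nlinarith [mul_le_mul_of_nonneg_left b1.2 hC₁0, mul_le_mul_of_nonneg_left b2.1 hC₁0]
  refine ge_of_tendsto ((tendsto_integral_weight (f := fun k x => dens u (x + (k : ℝ) • e d))
    (C := (n : ℝ) * C₁ ^ 2 / 2 + 1) (fun k => ((dens_c1 h).continuous.comp (by fun_prop)))
    hφ.continuous hφs (fun k x => ?_) fun x => ?_).add_const _) (Eventually.of_forall h0)
  · simp only [dens, gsq]
    set y := x + (k : ℝ) • e d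
    have h1 : ∑ j, pd j u y ^ 2 ≤ (n : ℝ) * C₁ ^ 2 := by
      refine (Finset.sum_le_sum fun j _ => ?_).trans (le_of_eq (by simp : ∑ _j : Fin n, C₁ ^ 2 = _))
      rw [← sq_abs]; exact pow_le_pow_left₀ (abs_nonneg _) (hC₁ j y) 2
    obtain ⟨p, q⟩ := abs_le.1 (h.bdd y)
    have h2 : (1 - u y ^ 2) ^ 2 ≤ 1 := pow_le_one₀ (by nlinarith) (by nlinarith [sq_nonneg (u y)])
    have h3 : 0 ≤ ∑ j, pd j u y ^ 2 := Finset.sum_nonneg fun j _ => sq_nonneg _
    rw [abs_of_nonneg (by positivity)]
    linarith
  · simp only [dens, gsq]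
    exact ((tendsto_finsetSum _ fun j _ => (hw.lim1 j x).pow 2).div_const 2).add
      (((((hw.lim x).pow 2).const_sub 1).pow 2).div_const 4)

/-- The energy is controlled by the perimeter of the weight. -/
theorem Sol.energy_growth (h : Sol u d) {M : Finset (Fin n)} (hdM : d ∉ M) (hcard : Mᶜ.card ≤ 3)
    (hap : APer M u) : ∃ K : ℝ, 0 ≤ K ∧ ∀ φ : V n → ℝ, ContDiff ℝ 1 φ → HasCompactSupport φ →
      (∀ x, 0 ≤ φ x) → ∫ x, gsq u x * φ x ≤ K * ∫ x, ∑ l, |pd l φ x| := by
  classical
  obtain ⟨w, C, hC0, hw⟩ := h.exists_upper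
  have hcard' : (insert d M)ᶜ.card ≤ 2 := by
    rw [Finset.card_compl, Finset.card_insert_of_notMem hdM, Fintype.card_fin] at *
    omega
  obtain ⟨ν, hν, hline⟩ := exists_line hw.c2
    (fun a b x => hw.rank_one hC0 hcard' (hw.aper hdM hap) a b x) d
  obtain ⟨g, hg, hwg, hwd⟩ := hw.profile hν hline
  obtain ⟨⟨σ, hσ, hsign⟩, hham⟩ := hg.structure
  obtain ⟨Cg, hCg⟩ := hg.slope
  obtain ⟨C₁, hC₁0, hC₁, hC₂⟩ := derivative_bounds h.c2 h.bdd h.eq
  have hCg0 : 0 ≤ Cg := (abs_nonneg _).trans (hCg 0)
  refine ⟨4 * C₁ + 2 * Cg, by positivity, fun φ hφ hφs hφ0 => ?_⟩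
  set ψ : V n → ℝ := fun x => ∑ l, |pd l φ x| with hψ
  have hψc : Continuous ψ := continuous_finsetSum _ fun l _ => (pd_continuous hφ l).abs
  have hψs : HasCompactSupport ψ :=
    HasCompactSupport.intro (K := tsupport φ) hφs fun x hx => Finset.sum_eq_zero fun l _ => by
      rw [image_eq_zero_of_notMem_tsupport fun h' => hx (tsupport_pd_subset φ l h'), abs_zero]
  have hid : ∀ l, Integrable fun x => pd l w x * φ x := fun l =>
    integrable_mul_supp (pd_c1 hw.c2 l).continuous hφ.continuous hφs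
  have hup : ∫ x, dens w x * φ x ≤ Cg * ∫ x, ψ x := by
    have hdw : Continuous (dens w) := by
      unfold dens gsq
      have := hw.c2.continuous
      have h2 : ∀ l, Continuous (pd l w) := fun l => (pd_c1 hw.c2 l).continuous
      fun_prop
    refine (integral_mono (integrable_mul_supp hdw hφ.continuous hφs)
      ((integrable_finsetSum Finset.univ fun l _ => (hid l).const_mul (Cg * σ * ν l))) fun x => ?_).trans ?_
    · set t := ∑ k, ν k * x k with ht
      have e1 : ∑ l, Cg * σ * ν l * (pd l w x * φ x) = Cg * (σ * deriv g t) * φ x := by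
        rw [Finset.sum_congr rfl fun l _ => show Cg * σ * ν l * (pd l w x * φ x) =
          ν l ^ 2 * (Cg * (σ * deriv g t) * φ x) by rw [hwd]; ring, ← Finset.sum_mul, hν, one_mul]
      have e2 : dens w x = deriv g t ^ 2 := by
        rw [dens, gsq, Finset.sum_congr rfl fun l _ => show pd l w x ^ 2 = ν l ^ 2 * deriv g t ^ 2 by
          rw [hwd]; ring, ← Finset.sum_mul, hν, one_mul, hwg, ← ht, ← hham t]
        ring
      rw [e1, e2]
      refine mul_le_mul_of_nonneg_right ?_ (hφ0 x)
      have h1 : |deriv g t| = σ * deriv g t := by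
        rw [← abs_of_nonneg (hsign t), abs_mul, hσ, one_mul]
      rw [← sq_abs, sq, ← h1]
      exact mul_le_mul_of_nonneg_right (hCg t) (abs_nonneg _)
    · rw [integral_finsetSum _ fun l _ => (hid l).const_mul _, ← integral_const_mul]
      have hiψ : ∀ l, Integrable fun x => |pd l φ x| := fun l =>
        ((pd_continuous hφ l).integrable_of_hasCompactSupport (hasCompactSupport_pd hφs l)).abs
      simp only [hψ, Finset.mul_sum]
      rw [integral_finsetSum _ fun l _ => (hiψ l).const_mul Cg]
      refine Finset.sum_le_sum fun l _ => ?_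
      rw [integral_const_mul, integral_const_mul]
      have hl1 : |ν l| ≤ 1 := abs_le_one_iff_mul_self_le_one.2 (by
        rw [← sq, ← hν]
        exact Finset.single_le_sum (fun k _ => sq_nonneg (ν k)) (Finset.mem_univ l))
      have hib : |∫ x, pd l w x * φ x| ≤ ∫ x, |pd l φ x| := by
        rw [← abs_neg, ← ibp (hw.c2.of_le (by norm_num)) hφ hφs l]
        refine abs_integral_le_integral_abs.trans (integral_mono_of_nonneg
          (Eventually.of_forall fun x => abs_nonneg _) (hiψ l) (Eventually.of_forall fun x => ?_))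
        show |w x * pd l φ x| ≤ |pd l φ x|
        rw [abs_mul]
        exact mul_le_of_le_one_left (abs_nonneg _) (hw.bdd x)
      calc Cg * σ * ν l * ∫ x, pd l w x * φ x ≤ |Cg * σ * ν l * ∫ x, pd l w x * φ x| := le_abs_self _
        _ = Cg * (|ν l| * |∫ x, pd l w x * φ x|) := by
            rw [abs_mul, abs_mul, abs_mul, hσ, abs_of_nonneg hCg0]; ring
        _ ≤ Cg * (1 * ∫ x, |pd l φ x|) := mul_le_mul_of_nonneg_left
            (mul_le_mul hl1 hib (abs_nonneg _) zero_le_one) hCg0
        _ = _ := by rw [one_mul]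
  have hmain := h.energy_le_upper hw hC₁0 hC₁ hC₂ hφ hφs
  have hle : ∫ x, gsq u x * φ x ≤ 2 * ∫ x, dens u x * φ x := by
    rw [← integral_const_mul]
    refine integral_mono (integrable_mul_supp (gsq_continuous (h.c2.of_le (by norm_num))) hφ.continuous hφs)
      ((integrable_mul_supp (dens_c1 h).continuous hφ.continuous hφs).const_mul 2) fun x => ?_
    simp only [dens]
    nlinarith [mul_nonneg (sq_nonneg (1 - u x ^ 2)) (hφ0 x)]
  linarith

end Vale.Agent.P134
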