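import Vale.Agent.P134.Third

/-!
P134: the limit of a monotone solution in the increasing direction.
-/

namespace Vale.Agent.P134

open MeasureTheory Filter Set
open scoped BigOperators Topology

variable {n : ℕ} {u : V n → ℝ} {d : Fin n}

/-- Translations of solutions are solutions. -/
theorem Sol.shift (h : Sol u d) (a : V n) : Sol (fun x => u (x + a)) d where
  c2 := h.c2.comp (contDiff_id.add contDiff_const)
  bdd x := h.bdd _
  eq x := by
    simp only [lap, pd_add_right]
    exact h.eq (x + a)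
  mono x := by rw [pd_add_right]; exact h.mono _

/-- Dominated convergence against a continuous compactly supported weight. -/
theorem tendsto_integral_weight {f : ℕ → V n → ℝ} {fi w : V n → ℝ} (hf : ∀ k, Continuous (f k))
    (hw : Continuous w) (hws : HasCompactSupport w) {C : ℝ} (hC : ∀ k x, |f k x| ≤ C)
    (hlim : ∀ x, Tendsto (fun k => f k x) atTop (𝓝 (fi x))) :
    Tendsto (fun k => ∫ x, f k x * w x) atTop (𝓝 (∫ x, fi x * w x)) := by
  refine tendsto_integral_of_dominated_convergence (fun x => C * |w x|)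
    (fun k => ((hf k).mul hw).aestronglyMeasurable)
    ((hw.integrable_of_hasCompactSupport hws).abs.const_mul C) (fun k => Eventually.of_forall fun x => ?_)
    (Eventually.of_forall fun x => (hlim x).mul_const _)
  rw [Real.norm_eq_abs, abs_mul]
  exact mul_le_mul_of_nonneg_right (hC k x) (abs_nonneg _)

/-- Where two gradient components are not proportional up to second order. -/
noncomputable def wedge (u : V n → ℝ) (a b : Fin n) (x : V n) : ℝ :=
  ∑ j, (pd a u x * pd j (pd b u) x - pd b u x * pd j (pd a u) x) ^ 2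

/-- The inequality for two gradient components. -/
theorem Sol.pair_le (h : Sol u d) (a b : Fin n) {C : ℝ} (hC : ∀ i x, |pd i u x| ≤ C) {η : V n → ℝ}
    (hη : ContDiff ℝ 1 η) (hηs : HasCompactSupport η) :
    ∫ x, wedge u a b x * η x ^ 2 ≤
      8 * C ^ 2 * ((∫ x, pd a u x ^ 2 * gsq η x) + ∫ x, pd b u x ^ 2 * gsq η x) := by
  have hpt : ∀ x, wedge u a b x * η x ^ 2 ≤
      2 * C ^ 2 * (η x ^ 2 * defect u d a x) + 2 * C ^ 2 * (η x ^ 2 * defect u d b x) := by
    intro x
    simp only [wedge, defect, Finset.sum_mul, Finset.mul_sum, ← Finset.sum_add_distrib]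
    refine Finset.sum_le_sum fun j _ => ?_
    set v := pd d u x
    set vj := pd j (pd d u) x
    set A := pd j (pd a u) x - pd a u x * vj / v
    set B := pd j (pd b u) x - pd b u x * vj / v
    have e1 : pd a u x * pd j (pd b u) x - pd b u x * pd j (pd a u) x =
        pd a u x * B - pd b u x * A := by simp only [A, B]; ring
    have s : ∀ i, pd i u x ^ 2 ≤ C ^ 2 := fun i => by
      rw [← sq_abs (pd i u x)]; exact pow_le_pow_left₀ (abs_nonneg _) (hC i x) 2
    rw [e1]
    nlinarith [mul_le_mul_of_nonneg_right (s a) (mul_nonneg (sq_nonneg B) (sq_nonneg (η x))),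
      mul_le_mul_of_nonneg_right (s b) (mul_nonneg (sq_nonneg A) (sq_nonneg (η x))),
      mul_nonneg (sq_nonneg (pd a u x * B + pd b u x * A)) (sq_nonneg (η x))]
  have hη2 : HasCompactSupport fun x => η x ^ 2 := hηs.comp_left (g := fun t : ℝ => t ^ 2) (by simp)
  have hiD : ∀ i, Integrable fun x => η x ^ 2 * defect u d i x := fun i => by
    have hc : Continuous fun x => η x ^ 2 * defect u d i x :=
      Continuous.mul (hη.continuous.pow 2) (defect_continuous h i)
    exact hc.integrable_of_hasCompactSupport hη2.mul_right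
  have hcW : Continuous (wedge u a b) := continuous_finsetSum _ fun j _ =>
    (((pd_c1 h.c2 a).continuous.mul (pd_continuous (pd_c1 h.c2 b) j)).sub
      ((pd_c1 h.c2 b).continuous.mul (pd_continuous (pd_c1 h.c2 a) j))).pow 2
  have hm := integral_mono (integrable_mul_supp (g := fun x => η x ^ 2) hcW (hη.continuous.pow 2) hη2)
    (((hiD a).const_mul (2 * C ^ 2)).add ((hiD b).const_mul (2 * C ^ 2))) hpt
  simp only [Pi.add_apply] at hm
  rw [integral_add ((hiD a).const_mul _) ((hiD b).const_mul _), integral_const_mul,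
    integral_const_mul] at hm
  have ha := mul_le_mul_of_nonneg_left (h.defect_le a hη hηs) (by positivity : 0 ≤ 2 * C ^ 2)
  have hb := mul_le_mul_of_nonneg_left (h.defect_le b hη hηs) (by positivity : 0 ≤ 2 * C ^ 2)
  linarith

/-- The properties of the upper limit which are used. -/
structure Upper (u : V n → ℝ) (d : Fin n) (w : V n → ℝ) (C : ℝ) : Prop where
  c2 : ContDiff ℝ 2 w
  bdd : ∀ x, |w x| ≤ 1
  eq : ∀ x, lap w x = w x ^ 3 - w x
  inv : ∀ x, pd d w x = 0
  lim : ∀ x, Tendsto (fun k : ℕ => u (x + (k : ℝ) • e d)) atTop (𝓝 (w x))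
  lim1 : ∀ i x, Tendsto (fun k : ℕ => pd i u (x + (k : ℝ) • e d)) atTop (𝓝 (pd i w x))
  g1 : ∀ i x, |pd i w x| ≤ C
  g2 : ∀ i j x, |pd j (pd i w) x| ≤ C
  l1 : ∀ i x y, |pd i w x - pd i w y| ≤ C * ‖x - y‖
  l2 : ∀ i j x y, |pd j (pd i w) x - pd j (pd i w) y| ≤ C * ‖x - y‖
  stable : ∀ φ : V n → ℝ, ContDiff ℝ 1 φ → HasCompactSupport φ →
    0 ≤ ∫ x, (gsq φ x + (3 * w x ^ 2 - 1) * φ x ^ 2)
  pair : ∀ a b (η : V n → ℝ), ContDiff ℝ 1 η → HasCompactSupport η →
    ∫ x, wedge w a b x * η x ^ 2 ≤
      8 * C ^ 2 * ((∫ x, pd a w x ^ 2 * gsq η x) + ∫ x, pd b w x ^ 2 * gsq η x)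

/-- The upper limit exists. -/
theorem Sol.exists_upper (h : Sol u d) : ∃ (w : V n → ℝ) (C : ℝ), 0 ≤ C ∧ Upper u d w C := by
  obtain ⟨C, hC0, hg1, hg2, hl1, hl2⟩ := hessian_lip h.c2 h.bdd h.eq
  set q : ℕ → V n → ℝ := fun k x => u (x + (k : ℝ) • e d) with hq
  set w : V n → ℝ := fun x => ⨆ t : ℝ, u (x + t • e d) with hw
  have hmono : ∀ x, Monotone fun t : ℝ => u (x + t • e d) := fun x =>
    monotone_of_hasDerivAt_nonneg (fun t => by
      have hl : HasDerivAt (fun t : ℝ => x + t • e d) (e d) t := by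
        simpa using ((hasDerivAt_id t).smul_const (e d)).const_add x
      exact (h.c2.differentiable (by norm_num) _).hasFDerivAt.comp_hasDerivAt t hl)
      fun t => (h.mono _).le
  have hlim : ∀ x, Tendsto (fun k => q k x) atTop (𝓝 (w x)) := fun x =>
    (tendsto_atTop_ciSup (hmono x) ⟨1, by rintro _ ⟨t, rfl⟩; exact (abs_le.1 (h.bdd _)).2⟩).comp
      tendsto_natCast_atTop_atTop
  have hwd : ∀ (x : V n) (t : ℝ), w (x + t • e d) = w x := by
    intro x t
    have hb : BddAbove (range fun s : ℝ => u (x + s • e d)) :=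
      ⟨1, by rintro _ ⟨s, rfl⟩; exact (abs_le.1 (h.bdd _)).2⟩
    have h1 := tendsto_atTop_ciSup (hmono (x + t • e d))
      ⟨1, by rintro _ ⟨s, rfl⟩; exact (abs_le.1 (h.bdd _)).2⟩
    have h2 := (tendsto_atTop_ciSup (hmono x) hb).comp (tendsto_atTop_add_const_left atTop t tendsto_id)
    refine tendsto_nhds_unique h1 (h2.congr fun s => ?_)
    simp only [Function.comp_apply, id_eq, add_smul, add_assoc]
  have hqc : ∀ k, ContDiff ℝ 2 (q k) := fun k => (h.shift _).c2
  have hqp : ∀ k i, pd i (q k) = fun x => pd i u (x + (k : ℝ) • e d) := fun k i => pd_add_right _ _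
  have hqpp : ∀ k i j x, pd j (pd i (q k)) x = pd j (pd i u) (x + (k : ℝ) • e d) := fun k i j x => by
    rw [hqp, pd_add_right]
  obtain ⟨hw1, hwl, hwlip⟩ := limit_c1 (q := q) (qi := w)
    (fun k => (hqc k).differentiable (by norm_num)) (C := C)
    (fun k i x y => by rw [hqp]; simpa using hl1 i (x + (k : ℝ) • e d) (y + (k : ℝ) • e d)) hlim
  have second : ∀ i, ContDiff ℝ 1 (pd i w) ∧
      (∀ j x, Tendsto (fun k => pd j (pd i (q k)) x) atTop (𝓝 (pd j (pd i w) x))) ∧
        ∀ j x y, |pd j (pd i w) x - pd j (pd i w) y| ≤ C * ‖x - y‖ := fun i =>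
    limit_c1 (q := fun k => pd i (q k)) (qi := pd i w)
      (fun k => (pd_c1 (hqc k) i).differentiable one_ne_zero)
      (fun k j x y => by rw [hqpp, hqpp]; simpa using hl2 i j (x + (k : ℝ) • e d) (y + (k : ℝ) • e d))
      (hwl i)
  have hw2 : ContDiff ℝ 2 w := by
    rw [show (2 : WithTop ℕ∞) = 1 + 1 by norm_num, contDiff_succ_iff_fderiv]
    refine ⟨hw1.differentiable one_ne_zero, fun h => absurd h (by simp), ?_⟩
    have e1 : fderiv ℝ w = fun x => ∑ i, pd i w x • (ContinuousLinearMap.proj i : V n →L[ℝ] ℝ) := by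
      funext x
      ext v
      rw [fderiv_apply_eq_sum]
      simp [mul_comm]
    rw [e1]
    exact ContDiff.sum fun i _ => (second i).1.smul contDiff_const
  have hwb : ∀ x, |w x| ≤ 1 := fun x =>
    le_of_tendsto (hlim x).abs (Eventually.of_forall fun k => h.bdd _)
  have hinv : ∀ x, pd d w x = 0 := fun x => by
    have hl : HasDerivAt (fun t : ℝ => x + t • e d) (e d) 0 := by
      simpa using ((hasDerivAt_id (0 : ℝ)).smul_const (e d)).const_add x
    have h1 : HasDerivAt (fun t : ℝ => w (x + t • e d)) (pd d w x) 0 :=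
      HasFDerivAt.comp_hasDerivAt (l := w) (0 : ℝ)
        (by simpa using (hw2.differentiable (by norm_num) x).hasFDerivAt) hl
    simp only [hwd] at h1
    exact h1.unique (hasDerivAt_const _ _)
  have hg1' : ∀ i x, |pd i w x| ≤ C := fun i x =>
    le_of_tendsto (hwl i x).abs (Eventually.of_forall fun k => by rw [hqp]; exact hg1 i _)
  refine ⟨w, C, hC0, hw2, hwb, fun x => ?_, hinv, hlim, fun i x => ?_, hg1', fun i j x => ?_, hwlip,
    fun i => (second i).2.2, fun φ hφ hφs => ?_, fun a b η hη hηs => ?_⟩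
  · have h1 : Tendsto (fun k => lap (q k) x) atTop (𝓝 (lap w x)) :=
      tendsto_finsetSum _ fun j _ => (second j).2.1 j x
    refine tendsto_nhds_unique h1 ((((hlim x).pow 3).sub (hlim x)).congr fun k => ?_)
    exact ((h.shift _).eq x).symm
  · exact (hwl i x).congr fun k => by rw [hqp]
  · exact le_of_tendsto ((second i).2.1 j x).abs (Eventually.of_forall fun k => by
      rw [hqpp]; exact hg2 i j _)
  · have hst : ∀ k, 0 ≤ (∫ x, gsq φ x) + ∫ x, W2 (q k) x * φ x ^ 2 := fun k => by
      have hφ2 : HasCompactSupport fun x => φ x ^ 2 :=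
        hφs.comp_left (g := fun t : ℝ => t ^ 2) (by simp)
      rw [← integral_add ((gsq_continuous hφ).integrable_of_hasCompactSupport (gsq_compact hφs))
        (integrable_mul_supp (g := fun x => φ x ^ 2) (W2_continuous (h.shift ((k : ℝ) • e d))) (hφ.continuous.pow 2) hφ2)]
      exact (h.shift _).stable hφ hφs
    have hφ2 : HasCompactSupport fun x => φ x ^ 2 := hφs.comp_left (g := fun t : ℝ => t ^ 2) (by simp)
    have hW : Continuous fun x => 3 * w x ^ 2 - 1 := by have := hw2.continuous; fun_prop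
    rw [integral_add ((gsq_continuous hφ).integrable_of_hasCompactSupport (gsq_compact hφs))
      (integrable_mul_supp (f := fun x => 3 * w x ^ 2 - 1) (g := fun x => φ x ^ 2) hW (hφ.continuous.pow 2) hφ2)]
    refine ge_of_tendsto ((tendsto_integral_weight (f := fun k => W2 (q k)) (w := fun x => φ x ^ 2) (C := 4)
      (fun k => W2_continuous (h.shift _)) (hφ.continuous.pow 2) hφ2 (fun k x => ?_)
      fun x => (((hlim x).pow 2).const_mul 3).sub_const 1).const_add _) (Eventually.of_forall hst)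
    simp only [W2, hq]
    obtain ⟨p1, p2⟩ := abs_le.1 (h.bdd (x + (k : ℝ) • e d))
    rw [abs_le]
    constructor <;> nlinarith [sq_nonneg (u (x + (k : ℝ) • e d)),
      mul_nonneg (sub_nonneg.2 p2) (neg_le_iff_add_nonneg.1 p1)]
  · have hη2 : HasCompactSupport fun x => η x ^ 2 := hηs.comp_left (g := fun t : ℝ => t ^ 2) (by simp)
    have hb : ∀ i k x, |pd i (q k) x ^ 2| ≤ C ^ 2 := fun i k x => by
      rw [hqp, abs_pow]; exact pow_le_pow_left₀ (abs_nonneg _) (hg1 i _) 2
    have L1 := tendsto_integral_weight (f := fun k => wedge (q k) a b) (fi := wedge w a b)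
      (w := fun x => η x ^ 2) (C := (n : ℝ) * (2 * C ^ 2) ^ 2)
      (fun k => continuous_finsetSum _ fun j _ =>
        (((pd_c1 (hqc k) a).continuous.mul (pd_continuous (pd_c1 (hqc k) b) j)).sub
          ((pd_c1 (hqc k) b).continuous.mul (pd_continuous (pd_c1 (hqc k) a) j))).pow 2)
      (hη.continuous.pow 2) hη2
      (fun k x => by
        simp only [wedge, hqpp]
        rw [hqp k a, hqp k b, abs_of_nonneg (Finset.sum_nonneg fun j _ => sq_nonneg _)]
        refine (Finset.sum_le_sum fun j (_ : j ∈ Finset.univ) =>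
          (sq_abs _).ge.trans (pow_le_pow_left₀ (abs_nonneg _) (?_ : _ ≤ 2 * C ^ 2) 2)).trans
          (le_of_eq (by simp))
        refine (abs_sub _ _).trans ?_
        rw [abs_mul, abs_mul]
        have t1 := mul_le_mul (hg1 a (x + (k : ℝ) • e d)) (hg2 b j (x + (k : ℝ) • e d)) (abs_nonneg _) hC0
        have t2 := mul_le_mul (hg1 b (x + (k : ℝ) • e d)) (hg2 a j (x + (k : ℝ) • e d)) (abs_nonneg _) hC0
        linarith)
      (fun x => tendsto_finsetSum _ fun j _ =>
        (((hwl a x).mul ((second b).2.1 j x)).sub ((hwl b x).mul ((second a).2.1 j x))).pow 2)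
    have L2 : ∀ i, Tendsto (fun k => ∫ x, pd i (q k) x ^ 2 * gsq η x) atTop
        (𝓝 (∫ x, pd i w x ^ 2 * gsq η x)) := fun i =>
      tendsto_integral_weight (f := fun k x => pd i (q k) x ^ 2)
        (fun k => (pd_c1 (hqc k) i).continuous.pow 2) (gsq_continuous hη) (gsq_compact hηs) (hb i)
        fun x => (hwl i x).pow 2
    exact le_of_tendsto_of_tendsto L1 (((L2 a).add (L2 b)).const_mul _)
      (Eventually.of_forall fun k => (h.shift _).pair_le a b (fun i x => by
        rw [pd_add_right]; exact hg1 i _) hη hηs)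

end Vale.Agent.P134
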