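import Vale.Agent.P134.Main
import Vale.Agent.P134.Limit

/-!
P134: an almost periodic upper limit with two free variables is a function of one linear form.
-/

namespace Vale.Agent.P134

open MeasureTheory Filter Set
open scoped BigOperators Topology

variable {n : ℕ} {u w : V n → ℝ} {d : Fin n} {C : ℝ}

/-- Translations along the coordinates in `M` return uniformly, with bounded gaps. -/
def APer (M : Finset (Fin n)) (u : V n → ℝ) : Prop :=
  ∀ ε : ℝ, 0 < ε → ∃ L : ℝ, ∀ a : V n, (∀ i, i ∉ M → a i = 0) →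
    ∃ b : V n, (∀ i, i ∉ M → b i = 0) ∧ ‖b - a‖ ≤ L ∧ ∀ x, |u (x + b) - u x| ≤ ε

/-- Almost periodicity gives recurrence. -/
theorem APer.recurrent {M : Finset (Fin n)} (h : APer M u) : Recurrent M u := fun ε hε _ => by
  obtain ⟨L, hL⟩ := h ε hε
  refine ⟨L, fun a ha => ?_⟩
  obtain ⟨b, h1, h2, h3⟩ := hL a ha
  exact ⟨b, h1, h2, fun x _ => h3 x⟩

/-- The upper limit is almost periodic in the given directions and in the direction of increase. -/
theorem Upper.aper (hw : Upper u d w C) {M : Finset (Fin n)} (hdM : d ∉ M) (h : APer M u) :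
    APer (insert d M) w := by
  classical
  intro ε hε
  obtain ⟨L, hL⟩ := h ε hε
  refine ⟨L, fun a ha => ?_⟩
  obtain ⟨b, hb0, hb1, hb2⟩ := hL (a - a d • e d) fun i hi => by
    by_cases hid : i = d
    · subst hid; simp [e]
    · simp [e, hid, ha i (by simp [hid, hi])]
  refine ⟨b + a d • e d, fun i hi => ?_, ?_, fun x => ?_⟩
  · rw [Finset.mem_insert, not_or] at hi
    simp [hb0 i hi.2, e, hi.1]
  · rwa [show b + a d • e d - a = b - (a - a d • e d) by abel]
  · have hinv : w (x + (b + a d • e d)) = w (x + b) := by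
      rw [← add_assoc]
      refine eq_of_sum_pd_zero hw.c2 (fun y => Finset.sum_eq_zero fun j _ => ?_) _
      by_cases hj : j = d
      · subst hj; simp [hw.inv y]
      · simp [e, hj]
    rw [hinv]
    refine le_of_tendsto ((hw.lim (x + b)).sub (hw.lim x)).abs (Eventually.of_forall fun k => ?_)
    rw [add_right_comm]
    exact hb2 _

/-- Uniformly close values give uniformly close first and second derivatives. -/
theorem Upper.close (hw : Upper u d w C) {δ : ℝ} (hδ : 0 < δ) :
    ∃ ε : ℝ, 0 < ε ∧ ∀ b : V n, (∀ x, |w (x + b) - w x| ≤ ε) →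
      (∀ i x, |pd i w (x + b) - pd i w x| ≤ δ) ∧
        ∀ i j x, |pd j (pd i w) (x + b) - pd j (pd i w) x| ≤ δ := by
  have step : ∀ {δ : ℝ}, 0 < δ → ∃ ε : ℝ, 0 < ε ∧ ∀ (q : V n → ℝ), Differentiable ℝ q →
      (∀ i x y, |pd i q x - pd i q y| ≤ C * ‖x - y‖) → ∀ b : V n,
        (∀ x, |q (x + b) - q x| ≤ ε) → ∀ i x, |pd i q (x + b) - pd i q x| ≤ δ := by
    intro δ hδ
    set r := δ / (4 * (n : ℝ) * |C| + 1) with hr
    have hr0 : 0 < r := by positivity
    refine ⟨δ * r / 4, by positivity, fun q hq hl b hb i x => ?_⟩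
    have h := pd_close_of_values (p := fun y => q (y + b)) (q := q) (hq.comp (differentiable_id.add_const _))
      hq (C := |C|) (fun l y z => by
        rw [pd_add_right]
        simpa using (hl l (y + b) (z + b)).trans
          (mul_le_mul_of_nonneg_right (le_abs_self C) (norm_nonneg _)))
      (fun l y z => (hl l y z).trans (mul_le_mul_of_nonneg_right (le_abs_self C) (norm_nonneg _))) i x hr0
    rw [pd_add_right] at h
    refine h.trans ?_
    have e1 : (|q (x + r • e i + b) - q (x + r • e i)| + |q (x + b) - q x|) / r ≤ δ / 2 := by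
      rw [div_le_iff₀ hr0]
      linarith [hb (x + r • e i), hb x]
    have e2 : (n : ℝ) * (2 * |C|) * r ≤ δ / 2 := by
      rw [hr, mul_div, div_le_iff₀ (by positivity)]
      linarith [hδ]
    linarith
  obtain ⟨ε₂, hε₂, h₂⟩ := step hδ
  obtain ⟨ε₁, hε₁, h₁⟩ := step (lt_min hδ hε₂)
  refine ⟨ε₁, hε₁, fun b hb => ?_⟩
  have g1 := h₁ w (hw.c2.differentiable (by norm_num)) hw.l1 b hb
  exact ⟨fun i x => (g1 i x).trans (min_le_left _ _), fun i =>
    h₂ (pd i w) ((pd_c1 hw.c2 i).differentiable one_ne_zero) (hw.l2 i) b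
      fun x => (g1 i x).trans (min_le_right _ _)⟩

/-- Two gradient components are proportional up to second order. -/
theorem Upper.rank_one (hw : Upper u d w C) (hC : 0 ≤ C) {M : Finset (Fin n)} (hcard : Mᶜ.card ≤ 2)
    (hap : APer M w) (a b : Fin n) (x₀ : V n) : wedge w a b x₀ = 0 := by
  classical
  by_contra hne
  have hnn : ∀ x, 0 ≤ wedge w a b x := fun x => Finset.sum_nonneg fun j _ => sq_nonneg _
  have hpos : 0 < wedge w a b x₀ := lt_of_le_of_ne (hnn x₀) (Ne.symm hne)
  set K := wedge w a b x₀ with hK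
  have hcont : Continuous (wedge w a b) := continuous_finsetSum _ fun j _ =>
    (((pd_c1 hw.c2 a).continuous.mul (pd_continuous (pd_c1 hw.c2 b) j)).sub
      ((pd_c1 hw.c2 b).continuous.mul (pd_continuous (pd_c1 hw.c2 a) j))).pow 2
  obtain ⟨r, hr, hball⟩ := Metric.isOpen_iff.1 (hcont.isOpen_preimage (Ioi (K / 2)) isOpen_Ioi) x₀
    (show K / 2 < wedge w a b x₀ by linarith)
  set r' := min r 1 with hr'
  have hr'0 : 0 < r' := lt_min hr one_pos
  set δ := min 1 (K / (4 * ((n : ℝ) * (16 * (C + 1) ^ 3) + 1))) with hδ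
  have hδ0 : 0 < δ := lt_min one_pos (by positivity)
  obtain ⟨ε, hε, hclose⟩ := hw.close hδ0
  have hshift : ∀ c : V n, (∀ x, |w (x + c) - w x| ≤ ε) → ∀ x, wedge w a b x - K / 4 ≤ wedge w a b (x + c) := by
    intro c hc x
    obtain ⟨g1, g2⟩ := hclose c hc
    have hterm : ∀ j, (pd a w x * pd j (pd b w) x - pd b w x * pd j (pd a w) x) ^ 2 -
        16 * (C + 1) ^ 3 * δ ≤ (pd a w (x + c) * pd j (pd b w) (x + c) -
          pd b w (x + c) * pd j (pd a w) (x + c)) ^ 2 := by
      intro j
      set p := pd a w x * pd j (pd b w) x - pd b w x * pd j (pd a w) x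
      set p' := pd a w (x + c) * pd j (pd b w) (x + c) - pd b w (x + c) * pd j (pd a w) (x + c)
      have hprod : ∀ A A' B B' : ℝ, |A| ≤ C → |B'| ≤ C → |A' - A| ≤ δ → |B' - B| ≤ δ →
          |A' * B' - A * B| ≤ 2 * C * δ := fun A A' B B' hA hB' h1 h2 => by
        rw [show A' * B' - A * B = (A' - A) * B' + A * (B' - B) by ring]
        refine (abs_add_le _ _).trans ?_
        rw [abs_mul, abs_mul]
        have := mul_le_mul h1 hB' (abs_nonneg _) hδ0.le
        have := mul_le_mul hA h2 (abs_nonneg _) hC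
        linarith
      have hd : |p' - p| ≤ 4 * C * δ := by
        have t1 := hprod _ _ _ _ (hw.g1 a x) (hw.g2 b j (x + c)) (g1 a x) (g2 b j x)
        have t2 := hprod _ _ _ _ (hw.g1 b x) (hw.g2 a j (x + c)) (g1 b x) (g2 a j x)
        rw [abs_le] at t1 t2 ⊢
        constructor <;> simp only [p, p'] <;> linarith
      have hp : ∀ y, |pd a w y * pd j (pd b w) y - pd b w y * pd j (pd a w) y| ≤ 2 * C ^ 2 := fun y => by
        refine (abs_sub _ _).trans ?_
        rw [abs_mul, abs_mul]
        have := mul_le_mul (hw.g1 a y) (hw.g2 b j y) (abs_nonneg _) hC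
        have := mul_le_mul (hw.g1 b y) (hw.g2 a j y) (abs_nonneg _) hC
        linarith
      have e1 : p ^ 2 - p' ^ 2 ≤ |p' - p| * |p + p'| := by
        rw [← abs_mul]
        exact le_trans (le_of_eq (by ring)) (neg_le_abs _)
      have e2 : |p + p'| ≤ 4 * C ^ 2 := (abs_add_le _ _).trans (by
        have := hp x
        have := hp (x + c)
        linarith)
      have e3 := mul_le_mul hd e2 (abs_nonneg _) (by positivity)
      have e4 : 4 * C * δ * (4 * C ^ 2) ≤ 16 * (C + 1) ^ 3 * δ := by
        nlinarith [mul_nonneg hδ0.le (sq_nonneg C), mul_nonneg hδ0.le hC]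
      linarith
    have hs := Finset.sum_le_sum fun j (_ : j ∈ Finset.univ) => hterm j
    rw [Finset.sum_sub_distrib, Finset.sum_const, Finset.card_univ, Fintype.card_fin,
      nsmul_eq_mul] at hs
    have : (n : ℝ) * (16 * (C + 1) ^ 3 * δ) ≤ K / 4 := by
      have := min_le_right 1 (K / (4 * ((n : ℝ) * (16 * (C + 1) ^ 3) + 1)))
      rw [← hδ, le_div_iff₀ (by positivity)] at this
      nlinarith [hδ0]
    simp only [wedge]
    linarith
  obtain ⟨L₀, hL₀⟩ := hap ε hε
  set L := max L₀ 0 with hL
  have hL0 : 0 ≤ L := le_max_right _ _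
  set G := 2 * L + 3 with hG
  have hG0 : 0 < G := by positivity
  set c₀ := K / 4 * volume.real (Metric.ball x₀ r') with hc₀
  have hvol : 0 < volume.real (Metric.ball x₀ r') :=
    ENNReal.toReal_pos (Metric.measure_ball_pos volume x₀ hr'0).ne' measure_ball_lt_top.ne
  have hc₀0 : 0 < c₀ := by positivity
  obtain ⟨B, hB0, hbB, hgB⟩ := exists_deriv_bound
  obtain ⟨l₀, hl₀⟩ := pow_unbounded_of_one_lt ((n : ℝ) * (‖x₀‖ + 2) ^ 2) (by norm_num : (1 : ℝ) < 16)
  set m := M.card with hm
  set P := Mᶜ with hP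
  set c₁ := c₀ / (2 * G) ^ m with hc₁
  have hc₁0 : 0 < c₁ := by positivity
  set Kc := 16 * C ^ 4 * 4 ^ m * (n : ℝ) * B ^ 2 * 16 * 16 with hKc
  obtain ⟨L', hL'⟩ := exists_nat_gt (max 1 (4 * Kc / c₁))
  have hLpos : 0 < L' := by exact_mod_cast zero_lt_one.trans (lt_of_le_of_lt (le_max_left _ _) hL')
  set W : ℝ := 2 * (2 * 4 ^ (l₀ + L')) with hW
  set Kc' := 16 * C ^ 4 * 4 ^ m * (n : ℝ) * B ^ 2 * W ^ 2 with hKc'
  obtain ⟨N, hN1, hN2, hN3⟩ : ∃ N : ℝ, 1 ≤ N ∧ 2 * (L + ‖x₀‖ + 1) ≤ N ∧ 4 * Kc' / c₁ < N := by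
    refine ⟨max (max 1 (2 * (L + ‖x₀‖ + 1))) (4 * Kc' / c₁ + 1), ?_, ?_, ?_⟩
    · exact le_max_of_le_left (le_max_left _ _)
    · exact le_max_of_le_left (le_max_right _ _)
    · exact lt_of_lt_of_le (lt_add_one _) (le_max_right _ _)
  have hN0 : 0 < N := by linarith
  set η : V n → ℝ := fun x => boxCut M N x * logCut P l₀ L' x with hη
  have hηc : ContDiff ℝ 1 η := (boxCut_c1 M N).mul (logCut_c1 P l₀ L')
  have hup : ∀ i, HasCompactSupport η ∧ ∫ x, pd i w x ^ 2 * gsq η x ≤
      C ^ 2 * ((4 * N) ^ m * (n : ℝ) * B ^ 2 * (W ^ 2 / N ^ 2 + 16 * 16 / L')) := fun i =>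
    cutoff_bound (M := M) hcard hB0 hbB hgB l₀ hLpos hN0 (pd_c1 hw.c2 i).continuous (hw.g1 i)
  have hηs : HasCompactSupport η := (hup a).1
  have hη2 : HasCompactSupport fun x => η x ^ 2 := hηs.comp_left (g := fun t : ℝ => t ^ 2) (by simp)
  have hmain := hw.pair a b η hηc hηs
  have hlow : (N / (2 * G)) ^ m * c₀ ≤ ∫ x, wedge w a b x * η x ^ 2 := by
    have := integral_ge_of_returns (M := M) (f := fun x => wedge w a b x * η x ^ 2)
      (integrable_mul_supp (g := fun x => η x ^ 2) hcont (hηc.continuous.pow 2) hη2)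
      (fun x => mul_nonneg (hnn x) (sq_nonneg _)) x₀ (G := G) (L := L) (N := N / 2) hc₀0.le
      (by rw [hG]; linarith) hL0 (by linarith) fun c hc hcN => ?_
    · rwa [div_div] at this
    obtain ⟨s, hs0, hs1, hs2⟩ := hL₀ c hc
    refine ⟨s, hs1.trans (le_max_left _ _), ?_⟩
    have hfi : IntegrableOn (fun x => wedge w a b x * η x ^ 2) (Metric.ball (x₀ + s) 1) :=
      (integrable_mul_supp (g := fun x => η x ^ 2) hcont (hηc.continuous.pow 2) hη2).integrableOn
    refine le_trans ?_ (setIntegral_mono_set hfi (Eventually.of_forall fun x => mul_nonneg (hnn x) (sq_nonneg _))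
      (Metric.ball_subset_ball (min_le_right r 1)).eventuallyLE)
    have hv : volume.real (Metric.ball x₀ r') = volume.real (Metric.ball (x₀ + s) r') := by
      rw [measureReal_def, measureReal_def, Measure.addHaar_ball_center volume x₀,
        Measure.addHaar_ball_center volume (x₀ + s)]
    rw [hc₀, hv]
    refine setIntegral_ge_of_const_le_real measurableSet_ball measure_ball_lt_top.ne (fun x hx => ?_)
      (hfi.mono_set (Metric.ball_subset_ball (min_le_right r 1)))
    rw [Metric.mem_ball, dist_eq_norm] at hx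
    have h1 : K / 2 < wedge w a b (x - s) := hball (show x - s ∈ Metric.ball x₀ r by
      rw [Metric.mem_ball, dist_eq_norm, sub_sub, add_comm s x₀]
      exact hx.trans_le (min_le_left _ _))
    have h2 := hshift s hs2 (x - s)
    rw [sub_add_cancel] at h2
    have hx1 : ‖x - (x₀ + s)‖ ≤ 1 := hx.le.trans (min_le_right _ _)
    have hη1 : η x = 1 := by
      have hsn : ‖s‖ ≤ N / 2 + L := by
        have := norm_le_norm_sub_add s c
        linarith [le_max_left L₀ 0]
      rw [hη]
      simp only
      rw [boxCut_one hN0 fun p _ => ?_, logCut_one hLpos ?_, one_mul]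
      · refine le_trans ?_ hl₀.le
        have : ∀ p ∈ P, x p ^ 2 ≤ (‖x₀‖ + 2) ^ 2 := fun p hp => by
          have h1 := norm_le_pi_norm (x - (x₀ + s)) p
          simp only [Pi.sub_apply, Pi.add_apply, hs0 p (Finset.mem_compl.1 hp), add_zero,
            Real.norm_eq_abs] at h1
          have h2 := norm_le_pi_norm x₀ p
          rw [Real.norm_eq_abs] at h2
          refine sq_le_sq' ?_ ?_ <;> linarith [abs_le.1 (h1.trans hx1), abs_le.1 h2]
        calc sqLen P x ≤ ∑ _p ∈ P, (‖x₀‖ + 2) ^ 2 := Finset.sum_le_sum this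
          _ ≤ ∑ _p : Fin n, (‖x₀‖ + 2) ^ 2 :=
            Finset.sum_le_sum_of_subset_of_nonneg (Finset.subset_univ _) fun _ _ _ => sq_nonneg _
          _ = (n : ℝ) * (‖x₀‖ + 2) ^ 2 := by simp
      · have h1 := norm_le_pi_norm x p
        rw [Real.norm_eq_abs] at h1
        have h2 := norm_le_norm_sub_add x (x₀ + s)
        have h3 := norm_add_le x₀ s
        linarith
    rw [hη1]
    linarith
  have hfin : N ^ m * c₁ ≤ N ^ m * (Kc' / N ^ 2 + Kc / L') := by
    calc N ^ m * c₁ = (N / (2 * G)) ^ m * c₀ := by rw [hc₁, div_pow]; ring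
      _ ≤ 8 * C ^ 2 * (2 * (C ^ 2 * ((4 * N) ^ m * (n : ℝ) * B ^ 2 * (W ^ 2 / N ^ 2 + 16 * 16 / L')))) :=
          hlow.trans (hmain.trans (mul_le_mul_of_nonneg_left (by linarith [(hup a).2, (hup b).2])
            (by positivity)))
      _ = _ := by rw [hKc, hKc', mul_pow]; ring
  have h1 : Kc' / N ^ 2 ≤ c₁ / 4 := by
    rw [div_lt_iff₀ hc₁0] at hN3
    rw [div_le_iff₀ (by positivity)]
    nlinarith [mul_le_mul_of_nonneg_left hN1 (by positivity : 0 ≤ c₁ * N)]
  have h2 : Kc / L' ≤ c₁ / 4 := by
    have := (le_max_right 1 (4 * Kc / c₁)).trans hL'.le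
    rw [div_le_iff₀ hc₁0] at this
    rw [div_le_iff₀ (by positivity)]
    linarith
  have := le_of_mul_le_mul_left hfin (by positivity : (0 : ℝ) < N ^ m)
  linarith

/-- A function whose gradient and Hessian are nowhere independent is a function of one linear form. -/
theorem exists_line (hu : ContDiff ℝ 2 w) (hw : ∀ a b x, wedge w a b x = 0) (d : Fin n) :
    ∃ ν : V n, ∑ l, ν l ^ 2 = 1 ∧ ∀ x, w x = w ((∑ l, ν l * x l) • ν) := by
  classical
  have hrel : ∀ a b j x, pd a w x * pd j (pd b w) x = pd b w x * pd j (pd a w) x := fun a b j x => by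
    have := (Finset.sum_eq_zero_iff_of_nonneg fun i _ => sq_nonneg _).1 (hw a b x) j (Finset.mem_univ j)
    rw [pow_eq_zero_iff two_ne_zero, sub_eq_zero] at this
    exact this
  -- the gradient is constant on the hyperplane orthogonal to it
  have hplane : ∀ x v : V n, (∃ c, pd c w x ≠ 0) → ∑ l, v l * pd l w x = 0 →
      ∀ i, pd i w (x + v) = pd i w x := by
    intro x v ⟨c, hc⟩ hv
    set A : Set ℝ := {s | ∀ i, pd i w (x + s • v) = pd i w x} with hA
    have hd : ∀ i s, HasDerivAt (fun s : ℝ => pd i w (x + s • v)) (∑ j, v j * pd j (pd i w) (x + s • v)) s := by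
      intro i s
      have hl : HasDerivAt (fun s : ℝ => x + s • v) v s := by
        simpa using ((hasDerivAt_id s).smul_const v).const_add x
      have := ((pd_c1 hu i).differentiable one_ne_zero _).hasFDerivAt.comp_hasDerivAt s hl
      rwa [fderiv_apply_eq_sum] at this
    have hclosed : IsClosed A := by
      rw [hA, Set.setOf_forall]
      exact isClosed_iInter fun i => isClosed_eq
        ((pd_c1 hu i).continuous.comp (by fun_prop)) continuous_const
    have hopen : IsOpen A := by
      rw [Metric.isOpen_iff]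
      intro s₁ hs₁
      have hne : pd c w (x + s₁ • v) ≠ 0 := by rw [hs₁ c]; exact hc
      obtain ⟨r, hr, hrb⟩ := Metric.isOpen_iff.1
        (isOpen_ne_fun (f := fun s : ℝ => pd c w (x + s • v)) (g := fun _ => (0 : ℝ))
          ((pd_c1 hu c).continuous.comp (by fun_prop)) continuous_const) s₁ hne
      refine ⟨r, hr, fun s hs i => ?_⟩
      have hratio : ∀ a, ∀ t ∈ Metric.ball s₁ r, pd a w (x + t • v) / pd c w (x + t • v) =
          pd a w x / pd c w x := by
        intro a t ht
        have hconst := (convex_ball s₁ r).norm_image_sub_le_of_norm_hasDerivWithin_le (C := 0)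
          (fun y hy => ((hd a y).div (hd c y) (hrb hy)).hasDerivWithinAt) (fun y hy => ?_)
          (Metric.mem_ball_self hr) ht
        · rw [zero_mul, norm_le_zero_iff, sub_eq_zero] at hconst
          simp only [Pi.div_apply] at hconst
          rw [hconst, hs₁ a, hs₁ c]
        · simp only [norm_le_zero_iff]
          rw [Finset.sum_mul, Finset.mul_sum, ← Finset.sum_sub_distrib, Finset.sum_eq_zero, zero_div]
          intro j _
          linear_combination (v j) * (hrel c a j (x + y • v))
      have hprop : ∀ a, ∀ t ∈ Metric.ball s₁ r,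
          pd a w (x + t • v) = pd c w (x + t • v) / pd c w x * pd a w x := fun a t ht => by
        have h := hratio a t ht
        have hne' : pd c w (x + t • v) ≠ 0 := hrb ht
        field_simp at h ⊢
        linarith
      have hconst := (convex_ball s₁ r).norm_image_sub_le_of_norm_hasDerivWithin_le (C := 0)
        (fun y _ => (hd i y).hasDerivWithinAt) (fun y hy => ?_) (Metric.mem_ball_self hr) hs
      · rw [zero_mul, norm_le_zero_iff, sub_eq_zero] at hconst
        rw [hconst, hs₁ i]
      · simp only [norm_le_zero_iff]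
        have hne' : pd c w (x + y • v) ≠ 0 := hrb hy
        have hdot : ∑ j, v j * pd j w (x + y • v) = 0 := by
          rw [Finset.sum_congr rfl fun j _ => show v j * pd j w (x + y • v) =
            pd c w (x + y • v) / pd c w x * (v j * pd j w x) by rw [hprop j y hy]; ring,
            ← Finset.mul_sum, hv, mul_zero]
        have h0 : pd c w (x + y • v) * ∑ j, v j * pd j (pd i w) (x + y • v) = 0 := by
          rw [Finset.mul_sum, Finset.sum_congr rfl fun j _ => show
            pd c w (x + y • v) * (v j * pd j (pd i w) (x + y • v)) =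
              (v j * pd j w (x + y • v)) * pd i (pd c w) (x + y • v) by
                rw [pd_comm hu j i]; linear_combination (v j) * (hrel c j i (x + y • v)),
            ← Finset.sum_mul, hdot, zero_mul]
        exact (mul_eq_zero.1 h0).resolve_left hne'
    have h1 := (IsClopen.eq_univ ⟨hclosed, hopen⟩ ⟨0, fun i => by simp⟩).ge (mem_univ (1 : ℝ))
    intro i
    simpa using h1 i
  -- all gradients are parallel
  have hpar : ∀ x y : V n, (∃ c, pd c w x ≠ 0) → ∀ i l, pd i w x * pd l w y = pd l w x * pd i w y := by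
    intro x y hx i l
    by_contra hne
    have hy : ∃ c, pd c w y ≠ 0 := by
      by_contra h0
      push Not at h0
      exact hne (by simp [h0])
    set p := fun j => pd j w x with hp
    set q := fun j => pd j w y with hq
    set P := ∑ j, p j ^ 2 with hP
    have hP0 : 0 < P := by
      obtain ⟨c, hc⟩ := hx
      exact Finset.sum_pos' (fun j _ => sq_nonneg _) ⟨c, Finset.mem_univ c, by positivity⟩
    set D := ∑ j, p j * q j with hD
    set v₀ : V n := fun j => q j - D / P * p j with hv₀
    have hv1 : ∑ j, v₀ j * p j = 0 := by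
      simp only [hv₀, sub_mul, Finset.sum_sub_distrib, mul_assoc, ← Finset.mul_sum]
      rw [show ∑ j, p j * p j = P from Finset.sum_congr rfl fun j _ => (sq (p j)).symm,
        div_mul_cancel₀ _ hP0.ne', hD, sub_eq_zero]
      exact Finset.sum_congr rfl fun j _ => mul_comm _ _
    have hS : 0 < ∑ j, v₀ j * q j := by
      have e1 : ∑ j, v₀ j * q j = ∑ j, v₀ j ^ 2 := by
        have : ∀ j, v₀ j ^ 2 = v₀ j * q j - D / P * (v₀ j * p j) := fun j => by simp only [hv₀]; ring
        rw [Finset.sum_congr rfl fun j _ => this j, Finset.sum_sub_distrib, ← Finset.mul_sum, hv1,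
          mul_zero, sub_zero]
      rw [e1]
      refine lt_of_le_of_ne (Finset.sum_nonneg fun j _ => sq_nonneg _) fun h0 => hne ?_
      have hz : ∀ j, q j = D / P * p j := fun j => by
        have := (Finset.sum_eq_zero_iff_of_nonneg fun m _ => sq_nonneg (v₀ m)).1 h0.symm j (Finset.mem_univ j)
        simpa [hv₀, sub_eq_zero] using this
      have h1 : pd i w y = D / P * pd i w x := hz i
      have h2 : pd l w y = D / P * pd l w x := hz l
      rw [h1, h2]; ring
    set t := (∑ j, (y j - x j) * q j) / ∑ j, v₀ j * q j with ht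
    have hx' := hplane x (t • v₀) hx (by
      simp only [Pi.smul_apply, smul_eq_mul, mul_assoc, ← Finset.mul_sum]
      rw [show ∑ j, v₀ j * pd j w x = ∑ j, v₀ j * p j from rfl, hv1, mul_zero])
    have hy' := hplane y (x + t • v₀ - y) hy (by
      simp only [Pi.sub_apply, Pi.add_apply, Pi.smul_apply, smul_eq_mul]
      rw [Finset.sum_congr rfl fun j _ => show (x j + t * v₀ j - y j) * pd j w y =
        t * (v₀ j * q j) - (y j - x j) * q j by rw [hq]; ring,
        Finset.sum_sub_distrib, ← Finset.mul_sum, ht, div_mul_cancel₀ _ hS.ne', sub_self])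
    rw [add_sub_cancel] at hy'
    have heq : ∀ j, q j = p j := fun j => ((hy' j).symm.trans (hx' j))
    refine hne ?_
    have h1 : pd i w y = pd i w x := heq i
    have h2 : pd l w y = pd l w x := heq l
    rw [h1, h2]; ring
  by_cases hz : ∀ x c, pd c w x = 0
  · refine ⟨e d, by simp [e, Pi.single_apply], fun x => ?_⟩
    have := eq_of_sum_pd_zero hu (w := x - (∑ l, (e d : V n) l * x l) • e d)
      (fun y => by simp [hz]) ((∑ l, (e d : V n) l * x l) • e d)
    simpa using this
  push Not at hz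
  obtain ⟨x₁, c, hc⟩ := hz
  set P := ∑ j, pd j w x₁ ^ 2 with hP
  have hP0 : 0 < P := Finset.sum_pos' (fun j _ => sq_nonneg _) ⟨c, Finset.mem_univ c, by positivity⟩
  refine ⟨fun j => pd j w x₁ / √P, ?_, fun x => ?_⟩
  · simp only [div_pow, Real.sq_sqrt hP0.le, ← Finset.sum_div]
    exact div_self hP0.ne'
  set ν : V n := fun j => pd j w x₁ / √P with hν
  set t := ∑ l, ν l * x l with ht
  have h1 : ∑ j, (x - t • ν : V n) j * ν j = 0 := by
    simp only [Pi.sub_apply, Pi.smul_apply, smul_eq_mul, sub_mul, Finset.sum_sub_distrib, mul_assoc,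
      ← Finset.mul_sum]
    have : ∑ j, ν j * ν j = 1 := by
      simp only [hν, ← sq, div_pow, Real.sq_sqrt hP0.le, ← Finset.sum_div]
      exact div_self hP0.ne'
    rw [this, mul_one, ht, sub_eq_zero]
    exact Finset.sum_congr rfl fun j _ => mul_comm _ _
  have h2 : ∀ y, ∑ j, (x - t • ν : V n) j * pd j w y = 0 := fun y => by
    have hk : ∀ j, pd j w y = ν j * (√P * (pd c w y / pd c w x₁)) := fun j => by
      have := hpar x₁ y ⟨c, hc⟩ c j
      simp only [hν]
      field_simp
      linarith
    rw [Finset.sum_congr rfl fun j _ => show (x - t • ν : V n) j * pd j w y =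
      (x - t • ν : V n) j * ν j * (√P * (pd c w y / pd c w x₁)) by rw [hk j]; ring,
      ← Finset.sum_mul, h1, zero_mul]
  simpa using eq_of_sum_pd_zero hu h2 (t • ν)

end Vale.Agent.P134
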