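import Vale.Agent.P134.Radial

/-!
P134: one-dimensionality, on the working space and on Euclidean space.
-/

namespace Vale.Agent.P134

open MeasureTheory Filter Set InnerProductSpace
open scoped BigOperators Topology Laplacian

variable {n : ℕ} {u : V n → ℝ} {d : Fin n} {S : Finset (Fin n)}

/-- A function is unchanged along a vector annihilated by its derivative. -/
theorem eq_of_sum_pd_zero (hu : ContDiff ℝ 2 u) {w : V n}
    (hw : ∀ y, ∑ j, w j * pd j u y = 0) (x : V n) : u (x + w) = u x := by
  have hd : ∀ s : ℝ, HasDerivAt (fun s : ℝ => u (x + s • w)) 0 s := fun s => by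
    have h1 : HasDerivAt (fun s : ℝ => x + s • w) w s := by
      simpa using ((hasDerivAt_id s).smul_const w).const_add x
    have h2 := (hu.differentiable (by norm_num) (x + s • w)).hasFDerivAt.comp_hasDerivAt s h1
    rw [fderiv_apply_eq_sum, hw] at h2
    exact h2
  simpa using is_const_of_deriv_eq_zero (fun s => (hd s).differentiableAt)
    (fun s => (hd s).deriv) 1 0

/-- Recurrence extends over the coordinates on which the function does not depend. -/
theorem recurrent_of_block (hu : ContDiff ℝ 2 u) (hdS : d ∉ S)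
    (hS : ∀ i ∈ S, ∀ y, pd i u y = 0) (hrec : Recurrent (insert d S)ᶜ u) :
    Recurrent ({d} : Finset (Fin n))ᶜ u := by
  classical
  intro ε hε R
  obtain ⟨L, hL⟩ := hrec ε hε R
  refine ⟨L, fun a ha => ?_⟩
  set w : V n := fun i => if i ∈ S then a i else 0 with hw
  have hwz : ∀ y, u (y + w) = u y := eq_of_sum_pd_zero hu fun y =>
    Finset.sum_eq_zero fun j _ => by
      by_cases hj : j ∈ S
      · simp [hS j hj y]
      · simp [hw, hj]
  obtain ⟨b, hb0, hb1, hb2⟩ := hL (a - w) fun i hi => by
    rw [Finset.mem_compl, not_not, Finset.mem_insert] at hi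
    rcases hi with rfl | hi
    · simp [hw, hdS, ha i (by simp)]
    · simp [hw, hi]
  refine ⟨b + w, fun i hi => ?_, ?_, fun x hx => ?_⟩
  · rw [Finset.mem_compl, not_not, Finset.mem_singleton] at hi
    subst hi
    simp [hw, hdS, hb0 i (by simp)]
  · rwa [show b + w - a = b - (a - w) by abel]
  · rw [← add_assoc, hwz]
    exact hb2 x hx

/-- Proportional derivatives give a function of one linear form. -/
theorem Sol.line (h : Sol u d) (hc : ∀ i, ∃ c, ∀ x, pd i u x = c * pd d u x) :
    ∃ c : Fin n → ℝ, c d = 1 ∧ ∀ x, u x = u ((∑ i, c i * x i) • e d) := by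
  choose c hc using hc
  have hcd : c d = 1 := by
    have h0 := hc d 0
    exact mul_right_cancel₀ (h.mono 0).ne' (by rw [← h0, one_mul])
  refine ⟨c, hcd, fun x => ?_⟩
  set t := ∑ i, c i * x i with ht
  have hw : ∀ y, ∑ j, (x - t • e d : V n) j * pd j u y = 0 := fun y => by
    have h1 : ∀ j, (x - t • e d : V n) j * pd j u y = (x - t • e d : V n) j * c j * pd d u y :=
      fun j => by rw [hc j y]; ring
    rw [Finset.sum_congr rfl fun j _ => h1 j, ← Finset.sum_mul]
    have : ∑ j, (x - t • e d : V n) j * c j = 0 := by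
      simp only [Pi.sub_apply, Pi.smul_apply, smul_eq_mul, sub_mul, Finset.sum_sub_distrib]
      rw [show ∑ j, t * e d j * c j = t * c d by simp [e, Pi.single_apply], hcd, mul_one, ht]
      exact sub_eq_zero.2 (Finset.sum_congr rfl fun j _ => mul_comm _ _)
    rw [this, zero_mul]
  simpa using eq_of_sum_pd_zero h.c2 hw (t • e d)

/-- Recurrence in all but two variables, one of them `d`, or block symmetry with recurrence in the
remaining variables, makes the derivatives proportional. -/
theorem Sol.proportional (h : Sol u d)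
    (hs : (∃ j, Recurrent ({d, j} : Finset (Fin n))ᶜ u) ∨
      ∃ S : Finset (Fin n), d ∉ S ∧ S.card ∈ ({2, 3, 4} : Finset ℕ) ∧ RadialIn S u ∧
        Recurrent (insert d S)ᶜ u) (i : Fin n) :
    ∃ c, ∀ x, pd i u x = c * pd d u x := by
  classical
  rcases hs with ⟨j, hj⟩ | ⟨S, hdS, hk, hS, hrec⟩
  · refine h.ratio_const ?_ hj i
    rw [compl_compl]
    exact Finset.card_le_two
  · refine h.ratio_const (M := ({d} : Finset (Fin n))ᶜ) ?_
      (recurrent_of_block h.c2 hdS (fun l hl y => h.block_const hdS hk hS hrec hl y) hrec) i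
    rw [compl_compl]
    simp

section Euclid

variable {U : EuclideanSpace ℝ (Fin n) → ℝ}

/-- The coordinates of Euclidean space. -/
noncomputable def coord (n : ℕ) : EuclideanSpace ℝ (Fin n) ≃L[ℝ] V n :=
  EuclideanSpace.equiv (Fin n) ℝ

@[simp] theorem coord_apply (x : EuclideanSpace ℝ (Fin n)) (i : Fin n) : coord n x i = x i := rfl

theorem coord_symm_apply (y : V n) (i : Fin n) : (coord n).symm y i = y i := rfl

theorem coord_symm_e (i : Fin n) : (coord n).symm (e i) = EuclideanSpace.single i (1 : ℝ) := by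
  ext l
  rw [coord_symm_apply]
  simp [e, Pi.single_apply]

theorem pd_pull (hU : Differentiable ℝ U) (i : Fin n) :
    pd i (fun y => U ((coord n).symm y)) =
      fun y => fderiv ℝ U ((coord n).symm y) (EuclideanSpace.single i 1) := by
  funext y
  have h : HasFDerivAt (fun y => U ((coord n).symm y))
      ((fderiv ℝ U ((coord n).symm y)).comp
        ((coord n).symm : V n →L[ℝ] EuclideanSpace ℝ (Fin n))) y :=
    (hU _).hasFDerivAt.comp y (coord n).symm.hasFDerivAt
  rw [pd, h.fderiv]
  simp [coord_symm_e]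

theorem lap_pull (hU : ContDiff ℝ 2 U) (y : V n) :
    lap (fun y => U ((coord n).symm y)) y = Δ U ((coord n).symm y) := by
  rw [laplacian_eq_iteratedFDeriv_orthonormalBasis U (EuclideanSpace.basisFun (Fin n) ℝ), lap]
  refine Finset.sum_congr rfl fun i _ => ?_
  rw [iteratedFDeriv_two_apply, pd_pull (hU.differentiable (by norm_num)) i]
  have hd : DifferentiableAt ℝ (fderiv ℝ U) ((coord n).symm y) :=
    (hU.fderiv_right (m := 1) (by norm_num)).differentiable one_ne_zero _
  have hd1 : Differentiable ℝ fun z => fderiv ℝ U z (EuclideanSpace.single i 1) :=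
    ((hU.fderiv_right (m := 1) (by norm_num)).clm_apply contDiff_const).differentiable one_ne_zero
  rw [pd_pull hd1 i]
  simp only
  rw [fderiv_clm_apply hd (differentiableAt_const _)]
  simp

theorem sol_pull (hU : ContDiff ℝ 2 U) (heq : ∀ x, Δ U x = U x ^ 3 - U x)
    (hb : ∀ x, |U x| ≤ 1) (hm : ∀ x, 0 < fderiv ℝ U x (EuclideanSpace.single d 1)) :
    Sol (fun y => U ((coord n).symm y)) d where
  c2 := hU.comp (coord n).symm.contDiff
  bdd y := hb _
  eq y := by rw [lap_pull hU, heq]
  mono y := by rw [pd_pull (hU.differentiable (by norm_num))]; exact hm _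

/-- Recurrence is the same for the two norms. -/
theorem recurrent_pull {M : Finset (Fin n)} (h : ∀ ε : ℝ, 0 < ε → ∀ R : ℝ, ∃ L : ℝ,
      ∀ a : EuclideanSpace ℝ (Fin n), (∀ i, i ∉ M → a i = 0) →
        ∃ b : EuclideanSpace ℝ (Fin n), (∀ i, i ∉ M → b i = 0) ∧ ‖b - a‖ ≤ L ∧
          ∀ x, ‖x‖ ≤ R → |U (x + b) - U x| ≤ ε) :
    Recurrent M fun y => U ((coord n).symm y) := by
  intro ε hε R
  set A : V n →L[ℝ] EuclideanSpace ℝ (Fin n) := (coord n).symm.toContinuousLinearMap with hA
  set B : EuclideanSpace ℝ (Fin n) →L[ℝ] V n := (coord n).toContinuousLinearMap with hB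
  obtain ⟨L, hL⟩ := h ε hε (‖A‖ * R)
  refine ⟨‖B‖ * L, fun a ha => ?_⟩
  obtain ⟨b, hb0, hb1, hb2⟩ := hL ((coord n).symm a) fun i hi => by
    rw [coord_symm_apply]; exact ha i hi
  refine ⟨coord n b, fun i hi => by rw [coord_apply]; exact hb0 i hi, ?_, fun y hy => ?_⟩
  · have h1 : coord n b - a = B (b - (coord n).symm a) := by simp [hB]
    rw [h1]
    exact (B.le_opNorm _).trans (mul_le_mul_of_nonneg_left hb1 (norm_nonneg _))
  · simp only [map_add, ContinuousLinearEquiv.symm_apply_apply]
    exact hb2 _ ((A.le_opNorm y).trans (mul_le_mul_of_nonneg_left hy (norm_nonneg _)))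

/-- From a linear form to a unit vector. -/
theorem oneDim_pull {c : Fin n → ℝ} (hcd : c d = 1)
    (hc : ∀ y : V n, U ((coord n).symm y) = U ((coord n).symm ((∑ i, c i * y i) • e d))) :
    ∃ (v : EuclideanSpace ℝ (Fin n)) (f : ℝ → ℝ), ‖v‖ = 1 ∧ ∀ x, U x = f (inner ℝ v x) := by
  set cv : EuclideanSpace ℝ (Fin n) := (coord n).symm c with hcv
  have hne : cv ≠ 0 := fun h => by
    have := congrArg (fun z : EuclideanSpace ℝ (Fin n) => z d) h
    simp [hcv, coord_symm_apply, hcd] at this
  refine ⟨‖cv‖⁻¹ • cv, fun s => U ((coord n).symm ((s * ‖cv‖) • e d)), ?_, fun x => ?_⟩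
  · rw [norm_smul, norm_inv, norm_norm, inv_mul_cancel₀ (norm_ne_zero_iff.2 hne)]
  · have h := hc (coord n x)
    rw [ContinuousLinearEquiv.symm_apply_apply] at h
    rw [h]
    simp only [inner_smul_left, RCLike.conj_to_real]
    congr 3
    rw [mul_right_comm, inv_mul_cancel₀ (norm_ne_zero_iff.2 hne), one_mul, PiLp.inner_apply]
    refine Finset.sum_congr rfl fun i _ => ?_
    simp [hcv, coord_symm_apply, mul_comm]

end Euclid

end Vale.Agent.P134
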