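import Vale.Agent.P134.Returns

/-!
P134: bounded stable solutions of the one-dimensional equation are constants `1`, `-1` or monotone
profiles of finite energy.
-/

namespace Vale.Agent.P134

open MeasureTheory Filter Set
open scoped BigOperators Topology

/-- A bounded stable profile. -/
structure Prof (g : ℝ → ℝ) : Prop where
  d1 : ∀ t, HasDerivAt g (deriv g t) t
  d2 : ∀ t, HasDerivAt (deriv g) (g t ^ 3 - g t) t
  bdd : ∀ t, |g t| ≤ 1
  slope : ∃ C : ℝ, ∀ t, |deriv g t| ≤ C
  stable : ∀ φ : ℝ → ℝ, ContDiff ℝ 1 φ → HasCompactSupport φ →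
    0 ≤ ∫ t, (deriv φ t ^ 2 + (3 * g t ^ 2 - 1) * φ t ^ 2)

variable {g : ℝ → ℝ}

theorem Prof.continuous (h : Prof g) : Continuous g :=
  continuous_iff_continuousAt.2 fun t => (h.d1 t).continuousAt

theorem Prof.continuous_deriv (h : Prof g) : Continuous (deriv g) :=
  continuous_iff_continuousAt.2 fun t => (h.d2 t).continuousAt

theorem Prof.abs_second_le (h : Prof g) (t : ℝ) : |g t ^ 3 - g t| ≤ 2 := by
  obtain ⟨a, b⟩ := abs_le.1 (h.bdd t)
  rw [abs_le]
  constructor <;> nlinarith [mul_nonneg (sub_nonneg.2 b) (neg_le_iff_add_nonneg.1 a), sq_nonneg (g t)]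

/-- An equilibrium attained with zero slope is the whole profile. -/
theorem Prof.const_of_eq (h : Prof g) {s c : ℝ} (hc : c ^ 3 - c = 0) (hs : g s = c)
    (hs' : deriv g s = 0) (t : ℝ) : g t = c := by
  have hcb : |c| ≤ 1 := hs ▸ h.bdd s
  set y : ℝ → ℝ := fun t => (g t - c) ^ 2 + deriv g t ^ 2 with hy
  have hyd : ∀ t, HasDerivAt y (2 * (g t - c) * deriv g t + 2 * deriv g t * (g t ^ 3 - g t)) t := by
    intro t
    refine (((h.d1 t).sub_const c).fun_pow 2 |>.fun_add ((h.d2 t).fun_pow 2)).congr_deriv ?_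
    push_cast; ring
  have hbd : ∀ t, |2 * (g t - c) * deriv g t + 2 * deriv g t * (g t ^ 3 - g t)| ≤ 4 * y t := by
    intro t
    obtain ⟨a1, a2⟩ := abs_le.1 (h.bdd t)
    obtain ⟨b1, b2⟩ := abs_le.1 hcb
    set Φ := g t ^ 2 + g t * c + c ^ 2 - 1 with hΦ
    have hΦb : |1 + Φ| ≤ 4 := by
      rw [abs_le, hΦ]
      constructor <;> nlinarith [sq_nonneg (g t + c), sq_nonneg (g t - c)]
    have e1 : 2 * (g t - c) * deriv g t + 2 * deriv g t * (g t ^ 3 - g t) =
        (1 + Φ) * (2 * (g t - c) * deriv g t) := by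
      rw [hΦ]; linear_combination (2 * deriv g t) * hc
    rw [e1, abs_mul, hy]
    simp only
    refine mul_le_mul hΦb ?_ (abs_nonneg _) (by norm_num)
    rw [abs_le]
    constructor <;> nlinarith [sq_nonneg (g t - c + deriv g t), sq_nonneg (g t - c - deriv g t)]
  have hy0 : y s = 0 := by simp [hy, hs, hs']
  have hzero : y t = 0 := by
    have hnn : 0 ≤ y t := by simp only [hy]; positivity
    rcases le_total s t with hst | hts
    · have hanti : Antitone fun t => y t * Real.exp (-(4 * t)) := by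
        refine antitone_of_hasDerivAt_nonpos (fun t => (hyd t).fun_mul
          (((hasDerivAt_id' t).const_mul 4).fun_neg.exp)) fun t => ?_
        have := abs_le.1 (hbd t)
        simp only [Pi.zero_apply]
        nlinarith [Real.exp_pos (-(4 * t))]
      have := hanti hst
      simp only [hy0, zero_mul] at this
      nlinarith [Real.exp_pos (-(4 * t))]
    · have hmono : Monotone fun t => y t * Real.exp (4 * t) := by
        refine monotone_of_hasDerivAt_nonneg (fun t => (hyd t).fun_mul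
          (((hasDerivAt_id' t).const_mul 4).exp)) fun t => ?_
        have := abs_le.1 (hbd t)
        simp only [Pi.zero_apply]
        nlinarith [Real.exp_pos (4 * t)]
      have := hmono hts
      simp only [hy0, zero_mul] at this
      nlinarith [Real.exp_pos (4 * t)]
  have : (g t - c) ^ 2 = 0 := le_antisymm (by
    simp only [hy] at hzero
    linarith [sq_nonneg (deriv g t)]) (sq_nonneg _)
  rw [pow_eq_zero_iff two_ne_zero, sub_eq_zero] at this
  exact this

/-- A smoothed step. -/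
noncomputable def stp (s₀ δ t : ℝ) : ℝ := Real.smoothTransition ((t - s₀) / δ)

/-- A wide cut-off on the line. -/
noncomputable def cutR (s₀ R t : ℝ) : ℝ := bb ((t - s₀) / R)

theorem stp_c1 (s₀ δ : ℝ) : ContDiff ℝ 1 (stp s₀ δ) :=
  Real.smoothTransition.contDiff.comp ((contDiff_id.sub contDiff_const).div_const δ)

theorem cutR_c1 (s₀ R : ℝ) : ContDiff ℝ 1 (cutR s₀ R) :=
  bb_c1.comp ((contDiff_id.sub contDiff_const).div_const R)

theorem deriv_stp_zero {s₀ δ t : ℝ} (hδ : 0 < δ) (ht : t ∉ Icc s₀ (s₀ + δ)) :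
    deriv (stp s₀ δ) t = 0 := by
  rw [mem_Icc, not_and_or, not_le, not_le] at ht
  rcases ht with ht | ht
  · rw [show deriv (stp s₀ δ) t = deriv (fun _ => (0 : ℝ)) t from Filter.EventuallyEq.deriv_eq (by
      filter_upwards [eventually_lt_nhds ht] with y hy
      exact Real.smoothTransition.zero_of_nonpos (div_nonpos_of_nonpos_of_nonneg (by linarith) hδ.le))]
    simp
  · rw [show deriv (stp s₀ δ) t = deriv (fun _ => (1 : ℝ)) t from Filter.EventuallyEq.deriv_eq (by
      filter_upwards [eventually_gt_nhds ht] with y hy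
      exact Real.smoothTransition.one_of_one_le (by rw [le_div_iff₀ hδ]; linarith))]
    simp

theorem exists_stp_bound : ∃ B : ℝ, 0 ≤ B ∧
    ∀ s₀ δ t : ℝ, 0 < δ → |deriv (stp s₀ δ) t| ≤ B / δ := by
  have hs : HasCompactSupport (deriv Real.smoothTransition) := HasCompactSupport.intro
    (K := Icc (0 : ℝ) 1) isCompact_Icc fun s hs => by
      rw [mem_Icc, not_and_or, not_le, not_le] at hs
      rcases hs with hs | hs
      · rw [show deriv Real.smoothTransition s = deriv (fun _ => (0 : ℝ)) s from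
          Filter.EventuallyEq.deriv_eq (by filter_upwards [eventually_lt_nhds hs] with y hy
            using Real.smoothTransition.zero_of_nonpos hy.le)]
        simp
      · rw [show deriv Real.smoothTransition s = deriv (fun _ => (1 : ℝ)) s from
          Filter.EventuallyEq.deriv_eq (by filter_upwards [eventually_gt_nhds hs] with y hy
            using Real.smoothTransition.one_of_one_le hy.le)]
        simp
  obtain ⟨B, hB⟩ := hs.exists_bound_of_continuous
    ((Real.smoothTransition.contDiff (n := 1)).continuous_deriv le_rfl)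
  refine ⟨B, (norm_nonneg _).trans (hB 0), fun s₀ δ t hδ => ?_⟩
  have hd : HasDerivAt (stp s₀ δ) (deriv Real.smoothTransition ((t - s₀) / δ) * (1 / δ)) t :=
    ((Real.smoothTransition.contDiff (n := 1)).differentiable one_ne_zero _).hasDerivAt.comp t
      (((hasDerivAt_id' t).sub_const s₀).div_const δ)
  rw [hd.deriv, abs_mul, abs_of_pos (one_div_pos.2 hδ), mul_one_div]
  exact div_le_div_of_nonneg_right (hB _) hδ.le

theorem cutR_facts (s₀ : ℝ) {R : ℝ} (hR : 0 < R) {B : ℝ} (hB : ∀ s, |deriv bb s| ≤ B) (t : ℝ) :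
    (t ∉ Icc (s₀ - 2 * R) (s₀ + 2 * R) → cutR s₀ R t = 0 ∧ deriv (cutR s₀ R) t = 0) ∧
      (|t - s₀| < R → cutR s₀ R t = 1 ∧ deriv (cutR s₀ R) t = 0) ∧
        |deriv (cutR s₀ R) t| ≤ B / R := by
  refine ⟨fun ht => ?_, fun ht => ?_, ?_⟩
  · have hout : ∀ y, y ∉ Icc (s₀ - 2 * R) (s₀ + 2 * R) → cutR s₀ R y = 0 := fun y hy => bb_zero (by
      rw [abs_div, abs_of_pos hR, le_div_iff₀ hR]
      by_contra hc
      have := abs_le.1 (not_le.1 hc).le
      exact hy ⟨by linarith, by linarith⟩)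
    refine ⟨hout t ht, ?_⟩
    rw [show deriv (cutR s₀ R) t = deriv (fun _ => (0 : ℝ)) t from Filter.EventuallyEq.deriv_eq (by
      filter_upwards [isClosed_Icc.isOpen_compl.mem_nhds ht] with y hy using hout y hy)]
    simp
  · have hin : ∀ y, |y - s₀| < R → cutR s₀ R y = 1 := fun y hy => bb_one (by
      rw [abs_div, abs_of_pos hR, div_le_one hR]; exact hy.le)
    refine ⟨hin t ht, ?_⟩
    rw [show deriv (cutR s₀ R) t = deriv (fun _ => (1 : ℝ)) t from Filter.EventuallyEq.deriv_eq (by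
      filter_upwards [(isOpen_lt (f := fun y : ℝ => |y - s₀|) (by fun_prop) continuous_const).mem_nhds
        ht] with y hy using hin y hy)]
    simp
  · have hd : HasDerivAt (cutR s₀ R) (deriv bb ((t - s₀) / R) * (1 / R)) t :=
      (bb_c1.differentiable one_ne_zero _).hasDerivAt.comp t
        (((hasDerivAt_id' t).sub_const s₀).div_const R)
    rw [hd.deriv, abs_mul, abs_of_pos (one_div_pos.2 hR), mul_one_div]
    exact div_le_div_of_nonneg_right (hB _) hR.le

theorem cutR_compact (s₀ : ℝ) {R : ℝ} (hR : 0 < R) : HasCompactSupport (cutR s₀ R) := by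
  obtain ⟨B, -, hB, -⟩ := exists_deriv_bound
  exact HasCompactSupport.intro (K := Icc (s₀ - 2 * R) (s₀ + 2 * R)) isCompact_Icc
    fun t ht => ((cutR_facts s₀ hR hB t).1 ht).1

theorem integral_indicator_Icc_const {a b : ℝ} (h : a ≤ b) (K : ℝ) :
    ∫ t, (Icc a b).indicator (fun _ => K) t = (b - a) * K := by
  rw [integral_indicator measurableSet_Icc, setIntegral_const, Real.volume_real_Icc_of_le h,
    smul_eq_mul]

theorem integrable_indicator_Icc_const (a b K : ℝ) :
    Integrable ((Icc a b).indicator fun _ => K) :=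
  (integrable_indicator_iff measurableSet_Icc).2 continuous_const.integrableOn_Icc

theorem integrable_sq_of_compact {f : ℝ → ℝ} (hf : Continuous f) (hs : HasCompactSupport f) :
    Integrable fun t => f t ^ 2 :=
  (show Continuous fun t => f t ^ 2 from hf.pow 2).integrable_of_hasCompactSupport
    (show HasCompactSupport fun t => f t ^ 2 from hs.comp_left (g := fun s : ℝ => s ^ 2) (by simp))

/-- The zero profile is unstable. -/
theorem Prof.not_zero (h : Prof g) : ¬ ∀ t, g t = 0 := by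
  intro h0
  obtain ⟨B, hB0, hbB, -⟩ := exists_deriv_bound
  obtain ⟨R, hR⟩ : ∃ R : ℝ, R = 2 * B ^ 2 + 2 := ⟨_, rfl⟩
  have hR0 : 0 < R := by rw [hR]; positivity
  have hR1 : 1 ≤ R := by rw [hR]; linarith [sq_nonneg B]
  have hc := cutR_c1 0 R
  have hs := cutR_compact 0 hR0
  have hf := cutR_facts 0 hR0 hbB
  have hi1 : Integrable fun t => deriv (cutR 0 R) t ^ 2 :=
    integrable_sq_of_compact (hc.continuous_deriv le_rfl) hs.deriv
  have hi2 : Integrable fun t => cutR 0 R t ^ 2 := integrable_sq_of_compact hc.continuous hs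
  have hst := h.stable _ hc hs
  have e1 : (fun t => deriv (cutR 0 R) t ^ 2 + (3 * g t ^ 2 - 1) * cutR 0 R t ^ 2) =
      fun t => deriv (cutR 0 R) t ^ 2 - cutR 0 R t ^ 2 := funext fun t => by rw [h0]; ring
  rw [e1, integral_sub hi1 hi2] at hst
  have h1 : ∫ t, deriv (cutR 0 R) t ^ 2 ≤
      ∫ t, (Icc (0 - 2 * R) (0 + 2 * R)).indicator (fun _ => (B / R) ^ 2) t := by
    refine integral_mono hi1 (integrable_indicator_Icc_const _ _ _) fun t => ?_
    by_cases ht : t ∈ Icc (0 - 2 * R) (0 + 2 * R)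
    · rw [Set.indicator_of_mem ht, ← sq_abs (deriv (cutR 0 R) t)]
      exact pow_le_pow_left₀ (abs_nonneg _) (hf t).2.2 2
    · rw [Set.indicator_of_notMem ht, ((hf t).1 ht).2]; simp
  have h2 : ∫ t, (Icc (-(R / 2)) (R / 2)).indicator (fun _ => (1 : ℝ)) t ≤ ∫ t, cutR 0 R t ^ 2 := by
    refine integral_mono (integrable_indicator_Icc_const _ _ _) hi2 fun t => ?_
    by_cases ht : t ∈ Icc (-(R / 2)) (R / 2)
    · rw [Set.indicator_of_mem ht, ((hf t).2.1 ?_).1, one_pow]
      rw [sub_zero, abs_lt]; constructor <;> linarith [ht.1, ht.2]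
    · rw [Set.indicator_of_notMem ht]; exact sq_nonneg _
  rw [integral_indicator_Icc_const (a := 0 - 2 * R) (b := 0 + 2 * R) (by linarith)] at h1
  rw [integral_indicator_Icc_const (a := -(R / 2)) (b := R / 2) (by linarith)] at h2
  have h3 : (0 + 2 * R - (0 - 2 * R)) * (B / R) ^ 2 = 4 * B ^ 2 / R := by field_simp; ring
  rw [h3] at h1
  have h4 : 4 * B ^ 2 / R < R := by
    rw [div_lt_iff₀ hR0, hR]
    nlinarith [sq_nonneg (B ^ 2)]
  linarith

/-- The form at a cut-off derivative near a turning point. -/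
theorem Prof.form_cut (h : Prof g) {s₀ : ℝ} (h0 : deriv g s₀ = 0) {C B B' δ R : ℝ}
    (hC : ∀ t, |deriv g t| ≤ C) (hB : ∀ s, |deriv bb s| ≤ B) (hδ : 0 < δ) (hR : 0 < R)
    (hB' : ∀ t, |deriv (stp s₀ δ) t| ≤ B' / δ) :
    let φ := fun t => deriv g t * (stp s₀ δ t * cutR s₀ R t)
    ∫ t, (deriv φ t ^ 2 + (3 * g t ^ 2 - 1) * φ t ^ 2) ≤
      8 * B' ^ 2 * δ + 8 * C ^ 2 * B ^ 2 / R := by
  intro φ
  set χ : ℝ → ℝ := fun t => stp s₀ δ t * cutR s₀ R t with hχ
  have hχc : ContDiff ℝ 1 χ := (stp_c1 s₀ δ).mul (cutR_c1 s₀ R)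
  have hχs : HasCompactSupport χ := (cutR_compact s₀ hR).mul_left
  have hc8 := h.continuous
  have hc7 := h.continuous_deriv
  have hc5 := hχc.continuous
  have hc6 := hχc.continuous_deriv le_rfl
  set F : ℝ → ℝ := fun t => deriv g t * (g t ^ 3 - g t) * χ t ^ 2 with hF
  set F' : ℝ → ℝ := fun t => ((g t ^ 3 - g t) * χ t + deriv g t * deriv χ t) ^ 2 +
    (3 * g t ^ 2 - 1) * (deriv g t * χ t) ^ 2 - deriv g t ^ 2 * deriv χ t ^ 2 with hF'
  have hφd : ∀ t, deriv φ t = (g t ^ 3 - g t) * χ t + deriv g t * deriv χ t := fun t =>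
    ((h.d2 t).fun_mul (hχc.differentiable one_ne_zero t).hasDerivAt).deriv
  have hFd : ∀ t, HasDerivAt F (F' t) t := fun t => by
    refine (((h.d2 t).fun_mul (((h.d1 t).fun_pow 3).fun_sub (h.d1 t))).fun_mul
      ((hχc.differentiable one_ne_zero t).hasDerivAt.fun_pow 2)).congr_deriv ?_
    simp only [hF']
    push_cast; ring
  have hFs : HasCompactSupport F := HasCompactSupport.intro (K := tsupport χ) hχs fun t ht => by
    simp [hF, image_eq_zero_of_notMem_tsupport ht]
  have hF'i : Integrable F' := by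
    refine (show Continuous F' by simp only [hF']; fun_prop).integrable_of_hasCompactSupport ?_
    rw [show F' = deriv F from funext fun t => (hFd t).deriv.symm]
    exact hFs.deriv
  have hzero : ∫ t, F' t = 0 := integral_eq_zero_of_hasDerivAt_of_integrable hFd hF'i
    ((show Continuous F by simp only [hF]; fun_prop).integrable_of_hasCompactSupport hFs)
  have hiG : Integrable fun t => deriv g t ^ 2 * deriv χ t ^ 2 :=
    (show Continuous fun t => deriv g t ^ 2 * deriv χ t ^ 2 by fun_prop).integrable_of_hasCompactSupport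
      ((hχs.deriv.comp_left (g := fun s : ℝ => s ^ 2) (by simp)).mul_left)
  have e1 : ∫ t, (deriv φ t ^ 2 + (3 * g t ^ 2 - 1) * φ t ^ 2) =
      ∫ t, deriv g t ^ 2 * deriv χ t ^ 2 := by
    rw [← add_zero (∫ t, deriv g t ^ 2 * deriv χ t ^ 2), ← hzero, ← integral_add hiG hF'i]
    congr 1; funext t; rw [hφd]; simp only [hF', φ, hχ]; ring
  rw [e1]
  have hlipg : ∀ t ∈ Icc s₀ (s₀ + δ), |deriv g t| ≤ 2 * δ := by
    intro t ht
    have := (convex_Icc s₀ (s₀ + δ)).norm_image_sub_le_of_norm_hasDerivWithin_le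
      (fun s _ => (h.d2 s).hasDerivWithinAt) (fun s _ => by
        rw [Real.norm_eq_abs]; exact h.abs_second_le s) (left_mem_Icc.2 (by linarith)) ht
    rw [h0, sub_zero, Real.norm_eq_abs, Real.norm_eq_abs, abs_of_nonneg (sub_nonneg.2 ht.1)] at this
    linarith [ht.2]
  have hf := cutR_facts s₀ hR hB
  have hb : ∀ t, deriv g t ^ 2 * deriv χ t ^ 2 ≤
      (Icc s₀ (s₀ + δ)).indicator (fun _ => 8 * B' ^ 2) t +
        (Icc (s₀ - 2 * R) (s₀ + 2 * R)).indicator (fun _ => 2 * C ^ 2 * (B / R) ^ 2) t := by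
    intro t
    have hd : deriv χ t = deriv (stp s₀ δ) t * cutR s₀ R t + stp s₀ δ t * deriv (cutR s₀ R) t :=
      (((stp_c1 s₀ δ).differentiable one_ne_zero t).hasDerivAt.fun_mul
        ((cutR_c1 s₀ R).differentiable one_ne_zero t).hasDerivAt).deriv
    have h1 : deriv χ t ^ 2 ≤ 2 * deriv (stp s₀ δ) t ^ 2 + 2 * deriv (cutR s₀ R) t ^ 2 := by
      have q1 : (deriv (stp s₀ δ) t * cutR s₀ R t) ^ 2 ≤ deriv (stp s₀ δ) t ^ 2 := by
        rw [mul_pow]
        exact mul_le_of_le_one_right (sq_nonneg _) (pow_le_one₀ (bb_nonneg _) (bb_le_one _))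
      have q2 : (stp s₀ δ t * deriv (cutR s₀ R) t) ^ 2 ≤ deriv (cutR s₀ R) t ^ 2 := by
        rw [mul_pow]
        exact mul_le_of_le_one_left (sq_nonneg _)
          (pow_le_one₀ (Real.smoothTransition.nonneg _) (Real.smoothTransition.le_one _))
      rw [hd]
      nlinarith [sq_nonneg (deriv (stp s₀ δ) t * cutR s₀ R t - stp s₀ δ t * deriv (cutR s₀ R) t)]
    have h2 : deriv g t ^ 2 * (2 * deriv (stp s₀ δ) t ^ 2) ≤
        (Icc s₀ (s₀ + δ)).indicator (fun _ => 8 * B' ^ 2) t := by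
      by_cases ht : t ∈ Icc s₀ (s₀ + δ)
      · rw [Set.indicator_of_mem ht, ← sq_abs (deriv g t), ← sq_abs (deriv (stp s₀ δ) t)]
        calc |deriv g t| ^ 2 * (2 * |deriv (stp s₀ δ) t| ^ 2)
            ≤ (2 * δ) ^ 2 * (2 * (B' / δ) ^ 2) := by
              gcongr
              · exact hlipg t ht
              · exact hB' t
          _ = 8 * B' ^ 2 := by field_simp; ring
      · rw [Set.indicator_of_notMem ht, deriv_stp_zero hδ ht]; simp
    have h3 : deriv g t ^ 2 * (2 * deriv (cutR s₀ R) t ^ 2) ≤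
        (Icc (s₀ - 2 * R) (s₀ + 2 * R)).indicator (fun _ => 2 * C ^ 2 * (B / R) ^ 2) t := by
      by_cases ht : t ∈ Icc (s₀ - 2 * R) (s₀ + 2 * R)
      · rw [Set.indicator_of_mem ht, ← sq_abs (deriv g t), ← sq_abs (deriv (cutR s₀ R) t)]
        calc |deriv g t| ^ 2 * (2 * |deriv (cutR s₀ R) t| ^ 2) ≤ C ^ 2 * (2 * (B / R) ^ 2) := by
              gcongr
              · exact hC t
              · exact (hf t).2.2
          _ = _ := by ring
      · rw [Set.indicator_of_notMem ht, ((hf t).1 ht).2]; simp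
    linarith [mul_le_mul_of_nonneg_left h1 (sq_nonneg (deriv g t))]
  refine (integral_mono hiG ((integrable_indicator_Icc_const _ _ _).add
    (integrable_indicator_Icc_const _ _ _)) hb).trans (le_of_eq ?_)
  simp only [Pi.add_apply]
  rw [integral_add (integrable_indicator_Icc_const _ _ _) (integrable_indicator_Icc_const _ _ _),
    integral_indicator_Icc_const (a := s₀) (b := s₀ + δ) (by linarith),
    integral_indicator_Icc_const (a := s₀ - 2 * R) (b := s₀ + 2 * R) (by linarith)]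
  field_simp
  ring

/-- The cross term at a turning point. -/
theorem Prof.cross_le (h : Prof g) {s₀ δ R : ℝ} (hδ : 0 < δ) (hδ1 : δ ≤ 1 / 2) (hR : 3 ≤ R)
    {a : ℝ} (hnear : ∀ t ∈ Icc s₀ (s₀ + δ), a ^ 2 / 2 ≤ a * (g t ^ 3 - g t)) :
    let φ := fun t => deriv g t * (stp s₀ δ t * cutR s₀ R t)
    a * ∫ t, (deriv φ t * deriv (cutR s₀ 1) t + (3 * g t ^ 2 - 1) * φ t * cutR s₀ 1 t) ≤
      -(a ^ 2 / 2) := by
  intro φ
  obtain ⟨B, -, hB, -⟩ := exists_deriv_bound
  have hR0 : 0 < R := by linarith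
  set θ := stp s₀ δ with hθ
  set η := cutR s₀ R with hη
  set ψ := cutR s₀ 1 with hψ
  have hθc : ContDiff ℝ 1 θ := stp_c1 s₀ δ
  have hψc : ContDiff ℝ 1 ψ := cutR_c1 s₀ 1
  have hηc : ContDiff ℝ 1 η := cutR_c1 s₀ R
  have hψs : HasCompactSupport ψ := cutR_compact s₀ one_pos
  have hfR := cutR_facts s₀ hR0 hB
  have hf1 := cutR_facts s₀ one_pos hB
  have hφd : ∀ t, deriv φ t = (g t ^ 3 - g t) * (θ t * η t) +
      deriv g t * (deriv θ t * η t + θ t * deriv η t) := fun t =>
    ((h.d2 t).fun_mul ((hθc.differentiable one_ne_zero t).hasDerivAt.fun_mul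
      (hηc.differentiable one_ne_zero t).hasDerivAt)).deriv
  set F : ℝ → ℝ := fun t => (g t ^ 3 - g t) * θ t * ψ t with hF
  set D : ℝ → ℝ := fun t => (g t ^ 3 - g t) * deriv θ t with hD
  set m : ℝ → ℝ := fun t => ((g t ^ 3 - g t) * (θ t * η t) +
      deriv g t * (deriv θ t * η t + θ t * deriv η t)) * deriv ψ t +
    (3 * g t ^ 2 - 1) * (deriv g t * (θ t * η t)) * ψ t with hm
  have hFd : ∀ t, HasDerivAt F (m t + D t) t := by
    intro t
    refine (((((h.d1 t).fun_pow 3).fun_sub (h.d1 t)).fun_mul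
      (hθc.differentiable one_ne_zero t).hasDerivAt).fun_mul
        (hψc.differentiable one_ne_zero t).hasDerivAt).congr_deriv ?_
    simp only [hm, hD]
    push_cast
    by_cases hs : |t - s₀| < R
    · obtain ⟨p1, p2⟩ := (hfR t).2.1 hs
      rw [← hη] at p1 p2
      rw [p1, p2]
      by_cases ht : t ∈ Icc s₀ (s₀ + δ)
      · obtain ⟨q1, q2⟩ := (hf1 t).2.1 (by rw [abs_lt]; constructor <;> linarith [ht.1, ht.2])
        rw [← hψ] at q1 q2
        rw [q1, q2]; ring
      · have q := deriv_stp_zero hδ ht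
        rw [← hθ] at q
        rw [q]; ring
    · have hout : t ∉ Icc (s₀ - 2 * 1) (s₀ + 2 * 1) := fun ht => hs (by
        rw [abs_lt]; constructor <;> linarith [ht.1, ht.2])
      obtain ⟨q1, q2⟩ := (hf1 t).1 hout
      rw [← hψ] at q1 q2
      have q := deriv_stp_zero hδ (fun ht => hs (by
        rw [abs_lt]; constructor <;> linarith [ht.1, ht.2]) : t ∉ Icc s₀ (s₀ + δ))
      rw [← hθ] at q
      rw [q1, q2, q]; ring
  have hc8 := h.continuous
  have hc7 := h.continuous_deriv
  have hc1 := hθc.continuous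
  have hc2 := hθc.continuous_deriv le_rfl
  have hc3 := hψc.continuous
  have hc4 := hψc.continuous_deriv le_rfl
  have hc5 := hηc.continuous
  have hc6 := hηc.continuous_deriv le_rfl
  have hFi : Integrable F := (show Continuous F by simp only [hF]; fun_prop).integrable_of_hasCompactSupport
    hψs.mul_left
  have hDz : ∀ t, t ∉ Icc s₀ (s₀ + δ) → D t = 0 := fun t ht => by
    simp only [hD, hθ, deriv_stp_zero hδ ht, mul_zero]
  have hDc : Continuous D := by simp only [hD]; fun_prop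
  have hDi : Integrable D :=
    hDc.integrable_of_hasCompactSupport (HasCompactSupport.intro isCompact_Icc hDz)
  have hmi : Integrable m := (show Continuous m by simp only [hm]; fun_prop).integrable_of_hasCompactSupport
    (hψs.deriv.mul_left.add hψs.mul_left)
  have hz : ∫ t, (m t + D t) = 0 :=
    integral_eq_zero_of_hasDerivAt_of_integrable hFd (hmi.add hDi) hFi
  rw [integral_add hmi hDi] at hz
  have hθi : ∫ t in s₀..(s₀ + δ), deriv θ t = 1 := by
    rw [intervalIntegral.integral_deriv_eq_sub (fun t _ => hθc.differentiable one_ne_zero t)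
      (hc2.intervalIntegrable _ _)]
    simp [hθ, stp, hδ.ne']
  have hmono : Monotone θ := fun p q hpq =>
    Real.smoothTransition.monotone (div_le_div_of_nonneg_right (by linarith) hδ.le)
  have hlow : a ^ 2 / 2 ≤ a * ∫ t, D t := by
    rw [← setIntegral_eq_integral_of_forall_compl_eq_zero hDz, integral_Icc_eq_integral_Ioc,
      ← intervalIntegral.integral_of_le (by linarith), ← intervalIntegral.integral_const_mul]
    calc a ^ 2 / 2 = ∫ t in s₀..(s₀ + δ), a ^ 2 / 2 * deriv θ t := by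
          rw [intervalIntegral.integral_const_mul, hθi, mul_one]
      _ ≤ _ := intervalIntegral.integral_mono_on (by linarith)
          ((continuous_const.mul hc2).intervalIntegrable _ _)
          ((continuous_const.mul hDc).intervalIntegrable _ _) fun t ht => by
            calc a ^ 2 / 2 * deriv θ t ≤ a * (g t ^ 3 - g t) * deriv θ t :=
                  mul_le_mul_of_nonneg_right (hnear t ht) hmono.deriv_nonneg
              _ = a * D t := by simp only [hD]; ring
  have e2 : ∫ t, (deriv φ t * deriv ψ t + (3 * g t ^ 2 - 1) * φ t * ψ t) = ∫ t, m t := by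
    congr 1; funext t; rw [hφd]
  rw [e2, show ∫ t, m t = -∫ t, D t by linarith]
  linarith

/-- A turning point of a stable profile is an equilibrium. -/
theorem Prof.turning (h : Prof g) {s₀ : ℝ} (h0 : deriv g s₀ = 0) :
    g s₀ ^ 3 - g s₀ = 0 := by
  by_contra ha
  obtain ⟨a, hadef⟩ : ∃ a, a = g s₀ ^ 3 - g s₀ := ⟨_, rfl⟩
  rw [← hadef] at ha
  obtain ⟨C, hC⟩ := h.slope
  obtain ⟨B, hB0, hB, -⟩ := exists_deriv_bound
  obtain ⟨B', hB'0, hB'⟩ := exists_stp_bound
  obtain ⟨Q, hQ⟩ : ∃ Q, Q = ∫ t,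
      (deriv (cutR s₀ 1) t ^ 2 + (3 * g t ^ 2 - 1) * cutR s₀ 1 t ^ 2) := ⟨_, rfl⟩
  obtain ⟨τ, hτ⟩ : ∃ τ, τ = 1 / (2 * (|Q| + 1)) := ⟨_, rfl⟩
  have hτ0 : 0 < τ := by rw [hτ]; positivity
  obtain ⟨δ₁, hδ₁, hnear⟩ := Metric.continuous_iff.1
    (show Continuous fun t => a * (g t ^ 3 - g t) by have := h.continuous; fun_prop) s₀ (a ^ 2 / 2)
    (by positivity)
  obtain ⟨G, hG⟩ : ∃ G, G = τ * a ^ 2 / 8 := ⟨_, rfl⟩
  have hG0 : 0 < G := by rw [hG]; positivity
  obtain ⟨δ, hδ0, hδh, hδn, hδg⟩ : ∃ δ : ℝ, 0 < δ ∧ δ ≤ 1 / 2 ∧ δ < δ₁ ∧ 8 * B' ^ 2 * δ ≤ G := by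
    refine ⟨min (1 / 2) (min (δ₁ / 2) (G / (8 * B' ^ 2 + 1))), by positivity, min_le_left _ _, ?_, ?_⟩
    · have := (min_le_right (1 / 2) _).trans (min_le_left (δ₁ / 2) (G / (8 * B' ^ 2 + 1)))
      linarith
    · have h1 := (min_le_right (1 / 2) _).trans (min_le_right (δ₁ / 2) (G / (8 * B' ^ 2 + 1)))
      calc 8 * B' ^ 2 * _ ≤ 8 * B' ^ 2 * (G / (8 * B' ^ 2 + 1)) :=
            mul_le_mul_of_nonneg_left h1 (by positivity)
        _ ≤ G := by
            rw [mul_div, div_le_iff₀ (by positivity)]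
            linarith
  obtain ⟨R, hR3, hRg⟩ : ∃ R : ℝ, 3 ≤ R ∧ 8 * C ^ 2 * B ^ 2 / R ≤ G := by
    refine ⟨max 3 (8 * C ^ 2 * B ^ 2 / G), le_max_left _ _, ?_⟩
    rw [div_le_iff₀ (by positivity), ← div_le_iff₀' hG0]
    exact le_max_right _ _
  have hR0 : 0 < R := by linarith
  have hQφ := h.form_cut h0 hC hB hδ0 hR0 (fun t => hB' s₀ δ t hδ0)
  have hcross := h.cross_le (s₀ := s₀) hδ0 hδh hR3 (a := a) fun t ht => by
    have hd' : dist t s₀ < δ₁ := by
      rw [Real.dist_eq, abs_of_nonneg (by linarith [ht.1])]; linarith [ht.2]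
    have := hnear t hd'
    rw [Real.dist_eq, ← hadef] at this
    have := abs_le.1 this.le
    nlinarith
  simp only at hQφ hcross
  set φ : ℝ → ℝ := fun t => deriv g t * (stp s₀ δ t * cutR s₀ R t) with hφ
  set ψ := cutR s₀ 1 with hψ
  have hgc : ContDiff ℝ 1 (deriv g) := contDiff_one_iff_deriv.2 ⟨fun t => (h.d2 t).differentiableAt, by
    rw [show deriv (deriv g) = fun t => g t ^ 3 - g t from funext fun t => (h.d2 t).deriv]
    have := h.continuous; fun_prop⟩
  have hφc : ContDiff ℝ 1 φ := hgc.mul ((stp_c1 s₀ δ).mul (cutR_c1 s₀ R))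
  have hφs : HasCompactSupport φ := (cutR_compact s₀ hR0).mul_left.mul_left
  have hψc : ContDiff ℝ 1 ψ := cutR_c1 s₀ 1
  have hψs : HasCompactSupport ψ := cutR_compact s₀ one_pos
  set s := τ * a with hs
  have hst := h.stable (fun t => φ t + s * ψ t) (hφc.add (contDiff_const.mul hψc))
    (hφs.add hψs.mul_left)
  have hd : ∀ t, deriv (fun t => φ t + s * ψ t) t = deriv φ t + s * deriv ψ t := fun t =>
    ((hφc.differentiable one_ne_zero t).hasDerivAt.fun_add
      ((hψc.differentiable one_ne_zero t).hasDerivAt.const_mul s)).deriv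
  have hc1 := hφc.continuous
  have hc2 := hφc.continuous_deriv le_rfl
  have hc3 := hψc.continuous
  have hc4 := hψc.continuous_deriv le_rfl
  have hc8 := h.continuous
  have i1 : Integrable fun t => deriv φ t ^ 2 + (3 * g t ^ 2 - 1) * φ t ^ 2 :=
    (show Continuous fun t => deriv φ t ^ 2 + (3 * g t ^ 2 - 1) * φ t ^ 2 by
      fun_prop).integrable_of_hasCompactSupport
      ((hφs.deriv.comp_left (g := fun s : ℝ => s ^ 2) (by simp)).add
        (hφs.comp_left (g := fun s : ℝ => s ^ 2) (by simp)).mul_left)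
  have i2 : Integrable fun t => deriv φ t * deriv ψ t + (3 * g t ^ 2 - 1) * φ t * ψ t :=
    (show Continuous fun t => deriv φ t * deriv ψ t + (3 * g t ^ 2 - 1) * φ t * ψ t by
      fun_prop).integrable_of_hasCompactSupport (hψs.deriv.mul_left.add hψs.mul_left)
  have i3 : Integrable fun t => deriv ψ t ^ 2 + (3 * g t ^ 2 - 1) * ψ t ^ 2 :=
    (show Continuous fun t => deriv ψ t ^ 2 + (3 * g t ^ 2 - 1) * ψ t ^ 2 by
      fun_prop).integrable_of_hasCompactSupport
      ((hψs.deriv.comp_left (g := fun s : ℝ => s ^ 2) (by simp)).add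
        (hψs.comp_left (g := fun s : ℝ => s ^ 2) (by simp)).mul_left)
  have e1 : (fun t => deriv (fun t => φ t + s * ψ t) t ^ 2 + (3 * g t ^ 2 - 1) * (φ t + s * ψ t) ^ 2) =
      fun t => (deriv φ t ^ 2 + (3 * g t ^ 2 - 1) * φ t ^ 2) +
        (2 * s * (deriv φ t * deriv ψ t + (3 * g t ^ 2 - 1) * φ t * ψ t) +
          s ^ 2 * (deriv ψ t ^ 2 + (3 * g t ^ 2 - 1) * ψ t ^ 2)) := funext fun t => by rw [hd]; ring
  have i23 : Integrable fun t => 2 * s * (deriv φ t * deriv ψ t + (3 * g t ^ 2 - 1) * φ t * ψ t) +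
      s ^ 2 * (deriv ψ t ^ 2 + (3 * g t ^ 2 - 1) * ψ t ^ 2) := (i2.const_mul _).add (i3.const_mul _)
  rw [e1, integral_add i1 i23, integral_add (i2.const_mul _) (i3.const_mul _), integral_const_mul,
    integral_const_mul, ← hQ] at hst
  have hq : τ * |Q| ≤ 1 / 2 := by
    rw [hτ, div_mul_eq_mul_div, div_le_iff₀ (by positivity)]
    linarith [abs_nonneg Q]
  have hb1 : 2 * s * ∫ t, (deriv φ t * deriv ψ t + (3 * g t ^ 2 - 1) * φ t * ψ t) ≤ -(τ * a ^ 2) := by
    calc _ = 2 * τ * (a * ∫ t, (deriv φ t * deriv ψ t + (3 * g t ^ 2 - 1) * φ t * ψ t)) := by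
          rw [hs]; ring
      _ ≤ 2 * τ * -(a ^ 2 / 2) := mul_le_mul_of_nonneg_left hcross (by positivity)
      _ = _ := by ring
  have hb2 : s ^ 2 * Q ≤ τ * a ^ 2 / 2 := by
    calc s ^ 2 * Q ≤ s ^ 2 * |Q| := mul_le_mul_of_nonneg_left (le_abs_self _) (sq_nonneg _)
      _ = τ * a ^ 2 * (τ * |Q|) := by rw [hs]; ring
      _ ≤ τ * a ^ 2 * (1 / 2) := mul_le_mul_of_nonneg_left hq (by positivity)
      _ = _ := by ring
  linarith

/-- The end value of an increasing profile. -/
theorem end_value {g : ℝ → ℝ} {c : ℝ} (d1 : ∀ t, HasDerivAt g (deriv g t) t)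
    (d2 : ∀ t, HasDerivAt (deriv g) (g t ^ 3 - g t) t) (hb : ∀ t, |g t| ≤ 1)
    (hpos : ∀ t, 0 < deriv g t) (hc : ∀ t, deriv g t ^ 2 / 2 - (1 - g t ^ 2) ^ 2 / 4 = c) :
    ∃ l : ℝ, l ^ 3 - l = 0 ∧ (1 - l ^ 2) ^ 2 / 4 + c = 0 ∧ ∀ t, g t < l := by
  have hsm : StrictMono g := strictMono_of_deriv_pos hpos
  have hbdd : BddAbove (range g) := ⟨1, by rintro _ ⟨t, rfl⟩; exact (abs_le.1 (hb t)).2⟩
  set l := ⨆ t, g t with hl
  have hg : Tendsto g atTop (𝓝 l) := tendsto_atTop_ciSup hsm.monotone hbdd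
  have hg1 : Tendsto (fun t => g (t + 1)) atTop (𝓝 l) := hg.comp (tendsto_atTop_add_const_right _ 1 tendsto_id)
  choose ξ hξ hξe using fun t : ℝ => exists_hasDerivAt_eq_slope g (deriv g) (lt_add_one t)
    (fun s _ => (d1 s).continuousAt.continuousWithinAt) fun s _ => d1 s
  have hξt : Tendsto ξ atTop atTop := tendsto_atTop_mono (fun t => (hξ t).1.le) tendsto_id
  have hgξ : Tendsto (fun t => deriv g (ξ t)) atTop (𝓝 0) := by
    have := (hg1.sub hg)
    rw [sub_self] at this
    refine this.congr fun t => ?_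
    rw [hξe t, add_sub_cancel_left, div_one]
  have hF : Continuous fun s : ℝ => (1 - s ^ 2) ^ 2 / 4 + c := by fun_prop
  have hL : (1 - l ^ 2) ^ 2 / 4 + c = 0 := by
    have h1 : Tendsto (fun t => (1 - g (ξ t) ^ 2) ^ 2 / 4 + c) atTop (𝓝 ((1 - l ^ 2) ^ 2 / 4 + c)) :=
      (hF.tendsto l).comp (hg.comp hξt)
    have h2 : Tendsto (fun t => deriv g (ξ t) ^ 2 / 2) atTop (𝓝 ((0 : ℝ) ^ 2 / 2)) :=
      (hgξ.pow 2).div_const 2
    rw [zero_pow two_ne_zero, zero_div] at h2
    exact tendsto_nhds_unique h1 (h2.congr fun t => by linarith [hc (ξ t)])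
  have hg' : Tendsto (deriv g) atTop (𝓝 0) := by
    have h1 : Tendsto (fun t => deriv g t ^ 2) atTop (𝓝 0) := by
      have := ((hF.tendsto l).comp hg).const_mul 2
      rw [hL, mul_zero] at this
      refine this.congr fun t => ?_
      simp only [Function.comp_apply]
      linarith [hc t]
    have h2 := h1.sqrt
    rw [Real.sqrt_zero] at h2
    exact h2.congr fun t => Real.sqrt_sq (hpos t).le
  choose ζ hζ hζe using fun t : ℝ => exists_hasDerivAt_eq_slope (deriv g) (fun s => g s ^ 3 - g s)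
    (lt_add_one t) (fun s _ => (d2 s).continuousAt.continuousWithinAt) fun s _ => d2 s
  have hf : l ^ 3 - l = 0 := by
    have h1 : Tendsto (fun t => g (ζ t) ^ 3 - g (ζ t)) atTop (𝓝 (l ^ 3 - l)) :=
      ((show Continuous fun s : ℝ => s ^ 3 - s by fun_prop).tendsto l).comp
        (hg.comp (tendsto_atTop_mono (fun t => (hζ t).1.le) tendsto_id))
    have h2 := (hg'.comp (tendsto_atTop_add_const_right _ 1 tendsto_id)).sub hg'
    rw [sub_self] at h2
    refine tendsto_nhds_unique h1 (h2.congr fun t => ?_)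
    simp only [Function.comp_apply, id_eq]
    rw [hζe t, add_sub_cancel_left, div_one]
  exact ⟨l, hf, hL, fun t => (hsm (lt_add_one t)).trans_le (le_ciSup hbdd _)⟩

/-- An increasing profile has zero Hamiltonian. -/
theorem hamiltonian_zero {g : ℝ → ℝ} {c : ℝ} (d1 : ∀ t, HasDerivAt g (deriv g t) t)
    (d2 : ∀ t, HasDerivAt (deriv g) (g t ^ 3 - g t) t) (hb : ∀ t, |g t| ≤ 1)
    (hpos : ∀ t, 0 < deriv g t) (hc : ∀ t, deriv g t ^ 2 / 2 - (1 - g t ^ 2) ^ 2 / 4 = c) :
    c = 0 := by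
  obtain ⟨l, hl0, hlc, hl⟩ := end_value d1 d2 hb hpos hc
  set h : ℝ → ℝ := fun t => -g (-t) with hh
  have h1 : ∀ t, HasDerivAt h (deriv g (-t)) t := fun t =>
    (((d1 (-t)).comp t (hasDerivAt_neg' t)).fun_neg).congr_deriv (by ring)
  have hd : deriv h = fun t => deriv g (-t) := funext fun t => (h1 t).deriv
  obtain ⟨m, hm0, hmc, hm⟩ := end_value (g := h) (c := c) (fun t => by rw [hd]; exact h1 t)
    (fun t => by
      rw [hd]
      exact ((d2 (-t)).comp t (hasDerivAt_neg' t)).congr_deriv (by simp only [hh]; ring))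
    (fun t => by simpa [hh] using hb (-t)) (fun t => by rw [hd]; exact hpos _)
    (fun t => by rw [hd]; simpa [hh] using hc (-t))
  have hlm : -m < l := by
    have h2 := hm 0
    simp only [hh, neg_zero] at h2
    linarith [hl 0]
  have cases : ∀ p : ℝ, p ^ 3 - p = 0 → p = 0 ∨ p ^ 2 = 1 := fun p hp => by
    rcases mul_eq_zero.1 (show p * (p ^ 2 - 1) = 0 by linear_combination hp) with h | h
    · exact Or.inl h
    · exact Or.inr (by linarith)
  rcases cases l hl0 with h3 | h3 <;> rcases cases m hm0 with h4 | h4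
  · subst h3 h4; linarith
  · rw [h4] at hmc; linarith
  · rw [h3] at hlc; linarith
  · rw [h3] at hlc; linarith

/-- Stable bounded profiles: two constants and finite-energy monotone connections. -/
theorem Prof.structure (h : Prof g) :
    (∃ σ : ℝ, |σ| = 1 ∧ ∀ t, 0 ≤ σ * deriv g t) ∧
      ∀ t, deriv g t ^ 2 / 2 = (1 - g t ^ 2) ^ 2 / 4 := by
  have hcd : ∀ t, HasDerivAt (fun t => deriv g t ^ 2 / 2 - (1 - g t ^ 2) ^ 2 / 4) 0 t := fun t => by
    refine (((h.d2 t).fun_pow 2).div_const 2 |>.fun_sub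
      (((((h.d1 t).fun_pow 2).const_sub 1).fun_pow 2).div_const 4)).congr_deriv ?_
    push_cast; ring
  set c := deriv g 0 ^ 2 / 2 - (1 - g 0 ^ 2) ^ 2 / 4 with hc0
  have hc : ∀ t, deriv g t ^ 2 / 2 - (1 - g t ^ 2) ^ 2 / 4 = c := fun t =>
    is_const_of_deriv_eq_zero (fun t => (hcd t).differentiableAt) (fun t => (hcd t).deriv) t 0
  by_cases hz : ∃ s, deriv g s = 0
  · obtain ⟨s, hs⟩ := hz
    have hp := h.turning hs
    have hconst := h.const_of_eq hp rfl hs
    have hd0 : ∀ t, deriv g t = 0 := fun t => by rw [show g = fun _ => g s from funext hconst]; simp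
    have hne : g s ≠ 0 := fun h0 => h.not_zero fun t => (hconst t).trans h0
    have h1 : g s ^ 2 = 1 := by
      rcases mul_eq_zero.1 (show g s * (g s ^ 2 - 1) = 0 by linear_combination hp) with h' | h'
      · exact absurd h' hne
      · linarith
    exact ⟨⟨1, by simp, fun t => by simp [hd0]⟩, fun t => by rw [hd0, hconst, h1]; simp⟩
  push Not at hz
  have hsign : (∀ t, 0 < deriv g t) ∨ ∀ t, deriv g t < 0 := by
    by_contra hcon
    push Not at hcon
    obtain ⟨⟨p, hp⟩, q, hq⟩ := hcon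
    obtain ⟨s, hs⟩ := intermediate_value_univ p q h.continuous_deriv ⟨hp, hq⟩
    exact hz s hs
  rcases hsign with hpos | hneg
  · have := hamiltonian_zero h.d1 h.d2 h.bdd hpos hc
    exact ⟨⟨1, by simp, fun t => by linarith [hpos t]⟩, fun t => by linarith [hc t]⟩
  · have hd : deriv (fun t => -g t) = fun t => -deriv g t := funext fun t => (h.d1 t).fun_neg.deriv
    have := hamiltonian_zero (g := fun t => -g t) (c := c)
      (fun t => by rw [hd]; exact (h.d1 t).fun_neg)
      (fun t => by rw [hd]; exact (h.d2 t).fun_neg.congr_deriv (by ring))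
      (fun t => by simpa using h.bdd t) (fun t => by rw [hd]; simpa using hneg t)
      (fun t => by rw [hd]; simpa using hc t)
    exact ⟨⟨-1, by simp, fun t => by linarith [hneg t]⟩, fun t => by linarith [hc t]⟩

end Vale.Agent.P134
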