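import Vale.Agent.P134.Returns

/-!
P134: a solution which depends on a block of `k` coordinates, `2 ≤ k ≤ 4`, only through their
length, and is recurrent in all but one of the others, does not depend on the block.
-/

namespace Vale.Agent.P134

open MeasureTheory Filter Set
open scoped BigOperators Topology

variable {n : ℕ}

/-- Dependence on the coordinates in `S` only through their length. -/
def RadialIn (S : Finset (Fin n)) (u : V n → ℝ) : Prop :=
  ∀ x y : V n, sqLen S x = sqLen S y → (∀ i, i ∉ S → x i = y i) → u x = u y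

variable {u : V n → ℝ} {d : Fin n} {S : Finset (Fin n)}

theorem radial_rot (hu : ContDiff ℝ 2 u) (hS : RadialIn S u) {i l : Fin n} (hi : i ∈ S) (hl : l ∈ S)
    (x : V n) : pd i u x * x l = pd l u x * x i := by
  rcases eq_or_ne i l with rfl | hne
  · rfl
  set p : ℝ → V n := fun s => x + (Real.cos s - 1) • (x i • e i + x l • e l) +
    Real.sin s • (x i • e l - x l • e i) with hp
  have hval : ∀ s, u (p s) = u x := by
    intro s
    refine hS _ _ ?_ fun j hj => ?_
    · unfold sqLen
      have hl' : l ∈ S.erase i := Finset.mem_erase.2 ⟨hne.symm, hl⟩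
      rw [← Finset.add_sum_erase _ _ hi, ← Finset.add_sum_erase _ _ hl',
        ← Finset.add_sum_erase _ (fun j => x j ^ 2) hi, ← Finset.add_sum_erase _ (fun j => x j ^ 2) hl']
      have hrest : ∑ j ∈ (S.erase i).erase l, p s j ^ 2 = ∑ j ∈ (S.erase i).erase l, x j ^ 2 :=
        Finset.sum_congr rfl fun j hj => by
          rw [Finset.mem_erase, Finset.mem_erase] at hj
          simp [hp, e, hj.1, hj.2.1]
      rw [hrest]
      have e1 : p s i = Real.cos s * x i - Real.sin s * x l := by
        simp [hp, e, hne]; ring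
      have e2 : p s l = Real.cos s * x l + Real.sin s * x i := by
        simp [hp, e, hne.symm]; ring
      rw [e1, e2]
      nlinarith [Real.sin_sq_add_cos_sq s]
    · have h1 : j ≠ i := fun h => hj (h ▸ hi)
      have h2 : j ≠ l := fun h => hj (h ▸ hl)
      simp [hp, e, h1, h2]
  have hd : HasDerivAt p ((-Real.sin 0) • (x i • e i + x l • e l) +
      Real.cos 0 • (x i • e l - x l • e i)) 0 :=
    ((((Real.hasDerivAt_cos 0).sub_const 1).smul_const _).const_add x).add
      ((Real.hasDerivAt_sin 0).smul_const _)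
  have hp0 : p 0 = x := by simp [hp]
  have hc := (hu.differentiable (by norm_num) (p 0)).hasFDerivAt.comp_hasDerivAt (0 : ℝ) hd
  have h0 : HasDerivAt (u ∘ p) 0 0 :=
    (hasDerivAt_const (0 : ℝ) (u x)).congr_of_eventuallyEq (Eventually.of_forall hval)
  have := hc.unique h0
  rw [hp0] at this
  simp [map_sub, pd] at this ⊢
  linarith

theorem radial_even (hu : ContDiff ℝ 2 u) (hS : RadialIn S u) {i : Fin n} (hi : i ∈ S) {x : V n}
    (h0 : sqLen S x = 0) : pd i u x = 0 := by
  have hx : ∀ l ∈ S, x l = 0 := fun l hl => by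
    have := (Finset.sum_eq_zero_iff_of_nonneg fun m _ => sq_nonneg (x m)).1 h0 l hl
    simpa using this
  have hval : ∀ s : ℝ, u (x + s • e i) = u (x + (-s) • e i) := fun s => by
    refine hS _ _ (Finset.sum_congr rfl fun l hl => ?_) fun l hl => ?_
    · by_cases h : l = i
      · subst h; simp [e, hx l hl]
      · simp [e, h]
    · have : l ≠ i := fun h => hl (h ▸ hi)
      simp [e, this]
  have hd : HasDerivAt (fun s : ℝ => u (x + s • e i)) (pd i u x) 0 := by
    have a : HasDerivAt (fun s : ℝ => x + s • e i) (e i) 0 := by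
      simpa using ((hasDerivAt_id (0 : ℝ)).smul_const (e i)).const_add x
    exact HasFDerivAt.comp_hasDerivAt (l := u) (0 : ℝ)
      (by simpa using (hu.differentiable (by norm_num) x).hasFDerivAt) a
  have hd' : HasDerivAt (fun s : ℝ => u (x + (-s) • e i)) (-(pd i u x)) 0 := by
    have a : HasDerivAt (fun s : ℝ => x + (-s) • e i) (-e i) 0 := by
      simpa using (((hasDerivAt_id (0 : ℝ)).neg).smul_const (e i)).const_add x
    have := HasFDerivAt.comp_hasDerivAt (l := u) (0 : ℝ)
      (by simpa using (hu.differentiable (by norm_num) x).hasFDerivAt) a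
    rw [map_neg] at this
    exact this
  rw [← funext hval] at hd'
  linarith [hd.unique hd']

/-- The squared length of the block gradient. -/
noncomputable def blockSq (S : Finset (Fin n)) (u : V n → ℝ) (x : V n) : ℝ :=
  ∑ i ∈ S, pd i u x ^ 2

theorem blockSq_nonneg (S : Finset (Fin n)) (u : V n → ℝ) (x : V n) : 0 ≤ blockSq S u x :=
  Finset.sum_nonneg fun _ _ => sq_nonneg _

theorem blockSq_c1 (hu : ContDiff ℝ 2 u) (S : Finset (Fin n)) : ContDiff ℝ 1 (blockSq S u) :=
  ContDiff.sum fun i _ => (pd_c1 hu i).pow 2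

/-- Half of the derivative of `blockSq`. -/
noncomputable def blockDer (S : Finset (Fin n)) (u : V n → ℝ) (j : Fin n) (x : V n) : ℝ :=
  ∑ i ∈ S, pd i u x * pd j (pd i u) x

theorem pd_blockSq (hu : ContDiff ℝ 2 u) (S : Finset (Fin n)) (j : Fin n) (x : V n) :
    pd j (blockSq S u) x = 2 * blockDer S u j x := by
  have h : HasFDerivAt (blockSq S u) (∑ i ∈ S, (2 * pd i u x) • fderiv ℝ (pd i u) x) x := by
    refine HasFDerivAt.fun_sum fun i _ => ?_
    simpa using ((pd_c1 hu i).differentiable one_ne_zero x).hasFDerivAt.pow 2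
  rw [pd, h.fderiv, blockDer, Finset.mul_sum]
  simp [pd, mul_assoc]

theorem lagrange {ι : Type*} (S : Finset ι) (a b : ι → ℝ) :
    ∑ i ∈ S, ∑ l ∈ S, (a i * b l - a l * b i) ^ 2 =
      2 * ((∑ i ∈ S, a i ^ 2) * ∑ i ∈ S, b i ^ 2 - (∑ i ∈ S, a i * b i) ^ 2) := by
  rw [Finset.sum_mul_sum, sq (∑ i ∈ S, a i * b i), Finset.sum_mul_sum, mul_sub, Finset.mul_sum,
    Finset.mul_sum]
  have h1 : ∀ i ∈ S, ∑ l ∈ S, (a i * b l - a l * b i) ^ 2 = (∑ l ∈ S, a i ^ 2 * b l ^ 2) +
      (∑ l ∈ S, a l ^ 2 * b i ^ 2) - 2 * ∑ l ∈ S, a i * b i * (a l * b l) := fun i _ => by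
    rw [Finset.mul_sum, ← Finset.sum_add_distrib, ← Finset.sum_sub_distrib]
    exact Finset.sum_congr rfl fun l _ => by ring
  rw [Finset.sum_congr rfl h1, Finset.sum_sub_distrib, Finset.sum_add_distrib]
  have hswap : ∑ i ∈ S, ∑ l ∈ S, a l ^ 2 * b i ^ 2 = ∑ i ∈ S, ∑ l ∈ S, a i ^ 2 * b l ^ 2 :=
    Finset.sum_comm
  rw [hswap, ← Finset.mul_sum, ← Finset.mul_sum]
  ring

/-- Kato's inequality with the gain from rotations. -/
theorem kato (hu : ContDiff ℝ 2 u) (hS : RadialIn S u) (x : V n) {δ : ℝ} (hδ : δ ≠ 0) :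
    ((S.card : ℝ) - 1) * blockSq S u x / (1 + sqLen S x) ≤
      ∑ j, ((∑ i ∈ S, pd j (pd i u) x ^ 2) -
        blockDer S u j x ^ 2 / (δ ^ 2 + blockSq S u x)) := by
  classical
  set g : Fin n → ℝ := fun i => pd i u x with hg
  set b : Fin n → Fin n → ℝ := fun j i => pd j (pd i u) x with hb
  set X := blockSq S u x with hX
  have hX0 : 0 ≤ X := blockSq_nonneg S u x
  have hδ2 : 0 < δ ^ 2 := by positivity
  have hY0 : ∀ j, 0 ≤ ∑ i ∈ S, b j i ^ 2 := fun j => Finset.sum_nonneg fun _ _ => sq_nonneg _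
  rcases hX0.eq_or_lt with hzero | hpos
  · rw [← hzero, mul_zero, zero_div]
    refine Finset.sum_nonneg fun j _ => ?_
    have : blockDer S u j x = 0 := Finset.sum_eq_zero fun i hi => by
      have := (Finset.sum_eq_zero_iff_of_nonneg fun m _ => sq_nonneg (pd m u x)).1 hzero.symm i hi
      rw [pow_eq_zero_iff two_ne_zero] at this
      simp [this]
    rw [this]
    simpa using hY0 j
  have hρ : 0 < sqLen S x := by
    refine lt_of_le_of_ne (sqLen_nonneg S x) fun h0 => hpos.ne' ?_
    exact Finset.sum_eq_zero fun i hi => by rw [radial_even hu hS hi h0.symm]; simp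
  set lam := (∑ l ∈ S, x l * g l) / sqLen S x with hlam
  have hglam : ∀ i ∈ S, g i = lam * x i := by
    intro i hi
    rw [hlam, div_mul_eq_mul_div, eq_div_iff hρ.ne', Finset.sum_mul, sqLen, Finset.mul_sum]
    refine Finset.sum_congr rfl fun l hl => ?_
    calc g i * x l ^ 2 = (pd i u x * x l) * x l := by rw [hg]; ring
      _ = x l * g l * x i := by rw [radial_rot hu hS hi hl x, hg]; ring
  have hXlam : X = lam ^ 2 * sqLen S x := by
    rw [hX, blockSq, sqLen, Finset.mul_sum]
    exact Finset.sum_congr rfl fun i hi => by rw [← mul_pow, ← hglam i hi]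
  have hdiff : ∀ i ∈ S, ∀ l ∈ S, ∀ j, b j i * x l + g i * (if l = j then 1 else 0) =
      b j l * x i + g l * (if i = j then 1 else 0) := by
    intro i hi l hl j
    have hd : ∀ a c : Fin n, pd j (fun y => pd a u y * y c) x =
        b j a * x c + g a * (if c = j then 1 else 0) := by
      intro a c
      rw [pd_mul ((pd_c1 hu a).differentiable one_ne_zero)
        ((contDiff_coord c (k := 1)).differentiable one_ne_zero)]
      have : pd j (fun y : V n => y c) x = if c = j then 1 else 0 := by
        rw [pd, (hasFDerivAt_apply c x).fderiv]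
        simp [e, Pi.single_apply]
      rw [this]
    rw [← hd i l, ← hd l i, funext fun y => radial_rot hu hS hi hl y]
  have hgain : ∀ j, (if j ∈ S then lam ^ 2 * (X - g j ^ 2) else 0) ≤
      X * (∑ i ∈ S, b j i ^ 2) - (∑ i ∈ S, g i * b j i) ^ 2 := by
    intro j
    have hL := lagrange S g (b j)
    have hsum0 : 0 ≤ ∑ i ∈ S, ∑ l ∈ S, (g i * b j l - g l * b j i) ^ 2 :=
      Finset.sum_nonneg fun i _ => Finset.sum_nonneg fun l _ => sq_nonneg _
    have hXe : X = ∑ i ∈ S, g i ^ 2 := rfl
    split_ifs with hj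
    · have h1 : ∑ i ∈ S, ∑ l ∈ S, (g i * b j l - g l * b j i) ^ 2 =
          lam ^ 2 * ∑ i ∈ S, ∑ l ∈ S,
            (g i * (if l = j then 1 else 0) - g l * (if i = j then 1 else 0)) ^ 2 := by
        rw [Finset.mul_sum]
        refine Finset.sum_congr rfl fun i hi => ?_
        rw [Finset.mul_sum]
        refine Finset.sum_congr rfl fun l hl => ?_
        rw [← mul_pow]
        congr 1
        have h2 : x i * b j l - x l * b j i =
            g i * (if l = j then 1 else 0) - g l * (if i = j then 1 else 0) := by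
          linarith [hdiff i hi l hl j]
        rw [← h2]
        conv_lhs => rw [hglam i hi, hglam l hl]
        ring
      have h3 : ∑ i ∈ S, ∑ l ∈ S,
          (g i * (if l = j then 1 else 0) - g l * (if i = j then 1 else 0)) ^ 2 =
          2 * (X - g j ^ 2) := by
        have h4 : ∀ i ∈ S, ∑ l ∈ S,
            (g i * (if l = j then 1 else 0) - g l * (if i = j then 1 else 0)) ^ 2 =
            g i ^ 2 + (if i = j then X - 2 * g i * g j else 0) := by
          intro i _
          have h5 : ∀ l, (g i * (if l = j then 1 else 0) - g l * (if i = j then 1 else 0)) ^ 2 =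
              (if l = j then g i ^ 2 else 0) + (if i = j then g l ^ 2 else 0) -
              (if i = j then (if l = j then 2 * g i * g l else 0) else 0) := by
            intro l; split_ifs <;> ring
          simp only [h5, Finset.sum_sub_distrib, Finset.sum_add_distrib, Finset.sum_ite_eq', hj,
            if_true, Finset.sum_ite_irrel, Finset.sum_const_zero, ← hXe]
          split_ifs <;> ring
        rw [Finset.sum_congr rfl h4, Finset.sum_add_distrib, Finset.sum_ite_eq', if_pos hj, ← hXe]
        ring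
      rw [h1, h3, ← hXe] at hL
      linarith
    · rw [hL, ← hXe] at hsum0
      linarith
  have hsum : ∑ j, (if j ∈ S then lam ^ 2 * (X - g j ^ 2) else 0) =
      lam ^ 2 * (((S.card : ℝ) - 1) * X) := by
    rw [Finset.sum_ite_mem, Finset.univ_inter, ← Finset.mul_sum, Finset.sum_sub_distrib,
      Finset.sum_const, nsmul_eq_mul]
    congr 1
    rw [show ∑ j ∈ S, g j ^ 2 = X from rfl]
    ring
  calc ((S.card : ℝ) - 1) * X / (1 + sqLen S x)
      ≤ ((S.card : ℝ) - 1) * X / sqLen S x := by
        rcases Nat.eq_zero_or_pos S.card with h | h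
        · exfalso; rw [Finset.card_eq_zero] at h; simp [sqLen, h] at hρ
        · have : (1 : ℝ) ≤ S.card := by exact_mod_cast h
          exact div_le_div_of_nonneg_left (mul_nonneg (by linarith) hX0) hρ (by linarith)
    _ = (∑ j, (if j ∈ S then lam ^ 2 * (X - g j ^ 2) else 0)) / X := by
        have hl0 : lam ≠ 0 := fun h => hpos.ne' (by rw [hXlam, h]; ring)
        rw [hsum, hXlam]
        field_simp [hρ.ne', hl0]
    _ ≤ (∑ j, (X * (∑ i ∈ S, b j i ^ 2) - (∑ i ∈ S, g i * b j i) ^ 2)) / X :=
        div_le_div_of_nonneg_right (Finset.sum_le_sum fun j _ => hgain j) hX0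
    _ = ∑ j, ((∑ i ∈ S, b j i ^ 2) - (∑ i ∈ S, g i * b j i) ^ 2 / X) := by
        rw [Finset.sum_div]
        exact Finset.sum_congr rfl fun j _ => by field_simp
    _ ≤ _ := Finset.sum_le_sum fun j _ => sub_le_sub_left
        (div_le_div_of_nonneg_left (sq_nonneg _) hpos (le_add_of_nonneg_left hδ2.le)) _

/-- Stability tested with the length of the block gradient. -/
theorem Sol.block_le (h : Sol u d) (hS : RadialIn S u) {η : V n → ℝ} (hη : ContDiff ℝ 1 η)
    (hηs : HasCompactSupport η) :
    ((S.card : ℝ) - 1) * ∫ x, η x ^ 2 * (blockSq S u x / (1 + sqLen S x)) ≤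
      ∫ x, blockSq S u x * gsq η x := by
  set X := blockSq S u with hX
  have hXc := blockSq_c1 h.c2 S
  have hηd := hη.differentiable one_ne_zero
  have hE : Continuous fun x => gsq η x + W2 u x * η x ^ 2 :=
    (gsq_continuous hη).add ((W2_continuous h).mul (hη.continuous.pow 2))
  have hiE : Integrable fun x => gsq η x + W2 u x * η x ^ 2 :=
    ((gsq_continuous hη).integrable_of_hasCompactSupport (gsq_compact hηs)).add
      (integrable_mul_supp (W2_continuous h) (hη.continuous.pow 2)
        (hηs.comp_left (g := fun t : ℝ => t ^ 2) (by simp)))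
  have hden : Continuous fun x => X x / (1 + sqLen S x) :=
    hXc.continuous.div₀ (continuous_const.add (sqLen_c1 S).continuous)
      fun x => by linarith [sqLen_nonneg S x]
  have hiL : Integrable fun x => η x ^ 2 * (X x / (1 + sqLen S x)) := by
    have hc : Continuous fun x => η x ^ 2 * (X x / (1 + sqLen S x)) :=
      Continuous.mul (hη.continuous.pow 2) hden
    exact hc.integrable_of_hasCompactSupport (HasCompactSupport.intro hηs fun x hx => by
      rw [image_eq_zero_of_notMem_tsupport hx]; simp)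
  set E := ∫ x, (gsq η x + W2 u x * η x ^ 2) with hEdef
  have key : ∀ δ : ℝ, 0 < δ →
      ((S.card : ℝ) - 1) * ∫ x, η x ^ 2 * (X x / (1 + sqLen S x)) ≤
        (∫ x, X x * gsq η x) + δ ^ 2 * E := by
    intro δ hδ
    set w : V n → ℝ := fun x => √(δ ^ 2 + X x) with hw
    have hpos : ∀ x, 0 < δ ^ 2 + X x := fun x => by
      have := blockSq_nonneg S u x
      positivity
    have hwc : ContDiff ℝ 1 w := (contDiff_const.add hXc).sqrt fun x => (hpos x).ne'
    have hwd := hwc.differentiable one_ne_zero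
    have hst := h.stable (φ := fun x => η x * w x) (hη.mul hwc) hηs.mul_right
    have hpw : ∀ j x, pd j w x = blockDer S u j x / w x := by
      intro j x
      have hd : HasFDerivAt w ((1 / (2 * √(δ ^ 2 + X x))) • fderiv ℝ X x) x :=
        ((hXc.differentiable one_ne_zero x).hasFDerivAt.const_add (δ ^ 2)).sqrt (hpos x).ne'
      have hsq : 0 < √(δ ^ 2 + X x) := Real.sqrt_pos.2 (hpos x)
      rw [pd, hd.fderiv, smul_apply, smul_eq_mul, show fderiv ℝ X x (e j) = pd j X x from rfl,
        pd_blockSq h.c2 S]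
      simp only [hw]
      field_simp
    have hpoint : ∀ x, gsq (fun y => η y * w y) x + W2 u x * (η x * w x) ^ 2 ≤
        ((∑ i ∈ S, (gsq (fun y => η y * pd i u y) x + W2 u x * (η x * pd i u x) ^ 2)) +
          δ ^ 2 * (gsq η x + W2 u x * η x ^ 2)) -
        ((S.card : ℝ) - 1) * (η x ^ 2 * (X x / (1 + sqLen S x))) := by
      intro x
      have hk := mul_le_mul_of_nonneg_left (kato h.c2 hS x hδ.ne') (sq_nonneg (η x))
      have hw2 : w x ^ 2 = δ ^ 2 + X x := Real.sq_sqrt (hpos x).le
      have hwx : w x ≠ 0 := (Real.sqrt_pos.2 (hpos x)).ne'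
      have hterm : ∀ j, pd j (fun y => η y * w y) x ^ 2 =
          (∑ i ∈ S, pd j (fun y => η y * pd i u y) x ^ 2) + δ ^ 2 * pd j η x ^ 2 -
            η x ^ 2 * ((∑ i ∈ S, pd j (pd i u) x ^ 2) - blockDer S u j x ^ 2 / (δ ^ 2 + X x)) := by
        intro j
        have e1 : ∑ i ∈ S, pd j (fun y => η y * pd i u y) x ^ 2 =
            pd j η x ^ 2 * X x + 2 * η x * pd j η x * blockDer S u j x +
              η x ^ 2 * ∑ i ∈ S, pd j (pd i u) x ^ 2 := by
          rw [hX, blockSq, blockDer, Finset.mul_sum, Finset.mul_sum, Finset.mul_sum,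
            ← Finset.sum_add_distrib, ← Finset.sum_add_distrib]
          refine Finset.sum_congr rfl fun i _ => ?_
          rw [pd_mul hηd ((pd_c1 h.c2 i).differentiable one_ne_zero)]
          ring
        rw [e1, pd_mul hηd hwd, hpw, ← hw2]
        field_simp
        linear_combination (pd j η x ^ 2 * w x ^ 2) * hw2
      have e2 : ∑ i ∈ S, W2 u x * (η x * pd i u x) ^ 2 = W2 u x * η x ^ 2 * X x := by
        rw [hX, blockSq, Finset.mul_sum]
        exact Finset.sum_congr rfl fun i _ => by ring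
      have e3 : gsq (fun y => η y * w y) x = (∑ i ∈ S, gsq (fun y => η y * pd i u y) x) +
          δ ^ 2 * gsq η x - η x ^ 2 * ∑ j, ((∑ i ∈ S, pd j (pd i u) x ^ 2) -
            blockDer S u j x ^ 2 / (δ ^ 2 + X x)) := by
        simp only [gsq]
        rw [Finset.sum_congr rfl fun j _ => hterm j, Finset.sum_sub_distrib, Finset.sum_add_distrib,
          Finset.sum_comm, ← Finset.mul_sum, ← Finset.mul_sum]
      rw [e3, Finset.sum_add_distrib, e2, mul_pow, hw2]
      rw [← mul_div_assoc] at hk
      have e4 : ((S.card : ℝ) - 1) * (η x ^ 2 * (X x / (1 + sqLen S x))) =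
          η x ^ 2 * (((S.card : ℝ) - 1) * X x) / (1 + sqLen S x) := by ring
      rw [e4]
      linarith
    have hii : ∀ i, Integrable fun x =>
        gsq (fun y => η y * pd i u y) x + W2 u x * (η x * pd i u x) ^ 2 := fun i => by
      have hc := hη.mul (pd_c1 h.c2 i)
      exact ((gsq_continuous hc).integrable_of_hasCompactSupport (gsq_compact hηs.mul_right)).add
        (integrable_mul_supp (W2_continuous h) (hc.continuous.pow 2)
          (hηs.mul_right.comp_left (g := fun t : ℝ => t ^ 2) (by simp)))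
    have hiw : Integrable fun x => gsq (fun y => η y * w y) x + W2 u x * (η x * w x) ^ 2 := by
      have hc := hη.mul hwc
      exact ((gsq_continuous hc).integrable_of_hasCompactSupport (gsq_compact hηs.mul_right)).add
        (integrable_mul_supp (W2_continuous h) (hc.continuous.pow 2)
          (hηs.mul_right.comp_left (g := fun t : ℝ => t ^ 2) (by simp)))
    have hsumI : Integrable fun x => ∑ i ∈ S,
        (gsq (fun y => η y * pd i u y) x + W2 u x * (η x * pd i u x) ^ 2) :=
      integrable_finsetSum _ fun i _ => hii i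
    have hmono := hst.trans (integral_mono hiw
      ((hsumI.add (hiE.const_mul (δ ^ 2))).sub (hiL.const_mul _)) hpoint)
    have e5 : ∫ x, X x * gsq η x = ∑ i ∈ S, Qf u (fun y => η y * pd i u y) := by
      rw [Finset.sum_congr rfl fun i _ => h.form_deriv i hη hηs, ← integral_finsetSum _ fun i _ =>
        (integrable_mul_supp ((pd_c1 h.c2 i).continuous.pow 2) (gsq_continuous hη)
          (gsq_compact hηs) : Integrable fun x => pd i u x ^ 2 * gsq η x)]
      congr 1
      funext x
      rw [hX, blockSq, Finset.sum_mul]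
    simp only [Pi.sub_apply, Pi.add_apply] at hmono
    have hA : Integrable (fun x =>
        (∑ i ∈ S, (gsq (fun y => η y * pd i u y) x + W2 u x * (η x * pd i u x) ^ 2)) +
          δ ^ 2 * (gsq η x + W2 u x * η x ^ 2)) volume := hsumI.add (hiE.const_mul (δ ^ 2))
    have hB : Integrable (fun x => ((S.card : ℝ) - 1) * (η x ^ 2 * (X x / (1 + sqLen S x))))
        volume := hiL.const_mul _
    rw [integral_sub hA hB,
      integral_add hsumI (hiE.const_mul _), integral_const_mul, integral_const_mul,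
      integral_finsetSum _ fun i _ => hii i, ← hEdef] at hmono
    rw [e5]
    simp only [Qf] at *
    linarith
  have hlim : Tendsto (fun δ : ℝ => (∫ x, X x * gsq η x) + δ ^ 2 * E) (𝓝[>] 0)
      (𝓝 ((∫ x, X x * gsq η x) + 0 ^ 2 * E)) := by
    refine Tendsto.mono_left ?_ nhdsWithin_le_nhds
    exact (by fun_prop : Continuous fun δ : ℝ => (∫ x, X x * gsq η x) + δ ^ 2 * E).tendsto 0
  rw [zero_pow two_ne_zero, zero_mul, add_zero] at hlim
  exact ge_of_tendsto hlim (eventually_nhdsWithin_of_forall fun δ hδ => key δ hδ)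

/-- The power weight. -/
noncomputable def pw (S : Finset (Fin n)) (α : ℝ) (x : V n) : ℝ := (1 + sqLen S x) ^ (-α / 2)

theorem one_add_pos (S : Finset (Fin n)) (x : V n) : 0 < 1 + sqLen S x := by
  linarith [sqLen_nonneg S x]

theorem pw_c1 (S : Finset (Fin n)) (α : ℝ) : ContDiff ℝ 1 (pw S α) :=
  (contDiff_const.add (sqLen_c1 S)).rpow_const_of_ne fun x => (one_add_pos S x).ne'

theorem pw_pos (S : Finset (Fin n)) (α : ℝ) (x : V n) : 0 < pw S α x :=
  Real.rpow_pos_of_pos (one_add_pos S x) _

theorem gsq_pw_le (S : Finset (Fin n)) (α : ℝ) (x : V n) :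
    gsq (pw S α) x ≤ α ^ 2 * pw S α x ^ 2 / (1 + sqLen S x) := by
  have hp := one_add_pos S x
  have hd : HasFDerivAt (pw S α)
      ((-α / 2 * (1 + sqLen S x) ^ (-α / 2 - 1)) • fderiv ℝ (sqLen S) x) x :=
    (((sqLen_c1 S).differentiable one_ne_zero x).hasFDerivAt.const_add 1).rpow_const (Or.inl hp.ne')
  have e1 : ∀ j, pd j (pw S α) x =
      (-α * pw S α x / (1 + sqLen S x)) * (if j ∈ S then x j else 0) := by
    intro j
    rw [pd, hd.fderiv, smul_apply, smul_eq_mul, pd_sqLen, Real.rpow_sub hp, Real.rpow_one, pw]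
    split_ifs <;> ring
  simp only [gsq, e1, mul_pow, ← Finset.mul_sum]
  have e2 : ∑ j, (if j ∈ S then x j else 0) ^ 2 = sqLen S x := by
    simp [sqLen, ite_pow]
  rw [e2]
  calc (-α * pw S α x / (1 + sqLen S x)) ^ 2 * sqLen S x
      ≤ (-α * pw S α x / (1 + sqLen S x)) ^ 2 * (1 + sqLen S x) :=
        mul_le_mul_of_nonneg_left (by linarith) (sq_nonneg _)
    _ = α ^ 2 * pw S α x ^ 2 / (1 + sqLen S x) := by field_simp

theorem pd_congr_eq (f : V n → ℝ) {g : V n → ℝ} (h : ∀ y, f y = g y) (j : Fin n) :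
    pd j f = pd j g := by rw [funext h]

/-- The integral of a power of the distance over an interval. -/
theorem integral_profile_le {q R : ℝ} (hq0 : 0 < q) (hq1 : q ≤ 1) (hR : 1 ≤ R) :
    ∫ s, (Icc (-(2 * R)) (2 * R)).indicator (fun s => (1 + |s|) ^ (q - 1)) s ≤ 6 / q * R ^ q := by
  have hc : Continuous fun s : ℝ => (1 + |s|) ^ (q - 1) :=
    (by fun_prop : Continuous fun s : ℝ => 1 + |s|).rpow_const fun s => Or.inl (by positivity)
  rw [integral_indicator measurableSet_Icc, integral_Icc_eq_integral_Ioc,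
    ← intervalIntegral.integral_of_le (by linarith),
    ← intervalIntegral.integral_add_adjacent_intervals (b := 0) (hc.intervalIntegrable _ _)
      (hc.intervalIntegrable _ _)]
  have hneg : ∫ s in (-(2 * R))..0, (1 + |s|) ^ (q - 1) = ∫ s in (0 : ℝ)..(2 * R), (1 + |s|) ^ (q - 1) := by
    have := intervalIntegral.integral_comp_neg (f := fun s : ℝ => (1 + |s|) ^ (q - 1))
      (a := 0) (b := 2 * R)
    simp only [abs_neg, neg_zero] at this
    exact this.symm
  have hpos : ∫ s in (0 : ℝ)..(2 * R), (1 + |s|) ^ (q - 1) = (1 + 2 * R) ^ q / q - 1 / q := by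
    have hd : ∀ s ∈ Ioo (0 : ℝ) (2 * R),
        HasDerivAt (fun s => (1 + s) ^ q / q) ((1 + |s|) ^ (q - 1)) s := fun s hs => by
      rw [abs_of_pos hs.1]
      refine ((((hasDerivAt_id' s).const_add 1).rpow_const
        (Or.inl (by linarith [hs.1]))).div_const q).congr_deriv ?_
      field_simp
    rw [intervalIntegral.integral_eq_sub_of_hasDerivAt_of_le (by linarith)
      (((continuous_const.add continuous_id).rpow_const fun s => Or.inr hq0.le).div_const q).continuousOn
      hd (hc.intervalIntegrable _ _)]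
    simp
  rw [hneg, hpos]
  have h3 : (1 + 2 * R) ^ q ≤ 3 * R ^ q := by
    calc (1 + 2 * R) ^ q ≤ (3 * R) ^ q := Real.rpow_le_rpow (by linarith) (by linarith) hq0.le
      _ = 3 ^ q * R ^ q := Real.mul_rpow (by norm_num) (by linarith)
      _ ≤ 3 ^ (1 : ℝ) * R ^ q := by
          gcongr
          norm_num
      _ = 3 * R ^ q := by norm_num
  have h4 : (1 + 2 * R) ^ q / q ≤ 3 * R ^ q / q := div_le_div_of_nonneg_right h3 hq0.le
  have h5 : 0 ≤ 1 / q := by positivity
  calc (1 + 2 * R) ^ q / q - 1 / q + ((1 + 2 * R) ^ q / q - 1 / q) ≤ 2 * (3 * R ^ q / q) := by linarith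
    _ = 6 / q * R ^ q := by ring

/-- The weight is bounded by a product over the block. -/
theorem sq_pw_le (S : Finset (Fin n)) {α : ℝ} (hα : 0 ≤ α) (hS : 0 < S.card) (x : V n) :
    pw S α x ^ 2 ≤ ∏ i ∈ S, 2 ^ (α / S.card) * (1 + |x i|) ^ (-(2 * α / S.card)) := by
  have hp := one_add_pos S x
  have hβ : 0 ≤ α / S.card := by positivity
  have e1 : pw S α x ^ 2 = ∏ _i ∈ S, (1 + sqLen S x) ^ (-(α / S.card)) := by
    rw [Finset.prod_const, pw, ← Real.rpow_natCast, ← Real.rpow_mul hp.le, ← Real.rpow_natCast,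
      ← Real.rpow_mul hp.le]
    congr 1
    have : (S.card : ℝ) ≠ 0 := by exact_mod_cast hS.ne'
    push_cast
    field_simp
  rw [e1]
  refine Finset.prod_le_prod (fun i _ => Real.rpow_nonneg hp.le _) fun i hi => ?_
  have ha : (1 + |x i|) ^ 2 / 2 ≤ 1 + sqLen S x := by
    have := sq_le_sqLen hi x
    nlinarith [sq_nonneg (|x i| - 1), sq_abs (x i)]
  refine (Real.rpow_le_rpow_of_nonpos (by positivity) ha (neg_nonpos.2 hβ)).trans (le_of_eq ?_)
  rw [Real.div_rpow (sq_nonneg _) (by norm_num), ← Real.rpow_natCast (1 + |x i|) 2,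
    ← Real.rpow_mul (by positivity), Real.rpow_neg (by norm_num : (0 : ℝ) ≤ 2), div_inv_eq_mul,
    mul_comm]
  congr 1
  push_cast
  ring_nf

/-- The weight over a cube. -/
theorem integral_pw_box_le (S : Finset (Fin n)) {α R : ℝ} (hα : 0 ≤ α) (hS : 0 < S.card)
    (hαS : 2 * α < S.card) (hR : 1 ≤ R) :
    ∫ x, (box fun _ : Fin n => 2 * R).indicator (fun x => pw S α x ^ 2) x ≤
      (2 ^ (α / S.card) * (6 / (1 - 2 * α / S.card))) ^ S.card *
        (R ^ (1 - 2 * α / S.card)) ^ S.card * (4 * R) ^ (n - S.card) := by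
  classical
  set q := 1 - 2 * α / S.card with hq
  have hS0 : (0 : ℝ) < S.card := by exact_mod_cast hS
  have hq0 : 0 < q := by rw [hq, sub_pos, div_lt_one hS0]; exact hαS
  have hq1 : q ≤ 1 := by rw [hq]; linarith [div_nonneg (by linarith : 0 ≤ 2 * α) hS0.le]
  set f : Fin n → ℝ → ℝ := fun i => (Icc (-(2 * R)) (2 * R)).indicator
    (fun s => if i ∈ S then 2 ^ (α / S.card) * (1 + |s|) ^ (q - 1) else 1) with hf
  have hfc : ∀ i, Continuous fun s : ℝ =>
      if i ∈ S then (2 : ℝ) ^ (α / S.card) * (1 + |s|) ^ (q - 1) else 1 := fun i => by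
    by_cases hi : i ∈ S
    · simp only [if_pos hi]
      exact continuous_const.mul
        ((by fun_prop : Continuous fun s : ℝ => 1 + |s|).rpow_const fun s => Or.inl (by positivity))
    · simp only [if_neg hi]; exact continuous_const
  have hfi : ∀ i, Integrable (f i) := fun i =>
    (integrable_indicator_iff measurableSet_Icc).2 (hfc i).integrableOn_Icc
  have hf0 : ∀ i s, 0 ≤ f i s := fun i s =>
    indicator_nonneg (fun t _ => by split_ifs <;> positivity) s
  have hdom : ∀ x, (box fun _ : Fin n => 2 * R).indicator (fun x => pw S α x ^ 2) x ≤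
      ∏ i, f i (x i) := by
    intro x
    by_cases hx : x ∈ box fun _ : Fin n => 2 * R
    swap
    · rw [Set.indicator_of_notMem hx]
      exact Finset.prod_nonneg fun i _ => hf0 i _
    rw [Set.indicator_of_mem hx]
    have hi : ∀ i, f i (x i) =
        if i ∈ S then 2 ^ (α / S.card) * (1 + |x i|) ^ (-(2 * α / S.card)) else 1 := fun i => by
      rw [hf]
      simp only
      rw [Set.indicator_of_mem (show x i ∈ Icc (-(2 * R)) (2 * R) from ⟨hx.1 i, hx.2 i⟩), hq]
      ring_nf
    rw [Finset.prod_congr rfl fun i _ => hi i, Finset.prod_ite_mem, Finset.univ_inter]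
    exact sq_pw_le S hα hS x
  have hint : Integrable fun x : V n => ∏ i, f i (x i) := Integrable.fintype_prod hfi
  have hind : Integrable ((box fun _ : Fin n => 2 * R).indicator fun x => pw S α x ^ 2) :=
    (integrable_indicator_iff measurableSet_Icc).2
      (((pw_c1 S α).continuous.pow 2).continuousOn.integrableOn_compact isCompact_Icc)
  refine (integral_mono hind hint hdom).trans ?_
  rw [integral_fintype_prod_volume_eq_prod, ← Finset.prod_mul_prod_compl S]
  refine mul_le_mul ?_ (le_of_eq ?_) (Finset.prod_nonneg fun i _ => integral_nonneg (hf0 i))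
    (by positivity)
  · rw [← mul_pow, ← Finset.prod_const]
    refine Finset.prod_le_prod (fun i _ => integral_nonneg (hf0 i)) fun i hi => ?_
    have : f i = fun s => 2 ^ (α / S.card) *
        (Icc (-(2 * R)) (2 * R)).indicator (fun s => (1 + |s|) ^ (q - 1)) s := by
      funext s
      simp only [hf, if_pos hi]
      rw [Set.indicator_mul_right]
    rw [this, integral_const_mul, mul_assoc]
    exact mul_le_mul_of_nonneg_left (integral_profile_le hq0 hq1 hR) (by positivity)
  · have hcard : Sᶜ.card = n - S.card := by rw [Finset.card_compl, Fintype.card_fin]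
    rw [← hcard, ← Finset.prod_const]
    refine Finset.prod_congr rfl fun i hi => ?_
    simp only [hf, if_neg (Finset.mem_compl.1 hi)]
    rw [integral_indicator measurableSet_Icc, setIntegral_const,
      Real.volume_real_Icc_of_le (by linarith), smul_eq_mul]
    ring

/-- Near every return the weighted block gradient has a fixed mass. -/
theorem Sol.block_mass (h : Sol u d) (hd : ∀ M : Finset (Fin n), Disjoint M S →
    ∀ b : V n, (∀ i, i ∉ M → b i = 0) → ∀ x, sqLen S (x + b) = sqLen S x) (α : ℝ) {i : Fin n}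
    (hi : i ∈ S) {x₀ : V n} (hne : pd i u x₀ ≠ 0) :
    ∃ c₀ ε R' : ℝ, 0 < c₀ ∧ 0 < ε ∧ ∀ (M : Finset (Fin n)), Disjoint M S → ∀ b : V n,
      (∀ l, l ∉ M → b l = 0) → (∀ x, ‖x‖ ≤ R' → |u (x + b) - u x| ≤ ε) →
      c₀ ≤ ∫ x in Metric.ball (x₀ + b) 1, pw S α x ^ 2 * (blockSq S u x / (1 + sqLen S x)) := by
  set F : V n → ℝ := fun x => pw S α x ^ 2 * (blockSq S u x / (1 + sqLen S x)) with hF
  have hFc : Continuous F := Continuous.mul ((pw_c1 S α).continuous.pow 2)
    ((blockSq_c1 h.c2 S).continuous.div₀ (continuous_const.add (sqLen_c1 S).continuous)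
      fun x => (one_add_pos S x).ne')
  set a := |pd i u x₀| with ha
  have ha0 : 0 < a := abs_pos.2 hne
  obtain ⟨r, hr, hball⟩ := Metric.isOpen_iff.1
    ((pd_c1 h.c2 i).continuous.abs.isOpen_preimage (Ioi (a / 2)) isOpen_Ioi) x₀
    (show a / 2 < |pd i u x₀| by rw [← ha]; linarith)
  set r' := min r 1 with hr'
  have hr'0 : 0 < r' := lt_min hr one_pos
  set P := fun x : V n => pw S α x ^ 2 / (1 + sqLen S x) with hP
  have hPc : Continuous P := ((pw_c1 S α).continuous.pow 2).div₀
    (continuous_const.add (sqLen_c1 S).continuous) fun x => (one_add_pos S x).ne'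
  obtain ⟨y, -, hmin⟩ := (isCompact_closedBall x₀ 1).exists_isMinOn
    ⟨x₀, Metric.mem_closedBall_self zero_le_one⟩ hPc.continuousOn
  have hPy : 0 < P y := div_pos (pow_pos (pw_pos S α y) 2) (one_add_pos S y)
  obtain ⟨ε, R', hε, hclose⟩ := h.pd_close (δ := a / 4) (by linarith) (‖x₀‖ + 1)
  refine ⟨P y * (a / 4) ^ 2 * volume.real (Metric.ball x₀ r'), ε, R', ?_, hε, fun M hM b hb hbc => ?_⟩
  · have : 0 < volume.real (Metric.ball x₀ r') :=
      ENNReal.toReal_pos (Metric.measure_ball_pos volume x₀ hr'0).ne' measure_ball_lt_top.ne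
    positivity
  have hF0 : ∀ x, 0 ≤ F x := fun x => mul_nonneg (sq_nonneg _)
    (div_nonneg (blockSq_nonneg S u x) (one_add_pos S x).le)
  have hFi : IntegrableOn F (Metric.ball (x₀ + b) 1) :=
    (hFc.continuousOn.integrableOn_compact (isCompact_closedBall (x₀ + b) 1)).mono_set
      Metric.ball_subset_closedBall
  have hsub : Metric.ball (x₀ + b) r' ⊆ Metric.ball (x₀ + b) 1 :=
    Metric.ball_subset_ball (min_le_right _ _)
  refine le_trans ?_ (setIntegral_mono_set hFi (Eventually.of_forall hF0) hsub.eventuallyLE)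
  have hvol : volume.real (Metric.ball x₀ r') = volume.real (Metric.ball (x₀ + b) r') := by
    rw [measureReal_def, measureReal_def, Measure.addHaar_ball_center volume x₀,
      Measure.addHaar_ball_center volume (x₀ + b)]
  rw [hvol]
  refine setIntegral_ge_of_const_le_real measurableSet_ball measure_ball_lt_top.ne (fun x hx => ?_)
    (hFi.mono_set hsub)
  rw [Metric.mem_ball, dist_eq_norm] at hx
  have hxb : ‖x - b - x₀‖ < r' := by rwa [sub_sub, add_comm b x₀]
  have hnorm : ‖x - b‖ ≤ ‖x₀‖ + 1 := by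
    have := norm_le_norm_sub_add (x - b) x₀
    linarith [min_le_right r 1]
  have h1 : a / 2 < |pd i u (x - b)| := hball (show x - b ∈ Metric.ball x₀ r by
    rw [Metric.mem_ball, dist_eq_norm]; linarith [min_le_left r 1])
  have h2 := hclose b hbc i (x - b) hnorm
  rw [sub_add_cancel] at h2
  have h3 : a / 4 ≤ |pd i u x| := by
    have := abs_sub_abs_le_abs_sub (pd i u (x - b)) (pd i u x)
    rw [abs_sub_comm] at h2
    linarith
  have h4 : (a / 4) ^ 2 ≤ blockSq S u x := by
    refine le_trans ?_ (Finset.single_le_sum (fun l _ => sq_nonneg (pd l u x)) hi)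
    rw [← sq_abs (pd i u x)]
    exact pow_le_pow_left₀ (by linarith) h3 2
  have h5 : P y ≤ P x := by
    have : P x = P (x - b) := by
      have e1 := hd M hM b hb (x - b)
      rw [sub_add_cancel] at e1
      simp only [hP, pw, e1]
    rw [this]
    exact hmin (show x - b ∈ Metric.closedBall x₀ 1 by
      rw [Metric.mem_closedBall, dist_eq_norm]; linarith [min_le_right r 1])
  calc P y * (a / 4) ^ 2 ≤ P x * blockSq S u x :=
        mul_le_mul h5 h4 (sq_nonneg _) (hPy.le.trans h5)
    _ = F x := by simp only [hP, hF]; ring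

theorem sqLen_add_of_disjoint (S M : Finset (Fin n)) (hM : Disjoint M S) (b : V n)
    (hb : ∀ i, i ∉ M → b i = 0) (x : V n) : sqLen S (x + b) = sqLen S x :=
  Finset.sum_congr rfl fun i hi => by
    rw [Pi.add_apply, hb i (Finset.disjoint_right.1 hM hi), add_zero]

/-- Exponents for the three block sizes. -/
theorem exists_exponent {k : ℕ} (hk : k ∈ ({2, 3, 4} : Finset ℕ)) : ∃ α τ : ℝ,
    0 < α ∧ 0 < τ ∧ 2 * α < k ∧ (1 + τ) * α ^ 2 < (k : ℝ) - 1 ∧ (k : ℝ) - 1 < 2 * α := by
  simp only [Finset.mem_insert, Finset.mem_singleton] at hk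
  rcases hk with rfl | rfl | rfl
  · exact ⟨3 / 4, 1 / 2, by norm_num⟩
  · exact ⟨5 / 4, 1 / 4, by norm_num⟩
  · exact ⟨13 / 8, 1 / 10, by norm_num⟩

/-- The block inequality with the weight and a cube cut-off. -/
theorem Sol.block_cube_le (h : Sol u d) (hS : RadialIn S u) {α τ : ℝ} (hτ : 0 < τ)
    {C₁ : ℝ} (hC₁ : ∀ i x, |pd i u x| ≤ C₁) {B R : ℝ} (hB0 : 0 ≤ B)
    (hbB : ∀ s, |deriv bb s| ≤ B) (hR : 1 ≤ R) :
    (((S.card : ℝ) - 1) - (1 + τ) * α ^ 2) * ∫ x, (pw S α x * boxCut Finset.univ R x) ^ 2 *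
        (blockSq S u x / (1 + sqLen S x)) ≤
      (1 + 1 / τ) * ((S.card : ℝ) * C₁ ^ 2 * ((n : ℝ) * (B / R) ^ 2)) *
        ∫ x, (box fun _ : Fin n => 2 * R).indicator (fun x => pw S α x ^ 2) x := by
  classical
  have hR0 : 0 < R := by linarith
  set χ : V n → ℝ := boxCut Finset.univ R with hχ
  have hχc := boxCut_c1 (Finset.univ : Finset (Fin n)) R
  set η : V n → ℝ := fun x => pw S α x * χ x with hη
  have hηc : ContDiff ℝ 1 η := (pw_c1 S α).mul hχc
  have hχsupp : ∀ x, x ∉ box (fun _ : Fin n => 2 * R) → χ x = 0 := fun x hx => by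
    by_contra hc
    refine hx (mem_box fun i => ?_)
    by_contra hi
    exact hc (boxCut_zero hR0 (Finset.mem_univ i) (not_le.1 hi).le)
  have hχts : tsupport χ ⊆ box (fun _ : Fin n => 2 * R) :=
    closure_minimal (fun x hx => by by_contra hc; exact hx (hχsupp x hc)) isClosed_Icc
  have hηs : HasCompactSupport η := HasCompactSupport.intro (K := box fun _ : Fin n => 2 * R) isCompact_Icc
    fun x hx => by simp [hη, hχsupp x hx]
  have hmain := h.block_le hS hηc hηs
  set K := (S.card : ℝ) * C₁ ^ 2 * ((n : ℝ) * (B / R) ^ 2) with hK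
  set F : V n → ℝ := fun x => η x ^ 2 * (blockSq S u x / (1 + sqLen S x)) with hF
  set I : V n → ℝ := (box fun _ : Fin n => 2 * R).indicator (fun x => pw S α x ^ 2) with hI
  have hpt : ∀ x, blockSq S u x * gsq η x ≤
      (1 + τ) * α ^ 2 * F x + (1 + 1 / τ) * K * I x := by
    intro x
    have h1 : gsq η x ≤ (1 + τ) * (χ x ^ 2 * gsq (pw S α) x) +
        (1 + 1 / τ) * (pw S α x ^ 2 * gsq χ x) := by
      simp only [gsq, Finset.mul_sum, ← Finset.sum_add_distrib]
      refine Finset.sum_le_sum fun j _ => ?_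
      rw [hη, pd_mul ((pw_c1 S α).differentiable one_ne_zero) (hχc.differentiable one_ne_zero)]
      set A := pd j (pw S α) x * χ x
      set D := pw S α x * pd j χ x
      have e : (1 + τ) * (χ x ^ 2 * pd j (pw S α) x ^ 2) +
          (1 + 1 / τ) * (pw S α x ^ 2 * pd j χ x ^ 2) - (A + D) ^ 2 = (τ * A - D) ^ 2 / τ := by
        simp only [A, D]; field_simp; ring
      linarith [div_nonneg (sq_nonneg (τ * A - D)) hτ.le]
    have h2 : χ x ^ 2 * gsq (pw S α) x ≤ α ^ 2 * (η x ^ 2 / (1 + sqLen S x)) := by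
      refine (mul_le_mul_of_nonneg_left (gsq_pw_le S α x) (sq_nonneg _)).trans (le_of_eq ?_)
      rw [hη]; ring
    have hX0 := blockSq_nonneg S u x
    have h3 : blockSq S u x * (pw S α x ^ 2 * gsq χ x) ≤ K * I x := by
      by_cases hx : x ∈ box (fun _ : Fin n => 2 * R)
      · rw [hI, Set.indicator_of_mem hx]
        have hX : blockSq S u x ≤ (S.card : ℝ) * C₁ ^ 2 := by
          have : blockSq S u x ≤ ∑ _i ∈ S, C₁ ^ 2 := Finset.sum_le_sum fun i _ => by
            rw [← sq_abs (pd i u x)]
            exact pow_le_pow_left₀ (abs_nonneg _) (hC₁ i x) 2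
          simpa using this
        have hg : gsq χ x ≤ (n : ℝ) * (B / R) ^ 2 := by
          have : gsq χ x ≤ ∑ _j : Fin n, (B / R) ^ 2 := Finset.sum_le_sum fun j _ => by
            rw [← sq_abs (pd j χ x)]
            refine pow_le_pow_left₀ (abs_nonneg _) ?_ 2
            simpa [hχ] using abs_pd_boxCut hB0 hbB Finset.univ hR0 j x
          simpa using this
        calc blockSq S u x * (pw S α x ^ 2 * gsq χ x)
            ≤ ((S.card : ℝ) * C₁ ^ 2) * (pw S α x ^ 2 * ((n : ℝ) * (B / R) ^ 2)) :=
              mul_le_mul hX (mul_le_mul_of_nonneg_left hg (sq_nonneg _))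
                (mul_nonneg (sq_nonneg _) (Finset.sum_nonneg fun _ _ => sq_nonneg _)) (by positivity)
          _ = K * pw S α x ^ 2 := by rw [hK]; ring
      · have : gsq χ x = 0 := Finset.sum_eq_zero fun j _ => by
          rw [image_eq_zero_of_notMem_tsupport fun h' => hx (hχts (tsupport_pd_subset χ j h'))]
          simp
        rw [this, hI, Set.indicator_of_notMem hx]
        simp
    have h4 := mul_le_mul_of_nonneg_left h1 hX0
    have h5 : blockSq S u x * ((1 + τ) * (χ x ^ 2 * gsq (pw S α) x)) ≤ (1 + τ) * α ^ 2 * F x := by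
      refine (mul_le_mul_of_nonneg_left (mul_le_mul_of_nonneg_left h2 (by linarith)) hX0).trans
        (le_of_eq ?_)
      rw [hF]; ring
    have h6 : blockSq S u x * ((1 + 1 / τ) * (pw S α x ^ 2 * gsq χ x)) ≤ (1 + 1 / τ) * K * I x := by
      calc _ = (1 + 1 / τ) * (blockSq S u x * (pw S α x ^ 2 * gsq χ x)) := by ring
        _ ≤ (1 + 1 / τ) * (K * I x) := mul_le_mul_of_nonneg_left h3 (by positivity)
        _ = _ := by ring
    linarith
  have hFc : Continuous F := Continuous.mul (hηc.continuous.pow 2)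
    ((blockSq_c1 h.c2 S).continuous.div₀ (continuous_const.add (sqLen_c1 S).continuous)
      fun x => (one_add_pos S x).ne')
  have hFi : Integrable F := hFc.integrable_of_hasCompactSupport
    (HasCompactSupport.intro hηs fun x hx => by
      simp only [hF, image_eq_zero_of_notMem_tsupport hx]; simp)
  have hIi : Integrable I := (integrable_indicator_iff measurableSet_Icc).2
    (((pw_c1 S α).continuous.pow 2).continuousOn.integrableOn_compact isCompact_Icc)
  have hm := integral_mono (integrable_mul_supp (blockSq_c1 h.c2 S).continuous (gsq_continuous hηc)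
    (gsq_compact hηs)) ((hFi.const_mul _).add (hIi.const_mul _)) hpt
  simp only [Pi.add_apply] at hm
  rw [integral_add (hFi.const_mul _) (hIi.const_mul _), integral_const_mul, integral_const_mul] at hm
  calc (((S.card : ℝ) - 1) - (1 + τ) * α ^ 2) * ∫ x, F x
      = ((S.card : ℝ) - 1) * (∫ x, F x) - (1 + τ) * α ^ 2 * ∫ x, F x := by ring
    _ ≤ (1 + 1 / τ) * K * ∫ x, I x := by linarith

/-- The solution does not depend on the block. -/
theorem Sol.block_const (h : Sol u d) (hdS : d ∉ S) (hk : S.card ∈ ({2, 3, 4} : Finset ℕ))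
    (hS : RadialIn S u) (hrec : Recurrent (insert d S)ᶜ u) {i : Fin n} (hi : i ∈ S) (x₀ : V n) :
    pd i u x₀ = 0 := by
  classical
  by_contra hne
  obtain ⟨α, τ, hα, hτ, hαk, hgain, hdecay⟩ := exists_exponent hk
  set k := S.card with hkdef
  set M := (insert d S)ᶜ with hM
  set m := M.card with hm
  have hk0 : 0 < k := Finset.card_pos.2 ⟨i, hi⟩
  have hkR : (0 : ℝ) < k := by exact_mod_cast hk0
  have hdisj : Disjoint M S := Finset.disjoint_left.2 fun a ha haS =>
    Finset.mem_compl.1 ha (Finset.mem_insert_of_mem haS)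
  have hnm : n = k + 1 + m := by
    have h1 := Finset.card_add_card_compl (insert d S)
    rw [Finset.card_insert_of_notMem hdS, Fintype.card_fin, ← hM] at h1
    omega
  obtain ⟨c₀, ε, R', hc₀, hε, hret⟩ :=
    h.block_mass (fun M hM b hb x => sqLen_add_of_disjoint S M hM b hb x) α hi hne
  obtain ⟨L₀, hL₀⟩ := hrec ε hε R'
  set L := max L₀ 0 with hL
  have hL0 : 0 ≤ L := le_max_right _ _
  set G := 2 * L + 3 with hG
  have hG0 : 0 < G := by positivity
  obtain ⟨C₁, hC₁0, hC₁, -⟩ := derivative_bounds h.c2 h.bdd h.eq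
  obtain ⟨B, hB0, hbB, -⟩ := exists_deriv_bound
  set q := 1 - 2 * α / k with hq
  set K := (1 + 1 / τ) * ((k : ℝ) * C₁ ^ 2 * ((n : ℝ) * B ^ 2)) *
    ((2 ^ (α / k) * (6 / q)) ^ k * 4 ^ (m + 1)) with hK
  set cg := ((k : ℝ) - 1) - (1 + τ) * α ^ 2 with hcg
  have hcg0 : 0 < cg := by rw [hcg]; linarith
  set c₁ := cg * c₀ / (2 * G) ^ m with hc₁
  have hc₁0 : 0 < c₁ := by positivity
  have hexp : q * (k : ℝ) - 1 < 0 := by
    rw [hq, sub_mul, div_mul_cancel₀ _ hkR.ne']
    linarith
  have hlim : Tendsto (fun R : ℝ => K * R ^ (q * (k : ℝ) - 1)) atTop (𝓝 (K * 0)) :=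
    (tendsto_rpow_neg_atTop (neg_pos.2 hexp) |>.congr fun R => by rw [neg_neg]).const_mul K
  rw [mul_zero] at hlim
  obtain ⟨R, hR1, hR2, hR3⟩ :=
    ((eventually_ge_atTop (1 : ℝ)).and ((eventually_ge_atTop (2 * (L + ‖x₀‖ + 1))).and
      (hlim.eventually_lt_const hc₁0))).exists
  have hR0 : 0 < R := by linarith
  have hmain := h.block_cube_le hS (α := α) hτ hC₁ hB0 hbB hR1
  have hbox := integral_pw_box_le S hα.le hk0 hαk hR1
  rw [← hkdef, ← hcg] at hmain
  rw [← hkdef, ← hq, show n - k = m + 1 by omega] at hbox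
  have hlow : (R / (2 * G)) ^ m * c₀ ≤ ∫ x, (pw S α x * boxCut Finset.univ R x) ^ 2 *
      (blockSq S u x / (1 + sqLen S x)) := by
    have hfc : Continuous fun x => (pw S α x * boxCut Finset.univ R x) ^ 2 *
        (blockSq S u x / (1 + sqLen S x)) :=
      Continuous.mul (((pw_c1 S α).continuous.mul (boxCut_c1 _ _).continuous).pow 2)
        ((blockSq_c1 h.c2 S).continuous.div₀ (continuous_const.add (sqLen_c1 S).continuous)
          fun x => (one_add_pos S x).ne')
    have hfi : Integrable fun x => (pw S α x * boxCut Finset.univ R x) ^ 2 *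
        (blockSq S u x / (1 + sqLen S x)) :=
      hfc.integrable_of_hasCompactSupport (HasCompactSupport.intro
        (K := box fun _ : Fin n => 2 * R) isCompact_Icc fun x hx => by
          have : boxCut Finset.univ R x = 0 := by
            by_contra hc
            refine hx (mem_box fun p => ?_)
            by_contra hp
            exact hc (boxCut_zero hR0 (Finset.mem_univ p) (not_le.1 hp).le)
          simp [this])
    have := integral_ge_of_returns (M := M) hfi (fun x => mul_nonneg (sq_nonneg _)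
      (div_nonneg (blockSq_nonneg S u x) (one_add_pos S x).le)) x₀ (G := G) (L := L) (N := R / 2)
      hc₀.le (by rw [hG]; linarith) hL0 (by linarith) fun a ha haN => ?_
    · rwa [div_div] at this
    obtain ⟨b, hb0, hb1, hb2⟩ := hL₀ a ha
    refine ⟨b, hb1.trans (le_max_left _ _), (hret M hdisj b hb0 hb2).trans (le_of_eq
      (setIntegral_congr_fun measurableSet_ball fun x hx => ?_))⟩
    rw [Metric.mem_ball, dist_eq_norm] at hx
    have hbn : ‖b‖ ≤ R / 2 + L := by
      have := norm_le_norm_sub_add b a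
      linarith [le_max_left L₀ 0]
    have hbox1 : boxCut Finset.univ R x = 1 := boxCut_one hR0 fun p _ => by
      have h1 := norm_le_pi_norm x p
      rw [Real.norm_eq_abs] at h1
      have h2 := norm_le_norm_sub_add x (x₀ + b)
      have h3 := norm_add_le x₀ b
      linarith
    simp [hbox1]
  have hup : cg * ∫ x, (pw S α x * boxCut Finset.univ R x) ^ 2 *
      (blockSq S u x / (1 + sqLen S x)) ≤ R ^ m * (K * R ^ (q * (k : ℝ) - 1)) := by
    refine (hmain.trans (mul_le_mul_of_nonneg_left hbox (by positivity))).trans (le_of_eq ?_)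
    rw [← Real.rpow_natCast (R ^ q) k, ← Real.rpow_mul hR0.le, Real.rpow_sub hR0, Real.rpow_one,
      hK, mul_pow 4 R]
    field_simp
    ring
  have hfin : R ^ m * c₁ ≤ R ^ m * (K * R ^ (q * (k : ℝ) - 1)) := by
    calc R ^ m * c₁ = cg * ((R / (2 * G)) ^ m * c₀) := by rw [hc₁, div_pow]; ring
      _ ≤ _ := (mul_le_mul_of_nonneg_left hlow hcg0.le).trans hup
  exact absurd (le_of_mul_le_mul_left hfin (by positivity)) (not_le.2 hR3)

end Vale.Agent.P134
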