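import Vale.Agent.P134.Stable

/-!
P134: recurrence, counting of returns, cut-offs, and the proof that the ratios of the derivatives of
a solution recurrent in all but two variables are constant.
-/

namespace Vale.Agent.P134

open MeasureTheory Filter Set
open scoped BigOperators Topology

variable {n : ℕ}

/-- Translations along the coordinates in `M` almost return, with bounded gaps. -/
def Recurrent (M : Finset (Fin n)) (u : V n → ℝ) : Prop :=
  ∀ ε : ℝ, 0 < ε → ∀ R : ℝ, ∃ L : ℝ, ∀ a : V n, (∀ i, i ∉ M → a i = 0) →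
    ∃ b : V n, (∀ i, i ∉ M → b i = 0) ∧ ‖b - a‖ ≤ L ∧ ∀ x, ‖x‖ ≤ R → |u (x + b) - u x| ≤ ε

variable {u : V n → ℝ} {d : Fin n}

/-- Returns of the values are returns of the gradient. -/
theorem Sol.pd_close (h : Sol u d) {δ : ℝ} (hδ : 0 < δ) (R : ℝ) :
    ∃ ε R' : ℝ, 0 < ε ∧ ∀ b : V n, (∀ x, ‖x‖ ≤ R' → |u (x + b) - u x| ≤ ε) →
      ∀ i x, ‖x‖ ≤ R → |pd i u (x + b) - pd i u x| ≤ δ := by
  obtain ⟨C, hC0, -, hC2⟩ := derivative_bounds h.c2 h.bdd h.eq
  set r := δ / (4 * C + 1) with hr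
  have hr0 : 0 < r := by positivity
  refine ⟨δ * r / 4, R + r, by positivity, fun b hb i x hx => ?_⟩
  have hsh : ContDiff ℝ 2 fun y => u (y + b) := h.c2.comp (contDiff_id.add contDiff_const)
  have hud := h.c2.differentiable (by norm_num : (2 : WithTop ℕ∞) ≠ 0)
  have hpd : ∀ j, pd j (fun y => u (y + b) - u y) = fun y => pd j u (y + b) - pd j u y := fun j => by
    rw [pd_sub (hsh.differentiable (by norm_num)) hud, pd_add_right]
  have h2 : ∀ y, |pd i (pd i fun y => u (y + b) - u y) y| ≤ 2 * C := fun y => by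
    have d1 := (pd_c1 h.c2 i).differentiable one_ne_zero
    rw [hpd, pd_sub (f := fun y => pd i u (y + b)) (d1.comp (differentiable_id.add_const _)) d1,
      pd_add_right]
    refine (abs_sub _ _).trans ?_
    linarith [hC2 i i (y + b), hC2 i i y]
  have hxr : ‖x + r • e i‖ ≤ R + r := by
    refine (norm_add_le _ _).trans (add_le_add hx ?_)
    rw [norm_smul, e, Pi.norm_single]
    simp [abs_of_pos hr0]
  have := abs_pd_le_of_small (w := fun y => u (y + b) - u y) (hsh.sub h.c2) hr0 h2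
    (hb x (by linarith)) (hb _ hxr)
  rw [hpd] at this
  refine this.trans ?_
  have e1 : 2 * (δ * r / 4) / r = δ / 2 := by field_simp; ring
  have e2 : 2 * C * r ≤ δ / 2 := by
    rw [hr, ← mul_div_assoc, div_le_iff₀ (by positivity)]
    linarith [mul_nonneg hC0 hδ.le]
  linarith

/-- Separated returns add up. -/
theorem integral_ge_of_returns {M : Finset (Fin n)} {f : V n → ℝ} (hf : Integrable f)
    (hf0 : ∀ x, 0 ≤ f x) (x₀ : V n) {c L G N : ℝ} (hc : 0 ≤ c) (hG : 2 * L + 2 < G) (hL : 0 ≤ L)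
    (hN : 0 ≤ N)
    (h : ∀ a : V n, (∀ i, i ∉ M → a i = 0) → ‖a‖ ≤ N →
      ∃ b : V n, ‖b - a‖ ≤ L ∧ c ≤ ∫ x in Metric.ball (x₀ + b) 1, f x) :
    (N / G) ^ M.card * c ≤ ∫ x, f x := by
  classical
  have hG0 : 0 < G := by linarith
  set K := ⌊N / G⌋₊ with hK
  have hKle : (K : ℝ) * G ≤ N := by
    have := Nat.floor_le (by positivity : 0 ≤ N / G)
    rwa [le_div_iff₀ hG0] at this
  set a : (M → Fin (K + 1)) → V n :=
    fun z i => if hi : i ∈ M then G * ((z ⟨i, hi⟩ : ℕ) : ℝ) else 0 with ha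
  have haM : ∀ z, ∀ i, i ∉ M → a z i = 0 := fun z i hi => by simp [ha, hi]
  have hanorm : ∀ z, ‖a z‖ ≤ N := fun z => (pi_norm_le_iff_of_nonneg hN).2 fun i => by
    simp only [ha]
    split_ifs with hi
    · rw [Real.norm_eq_abs, abs_of_nonneg (by positivity), mul_comm]
      refine le_trans (mul_le_mul_of_nonneg_right ?_ hG0.le) hKle
      exact_mod_cast Nat.lt_succ_iff.1 (z ⟨i, hi⟩).isLt
    · simpa using hN
  choose b hb1 hb2 using fun z => h (a z) (haM z) (hanorm z)
  have hdisj : (↑(Finset.univ : Finset (M → Fin (K + 1))) : Set _).Pairwise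
      (Function.onFun Disjoint fun z => Metric.ball (x₀ + b z) 1) := by
    intro z _ z' _ hne
    obtain ⟨i, hi⟩ := Function.ne_iff.1 hne
    have hsep : G ≤ ‖a z - a z'‖ := by
      refine le_trans ?_ (norm_le_pi_norm (a z - a z') i.1)
      simp only [ha, Pi.sub_apply, dif_pos i.2, ← mul_sub, Real.norm_eq_abs, abs_mul,
        abs_of_pos hG0]
      refine le_mul_of_one_le_right hG0.le ?_
      have hne' : ((z i : ℕ) : ℤ) - (z' i : ℕ) ≠ 0 := sub_ne_zero.2 fun h' =>
        hi (Fin.ext (by exact_mod_cast h'))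
      have h1 := Int.one_le_abs hne'
      have : ((1 : ℤ) : ℝ) ≤ ((|((z i : ℕ) : ℤ) - (z' i : ℕ)| : ℤ) : ℝ) := Int.cast_le.2 h1
      push_cast at this
      exact this
    refine Metric.ball_disjoint_ball ?_
    rw [dist_add_left, dist_eq_norm]
    have h1 : ‖a z - a z'‖ ≤ ‖b z - b z'‖ + ‖b z - a z‖ + ‖b z' - a z'‖ := by
      calc ‖a z - a z'‖ = ‖(b z - b z') - (b z - a z) + (b z' - a z')‖ := by congr 1; abel
        _ ≤ ‖(b z - b z') - (b z - a z)‖ + ‖b z' - a z'‖ := norm_add_le _ _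
        _ ≤ _ := by gcongr; exact norm_sub_le _ _
    linarith [hb1 z, hb1 z']
  have hcard : ((N / G) ^ M.card : ℝ) ≤ (Fintype.card (M → Fin (K + 1)) : ℝ) := by
    rw [Fintype.card_fun, Fintype.card_fin, Fintype.card_coe]
    push_cast
    refine pow_le_pow_left₀ (by positivity) ?_ _
    exact (Nat.lt_floor_add_one _).le
  calc (N / G) ^ M.card * c ≤ (Fintype.card (M → Fin (K + 1)) : ℝ) * c :=
        mul_le_mul_of_nonneg_right hcard hc
    _ = ∑ _z : M → Fin (K + 1), c := by simp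
    _ ≤ ∑ z, ∫ x in Metric.ball (x₀ + b z) 1, f x := Finset.sum_le_sum fun z _ => hb2 z
    _ = ∫ x in ⋃ z ∈ (Finset.univ : Finset (M → Fin (K + 1))), Metric.ball (x₀ + b z) 1, f x :=
        (integral_biUnion_finset _ (fun z _ => measurableSet_ball) hdisj
          fun z _ => hf.integrableOn).symm
    _ ≤ ∫ x, f x := setIntegral_le_integral hf (Eventually.of_forall hf0)

/-- The profile of the cut-offs. -/
noncomputable def bb (s : ℝ) : ℝ := Real.smoothTransition (2 - s ^ 2)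

/-- The profile of the annular cut-offs. -/
noncomputable def gg (s : ℝ) : ℝ := Real.smoothTransition ((4 - s) / 3)

theorem bb_c1 : ContDiff ℝ 1 bb :=
  Real.smoothTransition.contDiff.comp (contDiff_const.sub (contDiff_id.pow 2))

theorem gg_c1 : ContDiff ℝ 1 gg :=
  Real.smoothTransition.contDiff.comp ((contDiff_const.sub contDiff_id).div_const 3)

theorem bb_nonneg (s : ℝ) : 0 ≤ bb s := Real.smoothTransition.nonneg _
theorem bb_le_one (s : ℝ) : bb s ≤ 1 := Real.smoothTransition.le_one _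
theorem gg_nonneg (s : ℝ) : 0 ≤ gg s := Real.smoothTransition.nonneg _
theorem gg_le_one (s : ℝ) : gg s ≤ 1 := Real.smoothTransition.le_one _

theorem bb_one {s : ℝ} (h : |s| ≤ 1) : bb s = 1 :=
  Real.smoothTransition.one_of_one_le (by have := (sq_le_one_iff_abs_le_one s).2 h; linarith)

theorem bb_zero {s : ℝ} (h : 2 ≤ |s|) : bb s = 0 :=
  Real.smoothTransition.zero_of_nonpos (by nlinarith [sq_abs s])

theorem gg_one {s : ℝ} (h : s ≤ 1) : gg s = 1 :=
  Real.smoothTransition.one_of_one_le (by linarith)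

theorem gg_zero {s : ℝ} (h : 4 ≤ s) : gg s = 0 :=
  Real.smoothTransition.zero_of_nonpos (by linarith)

theorem deriv_gg_zero {s : ℝ} (h : s < 1 ∨ 4 < s) : deriv gg s = 0 := by
  rcases h with h | h
  · rw [show deriv gg s = deriv (fun _ => (1 : ℝ)) s from
      Filter.EventuallyEq.deriv_eq (by filter_upwards [eventually_lt_nhds h] with y hy using gg_one hy.le)]
    simp
  · rw [show deriv gg s = deriv (fun _ => (0 : ℝ)) s from
      Filter.EventuallyEq.deriv_eq (by filter_upwards [eventually_gt_nhds h] with y hy using gg_zero hy.le)]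
    simp

theorem exists_deriv_bound : ∃ B : ℝ, 0 ≤ B ∧ (∀ s, |deriv bb s| ≤ B) ∧ ∀ s, |deriv gg s| ≤ B := by
  have h1 : HasCompactSupport (deriv bb) := HasCompactSupport.deriv
    (HasCompactSupport.intro (K := Icc (-2 : ℝ) 2) isCompact_Icc fun s hs => bb_zero (by
      by_contra hc
      obtain ⟨a, b⟩ := abs_le.1 (le_of_lt (not_le.1 hc))
      exact hs ⟨a, b⟩))
  have h2 : HasCompactSupport (deriv gg) := HasCompactSupport.intro (K := Icc (1 : ℝ) 4) isCompact_Icc
    fun s hs => deriv_gg_zero (by rw [mem_Icc, not_and_or, not_le, not_le] at hs; exact hs)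
  obtain ⟨B1, hB1⟩ := h1.exists_bound_of_continuous (bb_c1.continuous_deriv le_rfl)
  obtain ⟨B2, hB2⟩ := h2.exists_bound_of_continuous (gg_c1.continuous_deriv le_rfl)
  exact ⟨max B1 B2, le_max_of_le_left ((norm_nonneg _).trans (hB1 0)),
    fun s => (hB1 s).trans (le_max_left _ _), fun s => (hB2 s).trans (le_max_right _ _)⟩

theorem contDiff_coord (i : Fin n) {k : WithTop ℕ∞} : ContDiff ℝ k fun x : V n => x i :=
  contDiff_apply ℝ ℝ i

/-- Cut-off in the coordinates of `M`. -/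
noncomputable def boxCut (M : Finset (Fin n)) (N : ℝ) (x : V n) : ℝ := ∏ i ∈ M, bb (x i / N)

theorem boxCut_c1 (M : Finset (Fin n)) (N : ℝ) : ContDiff ℝ 1 (boxCut M N) :=
  contDiff_prod fun i _ => bb_c1.comp ((contDiff_coord i).div_const N)

theorem boxCut_bound (M : Finset (Fin n)) (N : ℝ) (x : V n) :
    0 ≤ boxCut M N x ∧ boxCut M N x ≤ 1 :=
  ⟨Finset.prod_nonneg fun i _ => bb_nonneg _,
    Finset.prod_le_one (fun i _ => bb_nonneg _) fun i _ => bb_le_one _⟩

theorem boxCut_zero {M : Finset (Fin n)} {N : ℝ} (hN : 0 < N) {x : V n} {i : Fin n} (hi : i ∈ M)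
    (h : 2 * N ≤ |x i|) : boxCut M N x = 0 :=
  Finset.prod_eq_zero hi (bb_zero (by rwa [abs_div, abs_of_pos hN, le_div_iff₀ hN]))

theorem boxCut_one {M : Finset (Fin n)} {N : ℝ} (hN : 0 < N) {x : V n}
    (h : ∀ i ∈ M, |x i| ≤ N) : boxCut M N x = 1 :=
  Finset.prod_eq_one fun i hi => bb_one (by
    rw [abs_div, abs_of_pos hN, div_le_one hN]; exact h i hi)

theorem abs_pd_boxCut {B : ℝ} (hB : 0 ≤ B) (hb : ∀ s, |deriv bb s| ≤ B) (M : Finset (Fin n))
    {N : ℝ} (hN : 0 < N) (j : Fin n) (x : V n) :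
    |pd j (boxCut M N) x| ≤ if j ∈ M then B / N else 0 := by
  classical
  have hd : HasFDerivAt (boxCut M N) (∑ i ∈ M, (∏ l ∈ M.erase i, bb (x l / N)) •
      (deriv bb (x i / N) • N⁻¹ • (ContinuousLinearMap.proj i : V n →L[ℝ] ℝ))) x := by
    unfold boxCut
    refine HasFDerivAt.finsetProd fun i _ => ?_
    refine ((bb_c1.differentiable one_ne_zero _).hasDerivAt).comp_hasFDerivAt x ?_
    simpa [div_eq_inv_mul] using
      ((ContinuousLinearMap.proj i : V n →L[ℝ] ℝ).hasFDerivAt (x := x)).const_mul N⁻¹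
  rw [pd, hd.fderiv]
  simp only [sum_apply, smul_apply, ContinuousLinearMap.proj_apply, smul_eq_mul, e]
  split_ifs with hj
  · rw [Finset.sum_eq_single_of_mem j hj (fun l _ hl => by simp [hl])]
    simp only [Pi.single_eq_same, mul_one, abs_mul, abs_inv, abs_of_pos hN]
    calc |∏ l ∈ M.erase j, bb (x l / N)| * (|deriv bb (x j / N)| * N⁻¹) ≤ 1 * (B * N⁻¹) := by
          gcongr
          · rw [abs_of_nonneg (Finset.prod_nonneg fun l _ => bb_nonneg _)]
            exact Finset.prod_le_one (fun l _ => bb_nonneg _) fun l _ => bb_le_one _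
          · exact hb _
      _ = B / N := by rw [one_mul, div_eq_mul_inv]
  · rw [Finset.sum_eq_zero fun l hl => by
      have : l ≠ j := fun h' => hj (h' ▸ hl)
      simp [this]]
    simp

/-- Squared length of the coordinates in `P`. -/
def sqLen (P : Finset (Fin n)) (x : V n) : ℝ := ∑ i ∈ P, x i ^ 2

theorem hasFDerivAt_sqLen (P : Finset (Fin n)) (x : V n) :
    HasFDerivAt (sqLen P)
      (∑ i ∈ P, (2 * x i) • (ContinuousLinearMap.proj i : V n →L[ℝ] ℝ)) x := by
  refine HasFDerivAt.fun_sum fun i _ => ?_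
  simpa using ((ContinuousLinearMap.proj i : V n →L[ℝ] ℝ).hasFDerivAt (x := x)).pow 2

theorem pd_sqLen (P : Finset (Fin n)) (x : V n) (j : Fin n) :
    fderiv ℝ (sqLen P) x (e j) = if j ∈ P then 2 * x j else 0 := by
  rw [(hasFDerivAt_sqLen P x).fderiv]
  simp [e, Pi.single_apply]

theorem sqLen_nonneg (P : Finset (Fin n)) (x : V n) : 0 ≤ sqLen P x :=
  Finset.sum_nonneg fun i _ => sq_nonneg _

theorem sq_le_sqLen {P : Finset (Fin n)} {i : Fin n} (hi : i ∈ P) (x : V n) :
    x i ^ 2 ≤ sqLen P x :=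
  Finset.single_le_sum (fun l _ => sq_nonneg (x l)) hi

theorem sqLen_c1 (P : Finset (Fin n)) : ContDiff ℝ 1 (sqLen P) :=
  ContDiff.sum fun i _ => (contDiff_coord i).pow 2

/-- Cut-off with small Dirichlet integral in two variables. -/
noncomputable def logCut (P : Finset (Fin n)) (l₀ L : ℕ) (x : V n) : ℝ :=
  (L : ℝ)⁻¹ * ∑ l ∈ Finset.range L, gg (sqLen P x / 16 ^ (l₀ + l))

theorem logCut_c1 (P : Finset (Fin n)) (l₀ L : ℕ) : ContDiff ℝ 1 (logCut P l₀ L) :=
  contDiff_const.mul (ContDiff.sum fun l _ => gg_c1.comp ((sqLen_c1 P).div_const _))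

theorem logCut_bound (P : Finset (Fin n)) (l₀ L : ℕ) (x : V n) :
    0 ≤ logCut P l₀ L x ∧ logCut P l₀ L x ≤ 1 := by
  have h0 : 0 ≤ ∑ l ∈ Finset.range L, gg (sqLen P x / 16 ^ (l₀ + l)) :=
    Finset.sum_nonneg fun _ _ => gg_nonneg _
  refine ⟨mul_nonneg (by positivity) h0, ?_⟩
  have h1 : ∑ l ∈ Finset.range L, gg (sqLen P x / 16 ^ (l₀ + l)) ≤ ∑ _l ∈ Finset.range L, (1 : ℝ) :=
    Finset.sum_le_sum fun _ _ => gg_le_one _
  simp only [Finset.sum_const, Finset.card_range, nsmul_eq_mul, mul_one] at h1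
  rcases L.eq_zero_or_pos with hL | hL
  · simp [logCut, hL]
  · unfold logCut
    rw [inv_mul_le_iff₀ (by positivity)]
    linarith

theorem logCut_one {P : Finset (Fin n)} {l₀ L : ℕ} (hL : 0 < L) {x : V n}
    (h : sqLen P x ≤ 16 ^ l₀) : logCut P l₀ L x = 1 := by
  unfold logCut
  have : ∀ l ∈ Finset.range L, gg (sqLen P x / 16 ^ (l₀ + l)) = 1 := fun l _ => gg_one (by
    rw [div_le_one (by positivity)]
    exact h.trans (pow_le_pow_right₀ (by norm_num) (Nat.le_add_right _ _)))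
  rw [Finset.sum_congr rfl this]
  simp only [Finset.sum_const, Finset.card_range, nsmul_eq_mul, mul_one]
  exact inv_mul_cancel₀ (by positivity)

theorem logCut_zero {P : Finset (Fin n)} {l₀ L : ℕ} {x : V n}
    (h : 4 * 16 ^ (l₀ + L) ≤ sqLen P x) : logCut P l₀ L x = 0 := by
  unfold logCut
  rw [Finset.sum_eq_zero fun l hl => gg_zero ?_, mul_zero]
  rw [le_div_iff₀ (by positivity)]
  refine le_trans ?_ h
  gcongr
  · norm_num
  · exact (Finset.mem_range.1 hl).le

theorem sq_pd_logCut {B : ℝ} (hB : ∀ s, |deriv gg s| ≤ B) (P : Finset (Fin n)) (l₀ L : ℕ)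
    (j : Fin n) (x : V n) :
    pd j (logCut P l₀ L) x ^ 2 ≤ (if j ∈ P then 16 * B ^ 2 / (L : ℝ) ^ 2 else 0) *
      ∑ l ∈ Finset.range L, (if sqLen P x ≤ 4 * 16 ^ (l₀ + l) then 1 / (16 : ℝ) ^ (l₀ + l) else 0) := by
  have hd : HasFDerivAt (logCut P l₀ L) ((L : ℝ)⁻¹ • ∑ l ∈ Finset.range L,
      deriv gg (sqLen P x / 16 ^ (l₀ + l)) • ((16 : ℝ) ^ (l₀ + l))⁻¹ • fderiv ℝ (sqLen P) x) x := by
    refine (HasFDerivAt.fun_sum fun l _ => ?_).const_mul _
    refine ((gg_c1.differentiable one_ne_zero _).hasDerivAt).comp_hasFDerivAt x ?_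
    simpa [div_eq_inv_mul] using
      ((sqLen_c1 P).differentiable one_ne_zero x).hasFDerivAt.const_mul ((16 : ℝ) ^ (l₀ + l))⁻¹
  rw [pd, hd.fderiv]
  simp only [sum_apply, smul_apply, smul_eq_mul, pd_sqLen]
  by_cases hj : j ∈ P
  swap
  · simp [hj]
  simp only [if_pos hj]
  set q := sqLen P x with hq
  have key : ∀ (a : ℕ → ℝ) (S : Finset ℕ), (∀ l ∈ S, ∀ m ∈ S, l ≠ m → a l * a m = 0) →
      (∑ l ∈ S, a l) ^ 2 = ∑ l ∈ S, a l ^ 2 := by
    intro a S hS
    rw [sq, Finset.sum_mul_sum]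
    refine Finset.sum_congr rfl fun l hl => ?_
    rw [Finset.sum_eq_single_of_mem l hl (fun m hm hne => hS l hl m hm (Ne.symm hne)), sq]
  rw [mul_pow, key _ _ ?_, Finset.mul_sum, Finset.mul_sum]
  · refine Finset.sum_le_sum fun l _ => ?_
    set T : ℝ := 16 ^ (l₀ + l) with hT
    have hT0 : 0 < T := by positivity
    split_ifs with hl
    · have hxj : x j ^ 2 ≤ 4 * T := (sq_le_sqLen hj x).trans hl
      have hD : deriv gg (q / T) ^ 2 ≤ B ^ 2 := by
        rw [← sq_abs (deriv gg (q / T))]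
        exact pow_le_pow_left₀ (abs_nonneg _) (hB _) 2
      calc ((L : ℝ)⁻¹) ^ 2 * (deriv gg (q / T) * (T⁻¹ * (2 * x j))) ^ 2
          = ((L : ℝ)⁻¹) ^ 2 * (T⁻¹) ^ 2 * 4 * (deriv gg (q / T) ^ 2 * x j ^ 2) := by ring
        _ ≤ ((L : ℝ)⁻¹) ^ 2 * (T⁻¹) ^ 2 * 4 * (B ^ 2 * (4 * T)) := by gcongr
        _ = 16 * B ^ 2 / (L : ℝ) ^ 2 * (1 / T) := by field_simp; ring
    · rw [deriv_gg_zero (Or.inr (by rw [lt_div_iff₀ hT0]; exact not_le.1 hl))]
      simp
  · intro l _ m _ hlm
    wlog hlt : l < m generalizing l m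
    · rw [mul_comm]; exact this m (by simp_all) l (by simp_all) hlm.symm (by omega)
    by_cases hq1 : q < 16 ^ (l₀ + m)
    · have : deriv gg (q / 16 ^ (l₀ + m)) = 0 :=
        deriv_gg_zero (Or.inl (by rw [div_lt_one (by positivity)]; exact hq1))
      simp [this]
    · have h16 : (16 : ℝ) * 16 ^ (l₀ + l) ≤ 16 ^ (l₀ + m) := by
        rw [← pow_succ']; exact pow_le_pow_right₀ (by norm_num) (by omega)
      have : deriv gg (q / 16 ^ (l₀ + l)) = 0 := deriv_gg_zero (Or.inr (by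
        rw [lt_div_iff₀ (by positivity)]
        have : (0 : ℝ) < 16 ^ (l₀ + l) := by positivity
        linarith [not_lt.1 hq1]))
      simp [this]

/-- A coordinate box. -/
def box (s : V n) : Set (V n) := Icc (-s) s

theorem integrable_box (s : V n) (K : ℝ) : Integrable ((box s).indicator fun _ => K) :=
  (integrable_indicator_iff measurableSet_Icc).2
    (integrableOn_const (isCompact_Icc).measure_lt_top.ne)

theorem integral_box {s : V n} (hs : ∀ i, 0 ≤ s i) (K : ℝ) :
    ∫ x, (box s).indicator (fun _ => K) x = (∏ i, 2 * s i) * K := by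
  rw [box, integral_indicator measurableSet_Icc, setIntegral_const, smul_eq_mul, measureReal_def,
    Real.volume_Icc_pi_toReal (fun i => by simp only [Pi.neg_apply]; linarith [hs i])]
  congr 1
  exact Finset.prod_congr rfl fun i _ => by simp only [Pi.neg_apply]; ring

theorem mem_box {s x : V n} (h : ∀ i, |x i| ≤ s i) : x ∈ box s :=
  ⟨fun i => (abs_le.1 (h i)).1, fun i => (abs_le.1 (h i)).2⟩

/-- Side lengths: `a` on `M`, `b` elsewhere. -/
noncomputable def sides (M : Finset (Fin n)) (a b : ℝ) : V n := fun i => if i ∈ M then a else b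

theorem prod_sides (M : Finset (Fin n)) (a b : ℝ) :
    ∏ i, 2 * sides M a b i = (2 * a) ^ M.card * (2 * b) ^ Mᶜ.card := by
  rw [← Finset.prod_mul_prod_compl M, ← Finset.prod_const, ← Finset.prod_const]
  congr 1 <;> refine Finset.prod_congr rfl fun i hi => ?_
  · simp [sides, hi]
  · simp [sides, Finset.mem_compl.1 hi]

/-- A bump which detects a nonzero derivative. -/
theorem exists_bump {σ : V n → ℝ} (hσ : ContDiff ℝ 1 σ) {j : Fin n} {x₀ : V n}
    (hne : pd j σ x₀ ≠ 0) :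
    ∃ bump : ContDiffBump x₀, bump.rOut ≤ 1 ∧ ∫ x, pd j σ x * bump x ≠ 0 := by
  have hS := (pd_continuous hσ j).isOpen_preimage {t | t ≠ 0} isOpen_ne
  obtain ⟨r, hr, hball⟩ := Metric.isOpen_iff.1 hS x₀ hne
  set r' := min r 1 with hr'
  have hr'0 : 0 < r' := lt_min hr one_pos
  let bump : ContDiffBump x₀ := ⟨r' / 4, r' / 2, by linarith, by linarith⟩
  refine ⟨bump, show r' / 2 ≤ 1 by linarith [min_le_right r 1], ?_⟩
  have hbc : Continuous (bump : V n → ℝ) := bump.continuous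
  have hbs : HasCompactSupport (bump : V n → ℝ) := bump.hasCompactSupport
  -- the sign of the derivative is constant near `x₀`
  set J₀ := ∫ x, pd j σ x * bump x with hJ₀
  have hconv : IsPreconnected (Metric.ball x₀ r) := (convex_ball x₀ r).isPreconnected
  have hsign : (∀ x ∈ Metric.ball x₀ r, 0 < pd j σ x) ∨ ∀ x ∈ Metric.ball x₀ r, pd j σ x < 0 := by
    by_contra hc
    push Not at hc
    obtain ⟨⟨a, ha, ha'⟩, ⟨b, hb, hb'⟩⟩ := hc
    obtain ⟨z, hz, hz0⟩ := hconv.intermediate_value ha hb (pd_continuous hσ j).continuousOn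
      ⟨ha', hb'⟩
    exact hball hz hz0
  have hsupp : ∀ x, bump x ≠ 0 → x ∈ Metric.ball x₀ r := fun x hx => by
    have : x ∈ Metric.ball x₀ (r' / 2) := by
      rw [show Metric.ball x₀ (r' / 2) = Function.support (bump : V n → ℝ) from bump.support_eq.symm]
      exact hx
    exact Metric.ball_subset_ball (by linarith [min_le_left r 1]) this
  rcases hsign with hs | hs
  · refine ne_of_gt (Continuous.integral_pos_of_hasCompactSupport_nonneg_nonzero (x := x₀)
      ((pd_continuous hσ j).mul hbc) hbs.mul_left (fun x => ?_) ?_)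
    · by_cases hx : bump x = 0
      · simp [hx]
      · exact mul_nonneg (hs x (hsupp x hx)).le bump.nonneg
    · rw [bump.one_of_mem_closedBall (Metric.mem_closedBall_self (by positivity)), mul_one]
      exact hne
  · intro h0
    have : 0 < ∫ x, -(pd j σ x) * bump x := by
      refine Continuous.integral_pos_of_hasCompactSupport_nonneg_nonzero (x := x₀)
        ((pd_continuous hσ j).neg.mul hbc) hbs.mul_left (fun x => ?_) ?_
      · by_cases hx : bump x = 0
        · simp [hx]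
        · exact mul_nonneg (neg_nonneg.2 (hs x (hsupp x hx)).le) bump.nonneg
      · rw [bump.one_of_mem_closedBall (Metric.mem_closedBall_self (by positivity)), mul_one]
        exact neg_ne_zero.2 hne
    simp only [neg_mul, integral_neg] at this
    rw [← hJ₀, h0] at this
    linarith

/-- The functional of a bump survives translations under which the function almost returns. -/
theorem bump_return {σ : V n → ℝ} (hσ : ContDiff ℝ 1 σ) (j : Fin n) {x₀ : V n}
    (bump : ContDiffBump x₀) (hout : bump.rOut ≤ 1) {J₀ R₁ Cb : ℝ}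
    (hJ₀ : J₀ = ∫ x, pd j σ x * bump x) (hR₁ : R₁ = ‖x₀‖ + 1) (hCb0 : 0 ≤ Cb)
    (hCb : ∫ x, |pd j (bump : V n → ℝ) x| ≤ Cb) {b : V n}
    (hclose : ∀ x, ‖x‖ ≤ R₁ → |σ (x + b) - σ x| ≤ |J₀| / (2 * (Cb + 1))) :
    |J₀| / 2 ≤ |∫ x, pd j σ x * bump (x - b)| := by
  have hb1 : ContDiff ℝ 1 (bump : V n → ℝ) := bump.contDiff
  have hbs : HasCompactSupport (bump : V n → ℝ) := bump.hasCompactSupport
  have hdb : HasCompactSupport (pd j (bump : V n → ℝ)) := hasCompactSupport_pd hbs j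
  have hsh1 : ContDiff ℝ 1 fun x => σ (x + b) := hσ.comp (contDiff_id.add contDiff_const)
  have e1 : ∫ x, pd j σ x * bump (x - b) = ∫ x, pd j σ (x + b) * bump x := by
    rw [← integral_add_right_eq_self (fun x => pd j σ x * bump (x - b)) b]
    simp
  have e2 : ∫ x, pd j σ (x + b) * bump x = -∫ x, σ (x + b) * pd j (bump : V n → ℝ) x := by
    rw [ibp hsh1 hb1 hbs j, neg_neg, pd_add_right]
  have e3 : J₀ = -∫ x, σ x * pd j (bump : V n → ℝ) x := by
    rw [ibp hσ hb1 hbs j, neg_neg]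
    exact hJ₀
  have hi1 : Integrable fun x => σ (x + b) * pd j (bump : V n → ℝ) x :=
    integrable_mul_supp hsh1.continuous (pd_continuous hb1 j) hdb
  have hi2 : Integrable fun x => σ x * pd j (bump : V n → ℝ) x :=
    integrable_mul_supp hσ.continuous (pd_continuous hb1 j) hdb
  have hbound : |∫ x, (σ (x + b) - σ x) * pd j (bump : V n → ℝ) x| ≤ |J₀| / 2 := by
    refine (abs_integral_le_integral_abs).trans ?_
    have hpt : ∀ x, |(σ (x + b) - σ x) * pd j (bump : V n → ℝ) x| ≤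
        |J₀| / (2 * (Cb + 1)) * |pd j (bump : V n → ℝ) x| := by
      intro x
      rw [abs_mul]
      by_cases hx : ‖x‖ ≤ R₁
      · exact mul_le_mul_of_nonneg_right (hclose x hx) (abs_nonneg _)
      · have : pd j (bump : V n → ℝ) x = 0 := image_eq_zero_of_notMem_tsupport fun h' => hx (by
          have h'' := tsupport_pd_subset _ j h'
          rw [bump.tsupport_eq, Metric.mem_closedBall, dist_eq_norm] at h''
          have h3 : ‖x‖ ≤ ‖x - x₀‖ + ‖x₀‖ := norm_le_norm_sub_add x x₀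
          have h4 : bump.rOut ≤ 1 := hout
          rw [hR₁]; linarith)
        simp [this]
    refine (integral_mono ?_ ?_ hpt).trans ?_
    · exact (((hi1.sub hi2).congr (Eventually.of_forall fun x => by simp [sub_mul]))).abs
    · exact ((pd_continuous hb1 j).integrable_of_hasCompactSupport hdb).abs.const_mul _
    · rw [integral_const_mul]
      calc |J₀| / (2 * (Cb + 1)) * ∫ x, |pd j (bump : V n → ℝ) x|
          ≤ |J₀| / (2 * (Cb + 1)) * (Cb + 1) := by
            refine mul_le_mul_of_nonneg_left (by linarith) (by positivity)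
        _ = |J₀| / 2 := by field_simp
  simp only [sub_mul] at hbound
  rw [integral_sub hi1 hi2] at hbound
  rw [e1, e2, abs_neg]
  have := abs_sub_abs_le_abs_sub (∫ x, σ x * pd j (bump : V n → ℝ) x)
    (∫ x, σ (x + b) * pd j (bump : V n → ℝ) x)
  rw [abs_sub_comm] at this
  rw [e3, abs_neg] at hbound ⊢
  linarith

/-- Young's inequality with a lower bound on the weight. -/
theorem young_bump {v₀ v lam : ℝ} (hv₀ : 0 < v₀) (hv : v₀ / 2 ≤ v) (hlam : 0 ≤ lam) (a t : ℝ) :
    2 * lam * |a * t| ≤ (a * v) ^ 2 + lam ^ 2 * (4 / v₀ ^ 2) * t ^ 2 := by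
  have h1 : |t| * (v₀ / 2) ≤ |t| * v := mul_le_mul_of_nonneg_left hv (abs_nonneg t)
  have h2 : |a * t| ≤ |a * v| * (2 / v₀ * |t|) := by
    have hv0 : 0 ≤ v := by linarith
    rw [abs_mul, abs_mul, abs_of_nonneg hv0]
    calc |a| * |t| = |a| * (|t| * (v₀ / 2)) * (2 / v₀) := by field_simp
      _ ≤ |a| * (|t| * v) * (2 / v₀) := by gcongr
      _ = |a| * v * (2 / v₀ * |t|) := by ring
  have h3 : lam ^ 2 * (4 / v₀ ^ 2) * t ^ 2 = (lam * (2 / v₀ * |t|)) ^ 2 := by
    rw [mul_pow, mul_pow, sq_abs, div_pow]; ring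
  rw [h3, ← sq_abs (a * v)]
  calc 2 * lam * |a * t| ≤ 2 * lam * (|a * v| * (2 / v₀ * |t|)) := by gcongr
    _ ≤ _ := by linarith [sq_nonneg (|a * v| - lam * (2 / v₀ * |t|))]

/-- The variation of the ratio is a term of the defect. -/
theorem sq_pd_ratio_le (h : Sol u d) (i j : Fin n) (x : V n) :
    (pd j (fun x => pd i u x / pd d u x) x * pd d u x) ^ 2 ≤ defect u d i x := by
  refine le_of_eq_of_le ?_ (Finset.single_le_sum (fun l _ => sq_nonneg _) (Finset.mem_univ j))
  rw [pd_div ((pd_c1 h.c2 i).differentiable one_ne_zero) ((pd_c1 h.c2 d).differentiable one_ne_zero)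
    (h.mono x).ne']
  have := (h.mono x).ne'
  field_simp

/-- A translated functional bounds the defect from below. -/
theorem mass_of_functional (h : Sol u d) (i j : Fin n) {x₀ b : V n} (bump : ContDiffBump x₀)
    (hout : bump.rOut ≤ 1) {J₀ v₀ Cψ : ℝ} (hv₀ : 0 < v₀)
    (hCψ : Cψ = ∫ x, (bump : V n → ℝ) x ^ 2)
    (hJ : |J₀| / 2 ≤ |∫ x, pd j (fun y => pd i u y / pd d u y) x * bump (x - b)|)
    (hlow : ∀ x ∈ Metric.ball (x₀ + b) 1, v₀ / 2 ≤ pd d u x) :
    |J₀| ^ 2 * v₀ ^ 2 / (16 * (Cψ + 1)) ≤ ∫ x in Metric.ball (x₀ + b) 1, defect u d i x := by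
  set a : V n → ℝ := pd j (fun y => pd i u y / pd d u y) with ha
  have hac : Continuous a := pd_continuous ((pd_c1 h.c2 i).div (pd_c1 h.c2 d)
    fun x => (h.mono x).ne') j
  set τ : V n → ℝ := fun x => bump (x - b) with hτ
  have hτc : Continuous τ := bump.continuous.comp (continuous_id.sub continuous_const)
  have hτball : ∀ x ∉ Metric.ball (x₀ + b) 1, τ x = 0 := fun x hx => bump.zero_of_le_dist (by
    rw [Metric.mem_ball, not_lt, dist_eq_norm] at hx
    rw [dist_eq_norm, sub_sub, add_comm b x₀]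
    linarith)
  have hτcs : HasCompactSupport τ := HasCompactSupport.intro
    (K := Metric.closedBall (x₀ + b) 1) (isCompact_closedBall _ _)
    fun x hx => hτball x fun h' => hx (Metric.ball_subset_closedBall h')
  have hi : Integrable fun x => a x * τ x := integrable_mul_supp hac hτc hτcs
  have hsq : Continuous fun x => τ x ^ 2 := hτc.pow 2
  have hi2 : Integrable fun x => τ x ^ 2 :=
    hsq.integrable_of_hasCompactSupport (hτcs.comp_left (g := fun t : ℝ => t ^ 2) (by simp))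
  have hD : IntegrableOn (defect u d i) (Metric.ball (x₀ + b) 1) :=
    ((defect_continuous h i).continuousOn.integrableOn_compact
      (isCompact_closedBall (x₀ + b) 1)).mono_set Metric.ball_subset_closedBall
  set Cp := Cψ + 1 with hCp
  have hCψ0 : 0 ≤ Cψ := hCψ ▸ integral_nonneg fun x => sq_nonneg _
  have hCp0 : 0 < Cp := by linarith
  set lam := |J₀| * v₀ ^ 2 / (8 * Cp) with hlam
  have hlam0 : 0 ≤ lam := by positivity
  have hset : ∫ x, |a x * τ x| = ∫ x in Metric.ball (x₀ + b) 1, |a x * τ x| :=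
    (setIntegral_eq_integral_of_forall_compl_eq_zero fun x hx => by simp [hτball x hx]).symm
  have hset2 : ∫ x, τ x ^ 2 = ∫ x in Metric.ball (x₀ + b) 1, τ x ^ 2 :=
    (setIntegral_eq_integral_of_forall_compl_eq_zero fun x hx => by simp [hτball x hx]).symm
  have hpt : ∀ x ∈ Metric.ball (x₀ + b) 1,
      2 * lam * |a x * τ x| ≤ defect u d i x + lam ^ 2 * (4 / v₀ ^ 2) * τ x ^ 2 := fun x hx =>
    (young_bump hv₀ (hlow x hx) hlam0 (a x) (τ x)).trans
      (add_le_add (sq_pd_ratio_le h i j x) le_rfl)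
  have hint : ∫ x in Metric.ball (x₀ + b) 1, 2 * lam * |a x * τ x| ≤
      ∫ x in Metric.ball (x₀ + b) 1, (defect u d i x + lam ^ 2 * (4 / v₀ ^ 2) * τ x ^ 2) :=
    setIntegral_mono_on (hi.abs.const_mul _).integrableOn (hD.add (hi2.const_mul _).integrableOn)
      measurableSet_ball hpt
  rw [integral_const_mul, integral_add hD (hi2.const_mul _).integrableOn, integral_const_mul,
    ← hset, ← hset2] at hint
  have e4 : ∫ x, τ x ^ 2 = Cψ := by
    rw [hCψ]; exact integral_sub_right_eq_self (fun x => (bump : V n → ℝ) x ^ 2) b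
  have e5 : |J₀| / 2 ≤ ∫ x, |a x * τ x| := hJ.trans abs_integral_le_integral_abs
  rw [e4] at hint
  have e6 : 2 * lam * (|J₀| / 2) ≤ 2 * lam * ∫ x, |a x * τ x| :=
    mul_le_mul_of_nonneg_left e5 (by positivity)
  have e7 : lam ^ 2 * (4 / v₀ ^ 2) * Cψ ≤ lam ^ 2 * (4 / v₀ ^ 2) * Cp :=
    mul_le_mul_of_nonneg_left (by linarith) (by positivity)
  have e8 : lam ^ 2 * (4 / v₀ ^ 2) * Cp = lam * |J₀| / 2 := by
    rw [hlam]; field_simp; ring
  have e9 : lam * |J₀| / 2 = |J₀| ^ 2 * v₀ ^ 2 / (16 * Cp) := by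
    rw [hlam]; field_simp; ring
  linarith

/-- Near every return the defect has a fixed mass. -/
theorem Sol.exists_return_mass (h : Sol u d) (i : Fin n) {j : Fin n} {x₀ : V n}
    (hne : pd j (fun x => pd i u x / pd d u x) x₀ ≠ 0) :
    ∃ c₀ ε R' : ℝ, 0 < c₀ ∧ 0 < ε ∧ ∀ b : V n, (∀ x, ‖x‖ ≤ R' → |u (x + b) - u x| ≤ ε) →
      c₀ ≤ ∫ x in Metric.ball (x₀ + b) 1, defect u d i x := by
  classical
  have hw1 := pd_c1 h.c2 i
  have hv1 := pd_c1 h.c2 d
  set σ : V n → ℝ := fun x => pd i u x / pd d u x with hσdef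
  have hσ : ContDiff ℝ 1 σ := hw1.div hv1 fun x => (h.mono x).ne'
  obtain ⟨bump, hout, hJ⟩ := exists_bump hσ hne
  set J₀ := ∫ x, pd j σ x * bump x with hJ₀
  have hbc : Continuous (bump : V n → ℝ) := bump.continuous
  have hbs : HasCompactSupport (bump : V n → ℝ) := bump.hasCompactSupport
  have hb1 : ContDiff ℝ 1 (bump : V n → ℝ) := bump.contDiff
  have hdb : HasCompactSupport (pd j (bump : V n → ℝ)) := hasCompactSupport_pd hbs j
  obtain ⟨Cb, hCb0, hCb⟩ : ∃ Cb : ℝ, 0 ≤ Cb ∧ ∫ x, |pd j (bump : V n → ℝ) x| ≤ Cb :=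
    ⟨_, integral_nonneg fun _ => abs_nonneg _, le_rfl⟩
  set R₁ := ‖x₀‖ + 1 with hR₁
  obtain ⟨v₀, hv₀, hvlow⟩ : ∃ v₀ : ℝ, 0 < v₀ ∧ ∀ x, ‖x‖ ≤ R₁ → v₀ ≤ pd d u x := by
    obtain ⟨y, hy, hmin⟩ := (isCompact_closedBall (0 : V n) R₁).exists_isMinOn
      ⟨0, Metric.mem_closedBall_self (by positivity)⟩ hv1.continuous.continuousOn
    exact ⟨_, h.mono y, fun x hx => hmin (mem_closedBall_zero_iff.2 hx)⟩
  obtain ⟨C₁, hC₁0, hC₁, -⟩ := derivative_bounds h.c2 h.bdd h.eq
  set δ := min (v₀ / 2) (|J₀| * v₀ ^ 2 / (8 * (C₁ + 1) * (Cb + 1))) with hδdef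
  have hδ : 0 < δ := lt_min (by linarith) (by positivity)
  have hδv : δ ≤ v₀ / 2 := min_le_left _ _
  obtain ⟨ε, R', hε, hclose⟩ := h.pd_close hδ R₁
  have hσclose : ∀ b : V n, (∀ x, ‖x‖ ≤ R' → |u (x + b) - u x| ≤ ε) → ∀ x, ‖x‖ ≤ R₁ →
      |σ (x + b) - σ x| ≤ |J₀| / (2 * (Cb + 1)) := by
    intro b hb x hx
    have a1 := hclose b hb i x hx
    have a2 := hclose b hb d x hx
    set w := pd i u x with hw
    set v := pd d u x with hv
    set w' := pd i u (x + b) with hw'
    set v' := pd d u (x + b) with hv'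
    have hv0 : v₀ ≤ v := hvlow x hx
    have hvp : 0 < v := by linarith
    have hv'0 : v₀ / 2 ≤ v' := by linarith [(abs_le.1 a2).1, hδv]
    have hv'p : 0 < v' := by linarith
    have hid : σ (x + b) - σ x = ((w' - w) * v - w * (v' - v)) / (v' * v) := by
      show w' / v' - w / v = _
      field_simp
      ring
    rw [hid, abs_div, abs_of_pos (mul_pos hv'p hvp)]
    have hnum : |(w' - w) * v - w * (v' - v)| ≤ 2 * C₁ * δ := by
      refine (abs_sub _ _).trans ?_
      rw [abs_mul, abs_mul]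
      have c1 : |w' - w| * |v| ≤ δ * C₁ :=
        mul_le_mul a1 (hC₁ d x) (abs_nonneg _) hδ.le
      have c2 : |w| * |v' - v| ≤ C₁ * δ := mul_le_mul (hC₁ i x) a2 (abs_nonneg _) hC₁0
      linarith
    refine (div_le_div₀ (by positivity) hnum (by positivity)
      (mul_le_mul hv'0 hv0 hv₀.le hv'p.le)).trans ?_
    have hδ2 := min_le_right (v₀ / 2) (|J₀| * v₀ ^ 2 / (8 * (C₁ + 1) * (Cb + 1)))
    rw [← hδdef, le_div_iff₀ (by positivity)] at hδ2
    rw [div_le_div_iff₀ (by positivity) (by positivity)]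
    have : 0 ≤ δ * (Cb + 1) := by positivity
    linarith
  have hretJ : ∀ b : V n, (∀ x, ‖x‖ ≤ R' → |u (x + b) - u x| ≤ ε) →
      |J₀| / 2 ≤ |∫ x, pd j σ x * bump (x - b)| := fun b hb =>
    bump_return hσ j bump hout hJ₀ hR₁ hCb0 hCb (hσclose b hb)
  -- from the functional to the defect
  set Cψ := ∫ x, (bump : V n → ℝ) x ^ 2 with hCψ
  have hCψ0 : 0 ≤ Cψ := integral_nonneg fun x => sq_nonneg _
  refine ⟨|J₀| ^ 2 * v₀ ^ 2 / (16 * (Cψ + 1)), ε, R', by positivity, hε, fun b hb => ?_⟩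
  refine mass_of_functional h i j bump hout hv₀ hCψ (hretJ b hb) fun x hx => ?_
  have hnorm : ‖x - b‖ ≤ R₁ := by
    rw [Metric.mem_ball, dist_eq_norm] at hx
    have h3 := norm_le_norm_sub_add (x - b) x₀
    rw [sub_sub, add_comm b x₀] at h3
    linarith
  have a2 := hclose b hb d (x - b) hnorm
  rw [sub_add_cancel] at a2
  linarith [(abs_le.1 a2).1, hvlow _ hnorm, hδv]

/-- The Dirichlet integral of the cut-off. -/
theorem cutoff_bound_of_growth {M : Finset (Fin n)} {B : ℝ} (hB0 : 0 ≤ B)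
    (hbB : ∀ s, |deriv bb s| ≤ B) (hgB : ∀ s, |deriv gg s| ≤ B) (l₀ : ℕ) {L : ℕ} (hLpos : 0 < L)
    {N : ℝ} (hN0 : 0 < N) {w : V n → ℝ} (hw : Continuous w) {K : ℝ}
    (hgrow : ∀ l ≤ l₀ + L, ∫ x, (box (sides M (2 * N) (2 * 4 ^ l))).indicator (fun x => w x ^ 2) x ≤
      K * ((4 * N) ^ M.card * (2 * (2 * 4 ^ l)) ^ 2)) :
    HasCompactSupport (fun x => boxCut M N x * logCut Mᶜ l₀ L x) ∧
    ∫ x, w x ^ 2 * gsq (fun x => boxCut M N x * logCut Mᶜ l₀ L x) x ≤
      K * ((4 * N) ^ M.card * (n : ℝ) * B ^ 2 *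
        ((2 * (2 * 4 ^ (l₀ + L))) ^ 2 / N ^ 2 + 16 * 16 / L)) := by
  classical
  set m := M.card with hm
  set P := Mᶜ with hP
  set W : ℝ := 2 * (2 * 4 ^ (l₀ + L)) with hW
  have hW1 : 1 ≤ W := by
    have : (1 : ℝ) ≤ 4 ^ (l₀ + L) := one_le_pow₀ (by norm_num)
    linarith
  set η : V n → ℝ := fun x => boxCut M N x * logCut P l₀ L x with hη
  have hηc : ContDiff ℝ 1 η := (boxCut_c1 M N).mul (logCut_c1 P l₀ L)
  have hsmallP : ∀ x l, sqLen P x ≤ 4 * 16 ^ l → ∀ p ∈ P, |x p| ≤ 2 * (4 : ℝ) ^ l := by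
    intro x l hq p hp
    have h1 := (sq_le_sqLen hp x).trans hq
    rw [show (4 : ℝ) * 16 ^ l = (2 * 4 ^ l) ^ 2 by rw [mul_pow, ← pow_mul, pow_mul']; norm_num] at h1
    exact abs_le_of_sq_le_sq h1 (by positivity)
  have hηsupp : ∀ x, η x ≠ 0 → x ∈ box (sides M (2 * N) (2 * 4 ^ (l₀ + L))) := by
    intro x hx
    refine mem_box fun p => ?_
    simp only [sides]
    split_ifs with hp
    · by_contra hc
      exact hx (by simp [hη, boxCut_zero hN0 hp (not_le.1 hc).le])
    · refine hsmallP x (l₀ + L) ?_ p (Finset.mem_compl.2 hp)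
      by_contra hc
      exact hx (by simp [hη, logCut_zero (not_le.1 hc).le])
  have hηs : HasCompactSupport η := HasCompactSupport.intro isCompact_Icc fun x hx => by
    by_contra hc
    exact hx (hηsupp x hc)
  refine ⟨hηs, ?_⟩
  have hgsq : ∀ x, gsq η x ≤ (box (sides M (2 * N) (2 * 4 ^ (l₀ + L)))).indicator
      (fun _ => (n : ℝ) * B ^ 2 / N ^ 2) x + ∑ l ∈ Finset.range L,
      (box (sides M (2 * N) (2 * 4 ^ (l₀ + l)))).indicator
        (fun _ => (n : ℝ) * (16 * B ^ 2 / (L : ℝ) ^ 2) * (1 / (16 : ℝ) ^ (l₀ + l))) x := by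
    intro x
    have hrest0 : 0 ≤ (box (sides M (2 * N) (2 * 4 ^ (l₀ + L)))).indicator
        (fun _ => (n : ℝ) * B ^ 2 / N ^ 2) x := indicator_nonneg (fun _ _ => by positivity) x
    have hpdη : ∀ p, pd p η x =
        pd p (boxCut M N) x * logCut P l₀ L x + boxCut M N x * pd p (logCut P l₀ L) x := fun p =>
      pd_mul ((boxCut_c1 M N).differentiable one_ne_zero)
        ((logCut_c1 P l₀ L).differentiable one_ne_zero) p x
    by_cases hin : ∀ p ∈ M, |x p| ≤ 2 * N
    swap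
    · have : gsq η x = 0 := Finset.sum_eq_zero fun p _ => by
        have hx : x ∉ tsupport η := fun h' => hin fun q hq => by
          have h'' := closure_minimal (fun y hy => hηsupp y hy) isClosed_Icc h'
          have := abs_le.2 ⟨h''.1 q, h''.2 q⟩
          simpa [sides, hq] using this
        rw [image_eq_zero_of_notMem_tsupport fun h' => hx (tsupport_pd_subset η p h')]
        simp
      rw [this]
      exact add_nonneg hrest0 (Finset.sum_nonneg fun l _ => indicator_nonneg (fun _ _ => by positivity) x)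
    by_cases hq : sqLen P x ≤ 4 * 16 ^ (l₀ + L)
    swap
    · have : gsq η x = 0 := Finset.sum_eq_zero fun p _ => by
        have e0 : logCut P l₀ L x = 0 := logCut_zero (not_le.1 hq).le
        have e1 := sq_pd_logCut hgB P l₀ L p x
        rw [Finset.sum_eq_zero fun l hl => if_neg ?_, mul_zero] at e1
        · rw [hpdη, e0, pow_eq_zero_iff two_ne_zero |>.1 (le_antisymm e1 (sq_nonneg _))]
          simp
        · refine fun h' => hq (h'.trans ?_)
          gcongr
          · norm_num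
          · exact (Finset.mem_range.1 hl).le
      rw [this]
      exact add_nonneg hrest0 (Finset.sum_nonneg fun l _ => indicator_nonneg (fun _ _ => by positivity) x)
    have hxbox : ∀ l, sqLen P x ≤ 4 * 16 ^ l → x ∈ box (sides M (2 * N) (2 * 4 ^ l)) := fun l hl =>
      mem_box fun p => by
        simp only [sides]
        split_ifs with hp
        · exact hin p hp
        · exact hsmallP x l hl p (Finset.mem_compl.2 hp)
    rw [Set.indicator_of_mem (hxbox _ hq)]
    calc gsq η x ≤ ∑ _p : Fin n, (B ^ 2 / N ^ 2 + 16 * B ^ 2 / (L : ℝ) ^ 2 *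
          ∑ l ∈ Finset.range L, (if sqLen P x ≤ 4 * 16 ^ (l₀ + l) then 1 / (16 : ℝ) ^ (l₀ + l) else 0)) :=
        Finset.sum_le_sum fun p _ => by
          have e1 := abs_pd_boxCut hB0 hbB M hN0 p x
          have e2 := sq_pd_logCut hgB P l₀ L p x
          rw [hpdη]
          have hb := boxCut_bound M N x
          have hl := logCut_bound P l₀ L x
          have hs0 : 0 ≤ ∑ l ∈ Finset.range L,
              (if sqLen P x ≤ 4 * 16 ^ (l₀ + l) then 1 / (16 : ℝ) ^ (l₀ + l) else 0) :=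
            Finset.sum_nonneg fun l _ => by split_ifs <;> positivity
          by_cases hp : p ∈ M
          · have hpP : p ∉ P := fun h' => Finset.mem_compl.1 h' hp
            rw [if_neg hpP, zero_mul] at e2
            rw [if_pos hp] at e1
            rw [pow_eq_zero_iff two_ne_zero |>.1 (le_antisymm e2 (sq_nonneg _)), mul_zero, add_zero,
              mul_pow]
            calc pd p (boxCut M N) x ^ 2 * logCut P l₀ L x ^ 2 ≤ (B / N) ^ 2 * 1 := by
                  rw [← sq_abs (pd p (boxCut M N) x)]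
                  gcongr
                  exact pow_le_one₀ hl.1 hl.2
              _ ≤ _ := by rw [mul_one, div_pow]; exact le_add_of_nonneg_right (by positivity)
          · rw [if_pos (Finset.mem_compl.2 hp)] at e2
            rw [if_neg hp] at e1
            rw [abs_nonpos_iff.1 e1, zero_mul, zero_add, mul_pow]
            calc boxCut M N x ^ 2 * pd p (logCut P l₀ L) x ^ 2 ≤ 1 * _ :=
                  mul_le_mul (pow_le_one₀ hb.1 hb.2) e2 (sq_nonneg _) zero_le_one
              _ ≤ _ := by rw [one_mul]; exact le_add_of_nonneg_left (by positivity)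
      _ = (n : ℝ) * B ^ 2 / N ^ 2 + ∑ l ∈ Finset.range L,
          (if sqLen P x ≤ 4 * 16 ^ (l₀ + l) then
            (n : ℝ) * (16 * B ^ 2 / (L : ℝ) ^ 2) * (1 / (16 : ℝ) ^ (l₀ + l)) else 0) := by
          rw [Finset.sum_const, Finset.card_univ, Fintype.card_fin, nsmul_eq_mul, mul_add,
            Finset.mul_sum, Finset.mul_sum]
          congr 1
          · ring
          · exact Finset.sum_congr rfl fun l _ => by split_ifs <;> ring
      _ ≤ _ := by
          refine add_le_add le_rfl (Finset.sum_le_sum fun l _ => ?_)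
          split_ifs with hl
          · rw [Set.indicator_of_mem (hxbox _ hl)]
          · exact indicator_nonneg (fun _ _ => by positivity) x
  have hsides : ∀ l, ∀ p, 0 ≤ sides M (2 * N) (2 * (4 : ℝ) ^ l) p := fun l p => by
    simp only [sides]; split_ifs <;> positivity
  have hibox : Integrable fun x => (box (sides M (2 * N) (2 * 4 ^ (l₀ + L)))).indicator
      (fun _ => (n : ℝ) * B ^ 2 / N ^ 2) x + ∑ l ∈ Finset.range L,
      (box (sides M (2 * N) (2 * 4 ^ (l₀ + l)))).indicator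
        (fun _ => (n : ℝ) * (16 * B ^ 2 / (L : ℝ) ^ 2) * (1 / (16 : ℝ) ^ (l₀ + l))) x :=
    (integrable_box _ _).add (integrable_finsetSum _ fun l _ => integrable_box _ _)
  have hbi : ∀ (s : V n) (c : ℝ), Integrable fun x => c * (box s).indicator (fun x => w x ^ 2) x :=
    fun s c => ((integrable_indicator_iff measurableSet_Icc).2
      ((hw.pow 2).continuousOn.integrableOn_compact isCompact_Icc)).const_mul c
  have hmul : ∀ (s : V n) (c : ℝ) x, w x ^ 2 * (box s).indicator (fun _ => c) x =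
      c * (box s).indicator (fun x => w x ^ 2) x := fun s c x => by
    by_cases hx : x ∈ box s
    · rw [Set.indicator_of_mem hx, Set.indicator_of_mem hx]; ring
    · rw [Set.indicator_of_notMem hx, Set.indicator_of_notMem hx]; ring
  have hup : ∫ x, w x ^ 2 * gsq η x ≤ K * ((4 * N) ^ m * (n : ℝ) * B ^ 2 *
      (W ^ 2 / N ^ 2 + 16 * 16 / L)) := by
    have hsumi : Integrable fun x => ∑ l ∈ Finset.range L,
        ((n : ℝ) * (16 * B ^ 2 / (L : ℝ) ^ 2) * (1 / (16 : ℝ) ^ (l₀ + l))) *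
          (box (sides M (2 * N) (2 * 4 ^ (l₀ + l)))).indicator (fun x => w x ^ 2) x :=
      integrable_finsetSum _ fun l _ => hbi _ _
    refine (integral_mono (integrable_mul_supp (hw.pow 2)
      (gsq_continuous hηc) (gsq_compact hηs)) ((hbi (sides M (2 * N) (2 * 4 ^ (l₀ + L))) ((n : ℝ) * B ^ 2 / N ^ 2)).add hsumi) fun x => ?_).trans ?_
    · refine (mul_le_mul_of_nonneg_left (hgsq x) (sq_nonneg (w x))).trans (le_of_eq ?_)
      simp only [Pi.add_apply, mul_add, Finset.mul_sum, hmul]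
    simp only [Pi.add_apply]
    rw [integral_add (hbi _ _) hsumi, integral_finsetSum _ fun l _ => hbi _ _, integral_const_mul,
      mul_add ((4 * N) ^ m * (n : ℝ) * B ^ 2), mul_add]
    refine add_le_add ?_ ?_
    · refine (mul_le_mul_of_nonneg_left (hgrow (l₀ + L) le_rfl) (by positivity)).trans (le_of_eq ?_)
      rw [hW]; ring
    · calc ∑ l ∈ Finset.range L, ∫ x, (n : ℝ) * (16 * B ^ 2 / (L : ℝ) ^ 2) * (1 / (16 : ℝ) ^ (l₀ + l)) *
            (box (sides M (2 * N) (2 * 4 ^ (l₀ + l)))).indicator (fun x => w x ^ 2) x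
          ≤ ∑ _l ∈ Finset.range L, K * ((4 * N) ^ m * (n : ℝ) * B ^ 2 * (16 * 16 / (L : ℝ) ^ 2)) := by
            refine Finset.sum_le_sum fun l hl => ?_
            rw [integral_const_mul]
            refine (mul_le_mul_of_nonneg_left (hgrow (l₀ + l) (Nat.add_le_add_left
              (Finset.mem_range.1 hl).le l₀)) (by positivity)).trans (le_of_eq ?_)
            have h16 : ((4 : ℝ) ^ (l₀ + l)) ^ 2 = 16 ^ (l₀ + l) := by
              rw [← pow_mul, pow_mul']; norm_num
            rw [mul_pow 2 (2 * 4 ^ (l₀ + l)), mul_pow 2 (4 ^ (l₀ + l)), h16]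
            field_simp
            ring
        _ = _ := by
            rw [Finset.sum_const, Finset.card_range, nsmul_eq_mul]
            field_simp
  exact hup

/-- A bounded function has the growth of the box in two variables. -/
theorem growth_of_bound {M : Finset (Fin n)} (hcard : Mᶜ.card ≤ 2) {w : V n → ℝ} (hw : Continuous w)
    {C₁ : ℝ} (hC₁ : ∀ x, |w x| ≤ C₁) {N : ℝ} (hN0 : 0 < N) (l : ℕ) :
    ∫ x, (box (sides M (2 * N) (2 * 4 ^ l))).indicator (fun x => w x ^ 2) x ≤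
      C₁ ^ 2 * ((4 * N) ^ M.card * (2 * (2 * 4 ^ l)) ^ 2) := by
  refine (integral_mono ((integrable_indicator_iff measurableSet_Icc).2
    ((show Continuous fun x => w x ^ 2 from hw.pow 2).continuousOn.integrableOn_compact isCompact_Icc))
    (integrable_box (sides M (2 * N) (2 * 4 ^ l)) (C₁ ^ 2))
    fun x => ?_).trans ?_
  · refine Set.indicator_le_indicator ?_
    rw [← sq_abs]
    exact pow_le_pow_left₀ (abs_nonneg _) (hC₁ x) 2
  rw [integral_box (fun p => by simp only [sides]; split_ifs <;> positivity), prod_sides,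
    show 2 * (2 * N) = 4 * N by ring, mul_comm]
  refine mul_le_mul_of_nonneg_left (mul_le_mul_of_nonneg_left ?_ (by positivity)) (sq_nonneg _)
  refine pow_le_pow_right₀ ?_ hcard
  have : (1 : ℝ) ≤ 4 ^ l := one_le_pow₀ (by norm_num)
  linarith

theorem cutoff_bound {M : Finset (Fin n)} (hcard : Mᶜ.card ≤ 2) {B : ℝ} (hB0 : 0 ≤ B)
    (hbB : ∀ s, |deriv bb s| ≤ B) (hgB : ∀ s, |deriv gg s| ≤ B) (l₀ : ℕ) {L : ℕ} (hLpos : 0 < L)
    {N : ℝ} (hN0 : 0 < N) {w : V n → ℝ} (hw : Continuous w) {C₁ : ℝ}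
    (hC₁ : ∀ x, |w x| ≤ C₁) :
    HasCompactSupport (fun x => boxCut M N x * logCut Mᶜ l₀ L x) ∧
    ∫ x, w x ^ 2 * gsq (fun x => boxCut M N x * logCut Mᶜ l₀ L x) x ≤
      C₁ ^ 2 * ((4 * N) ^ M.card * (n : ℝ) * B ^ 2 *
        ((2 * (2 * 4 ^ (l₀ + L))) ^ 2 / N ^ 2 + 16 * 16 / L)) :=
  cutoff_bound_of_growth hB0 hbB hgB l₀ hLpos hN0 hw fun l _ => growth_of_bound hcard hw hC₁ hN0 l

/-- Proportional derivatives from recurrence and quadratic growth in the free variables. -/
theorem Sol.ratio_of_growth (h : Sol u d) {M : Finset (Fin n)}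
    (hrec : Recurrent M u) (i : Fin n) {Kw : ℝ} (hKw : 0 ≤ Kw)
    (hgrow : ∀ (N : ℝ) (l : ℕ), 1 ≤ N → 2 * (4 : ℝ) ^ l ≤ N →
      ∫ x, (box (sides M (2 * N) (2 * 4 ^ l))).indicator (fun x => pd i u x ^ 2) x ≤
        Kw * ((4 * N) ^ M.card * (2 * (2 * 4 ^ l)) ^ 2)) :
    ∃ c : ℝ, ∀ x, pd i u x = c * pd d u x := by
  classical
  have hw1 := pd_c1 h.c2 i
  have hv1 := pd_c1 h.c2 d
  set σ : V n → ℝ := fun x => pd i u x / pd d u x with hσdef
  have hσ : ContDiff ℝ 1 σ := hw1.div hv1 fun x => (h.mono x).ne'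
  by_cases hall : ∀ j x, pd j σ x = 0
  · refine ⟨σ 0, fun x => ?_⟩
    have hz : ∀ y, fderiv ℝ σ y = 0 := fun y => ContinuousLinearMap.ext fun w => by
      rw [fderiv_apply_eq_sum]; simp [hall]
    rw [← is_const_of_fderiv_eq_zero (hσ.differentiable one_ne_zero) hz x 0, hσdef]
    field_simp [(h.mono x).ne']
  exfalso
  push Not at hall
  obtain ⟨j, x₀, hne⟩ := hall
  -- a test function seeing the variation of the ratio
  obtain ⟨c₀, ε, R', hc₀0, hε, hret⟩ := h.exists_return_mass i hne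
  set R₁ := ‖x₀‖ + 1 with hR₁
  obtain ⟨L₀, hL₀⟩ := hrec ε hε R'
  set L' := max L₀ 0 with hL'
  have hL'0 : 0 ≤ L' := le_max_right _ _
  set G := 2 * L' + 3 with hG
  have hG0 : 0 < G := by positivity
  -- the cut-off
  obtain ⟨B, hB0, hbB, hgB⟩ := exists_deriv_bound
  obtain ⟨l₀, hl₀⟩ := pow_unbounded_of_one_lt ((n : ℝ) * (R₁ + 1) ^ 2) (by norm_num : (1 : ℝ) < 16)
  set m := M.card with hm
  set P := Mᶜ with hP
  set c₁ := c₀ / (2 * G) ^ m with hc₁
  have hc₁0 : 0 < c₁ := by positivity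
  set Kc := 4 * Kw * 4 ^ m * (n : ℝ) * B ^ 2 * 16 * 16 with hKc
  obtain ⟨L, hL⟩ := exists_nat_gt (max 1 (4 * Kc / c₁))
  have hL1 : (1 : ℝ) < L := lt_of_le_of_lt (le_max_left _ _) hL
  have hLpos : 0 < L := by exact_mod_cast (zero_lt_one.trans hL1)
  set W : ℝ := 2 * (2 * 4 ^ (l₀ + L)) with hW
  have hW1 : 1 ≤ W := by
    have : (1 : ℝ) ≤ 4 ^ (l₀ + L) := one_le_pow₀ (by norm_num)
    linarith
  set Kc' := 4 * Kw * 4 ^ m * (n : ℝ) * B ^ 2 * W ^ 2 with hKc'
  obtain ⟨N, hN1, hN2, hN3, hN4⟩ : ∃ N : ℝ, 1 ≤ N ∧ 2 * (L' + R₁ + 1) ≤ N ∧ 4 * Kc' / c₁ < N ∧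
      2 * (4 : ℝ) ^ (l₀ + L) ≤ N := by
    refine ⟨max (max (max 1 (2 * (4 : ℝ) ^ (l₀ + L))) (2 * (L' + R₁ + 1))) (4 * Kc' / c₁ + 1), ?_, ?_, ?_, ?_⟩
    · exact le_max_of_le_left (le_max_of_le_left (le_max_left _ _))
    · exact le_max_of_le_left (le_max_right _ _)
    · exact lt_of_lt_of_le (lt_add_one _) (le_max_right _ _)
    · exact le_max_of_le_left (le_max_of_le_left (le_max_right _ _))
  have hN0 : 0 < N := by linarith
  set η : V n → ℝ := fun x => boxCut M N x * logCut P l₀ L x with hη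
  have hηc : ContDiff ℝ 1 η := (boxCut_c1 M N).mul (logCut_c1 P l₀ L)
  obtain ⟨hηs, hup⟩ := cutoff_bound_of_growth (M := M) hB0 hbB hgB l₀ hLpos hN0
    (pd_c1 h.c2 i).continuous fun l hl => hgrow N l hN1 (le_trans (by gcongr; norm_num) hN4)
  rw [← hP, ← hm, ← hW] at hup
  have hmain := h.defect_le i hηc hηs
  -- the lower bound
  have hlow : (N / (2 * G)) ^ m * c₀ ≤ ∫ x, η x ^ 2 * defect u d i x := by
    have := integral_ge_of_returns (M := M) (f := fun x => η x ^ 2 * defect u d i x)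
      (by
        have hc : Continuous fun x => η x ^ 2 * defect u d i x :=
          Continuous.mul (hηc.continuous.pow 2) (defect_continuous h i)
        exact hc.integrable_of_hasCompactSupport (HasCompactSupport.intro hηs fun x hx => by
          rw [show η x = 0 from image_eq_zero_of_notMem_tsupport hx]; simp)) (fun x => mul_nonneg (sq_nonneg _)
        (Finset.sum_nonneg fun l _ => sq_nonneg _)) x₀ (G := G) (L := L') (N := N / 2) hc₀0.le
      (by rw [hG]; linarith) hL'0 (by linarith) fun a ha haN => ?_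
    · rwa [div_div] at this
    obtain ⟨b, hb0, hb1, hb2⟩ := hL₀ a ha
    refine ⟨b, hb1.trans (le_max_left _ _), ?_⟩
    refine (hret b hb2).trans (le_of_eq (setIntegral_congr_fun measurableSet_ball fun x hx => ?_))
    rw [Metric.mem_ball, dist_eq_norm] at hx
    have hη1 : η x = 1 := by
      have hbn : ‖b‖ ≤ N / 2 + L' := by
        have := norm_le_norm_sub_add b a
        linarith [le_max_left L₀ 0]
      rw [hη]
      simp only
      rw [boxCut_one hN0 fun p _ => ?_, logCut_one hLpos ?_, one_mul]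
      · refine le_trans ?_ hl₀.le
        have : ∀ p ∈ P, x p ^ 2 ≤ (R₁ + 1) ^ 2 := fun p hp => by
          have h1 := norm_le_pi_norm (x - (x₀ + b)) p
          simp only [Pi.sub_apply, Pi.add_apply, hb0 p (Finset.mem_compl.1 hp), add_zero,
            Real.norm_eq_abs] at h1
          have h2 := norm_le_pi_norm x₀ p
          rw [Real.norm_eq_abs] at h2
          refine sq_le_sq' ?_ ?_ <;> linarith [abs_le.1 (h1.trans hx.le), abs_le.1 h2]
        calc sqLen P x ≤ ∑ _p ∈ P, (R₁ + 1) ^ 2 := Finset.sum_le_sum this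
          _ ≤ ∑ _p : Fin n, (R₁ + 1) ^ 2 :=
            Finset.sum_le_sum_of_subset_of_nonneg (Finset.subset_univ _) fun _ _ _ => sq_nonneg _
          _ = (n : ℝ) * (R₁ + 1) ^ 2 := by simp
      · have h1 := norm_le_pi_norm x p
        rw [Real.norm_eq_abs] at h1
        have h2 := norm_le_norm_sub_add x (x₀ + b)
        have h3 := norm_add_le x₀ b
        linarith
    simp [hη1]
  have hfin : N ^ m * c₁ ≤ N ^ m * (Kc' / N ^ 2 + Kc / L) := by
    calc N ^ m * c₁ = (N / (2 * G)) ^ m * c₀ := by rw [hc₁, div_pow]; ring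
      _ ≤ 4 * (Kw * ((4 * N) ^ m * (n : ℝ) * B ^ 2 * (W ^ 2 / N ^ 2 + 16 * 16 / L))) :=
          hlow.trans (hmain.trans (by linarith))
      _ = _ := by rw [hKc, hKc', mul_pow]; ring
  have h1 : Kc' / N ^ 2 ≤ c₁ / 4 := by
    rw [div_lt_iff₀ hc₁0] at hN3
    rw [div_le_iff₀ (by positivity)]
    nlinarith [mul_le_mul_of_nonneg_left hN1 (by positivity : 0 ≤ c₁ * N)]
  have h2 : Kc / L ≤ c₁ / 4 := by
    have := (le_max_right 1 (4 * Kc / c₁)).trans hL.le
    rw [div_le_iff₀ hc₁0] at this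
    rw [div_le_iff₀ (by positivity)]
    linarith
  have := le_of_mul_le_mul_left hfin (by positivity)
  linarith

/-- A solution recurrent in all but at most two variables has proportional derivatives. -/
theorem Sol.ratio_const (h : Sol u d) {M : Finset (Fin n)} (hcard : Mᶜ.card ≤ 2)
    (hrec : Recurrent M u) (i : Fin n) :
    ∃ c : ℝ, ∀ x, pd i u x = c * pd d u x := by
  obtain ⟨C₁, -, hC₁, -⟩ := derivative_bounds h.c2 h.bdd h.eq
  exact h.ratio_of_growth hrec i (sq_nonneg C₁) fun N l hN _ =>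
    growth_of_bound hcard (pd_c1 h.c2 i).continuous (hC₁ i) (by linarith) l

end Vale.Agent.P134
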