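import Vale.Agent.P134.Flat
import Vale.Agent.P134.Profile

/-!
P134: integrals along a linear form, and the profile of the upper limit.
-/

namespace Vale.Agent.P134

open MeasureTheory Filter Set
open scoped BigOperators Topology

/-- Integration of a function of a linear form times a function of the remaining coordinates. -/
theorem integral_slice {m : ℕ} (j : Fin (m + 1)) (ν : V (m + 1)) (hν : ν j ≠ 0) {h : ℝ → ℝ}
    (hh : Continuous h) (hhs : HasCompactSupport h) {ρ : V m → ℝ} (hρ : Continuous ρ)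
    (hρs : HasCompactSupport ρ) :
    Integrable (fun x : V (m + 1) => h (∑ l, ν l * x l) * ρ (fun i => x (j.succAbove i))) ∧
    ∫ x : V (m + 1), h (∑ l, ν l * x l) * ρ (fun i => x (j.succAbove i)) =
      |(ν j)⁻¹| * (∫ t, h t) * ∫ y, ρ y := by
  set Φ : ℝ × V m → ℝ :=
    fun p => h (ν j * p.1 + ∑ i, ν (j.succAbove i) * p.2 i) * ρ p.2 with hΦ
  have e1 : (fun x : V (m + 1) => h (∑ l, ν l * x l) * ρ (fun i => x (j.succAbove i))) =
      fun x => Φ ((MeasurableEquiv.piFinSuccAbove (fun _ => ℝ) j) x) := by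
    funext x
    rw [Fin.sum_univ_succAbove _ j]
    rfl
  have hmp := volume_preserving_piFinSuccAbove (fun _ : Fin (m + 1) => ℝ) j
  have hΦc : Continuous Φ := by simp only [hΦ]; fun_prop
  obtain ⟨R, hR⟩ : ∃ R, ∀ t, h t ≠ 0 → |t| ≤ R := by
    obtain ⟨R, hR⟩ := hhs.isBounded.exists_norm_le
    exact ⟨R, fun t ht => hR t (subset_tsupport _ ht)⟩
  obtain ⟨S, hS⟩ : ∃ S, ∀ y, ρ y ≠ 0 → ‖y‖ ≤ S := by
    obtain ⟨S, hS⟩ := hρs.isBounded.exists_norm_le
    exact ⟨S, fun t ht => hS t (subset_tsupport _ ht)⟩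
  set T := (R + (∑ i, |ν (j.succAbove i)|) * S) / |ν j| with hT
  have hν' : 0 < |ν j| := abs_pos.2 hν
  have hΦs : HasCompactSupport Φ := HasCompactSupport.intro
    (K := Icc (-T) T ×ˢ Metric.closedBall (0 : V m) S)
    (isCompact_Icc.prod (isCompact_closedBall _ _)) fun p hp => by
      by_contra hne
      simp only [hΦ, mul_eq_zero, not_or] at hne
      have h1 := hR _ hne.1
      have h2 := hS _ hne.2
      refine hp ⟨abs_le.1 ?_, mem_closedBall_zero_iff.2 h2⟩
      have h3 : |∑ i, ν (j.succAbove i) * p.2 i| ≤ (∑ i, |ν (j.succAbove i)|) * S := by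
        refine (Finset.abs_sum_le_sum_abs _ _).trans ?_
        rw [Finset.sum_mul]
        refine Finset.sum_le_sum fun i _ => ?_
        rw [abs_mul]
        exact mul_le_mul_of_nonneg_left
          (((Real.norm_eq_abs _).ge.trans (norm_le_pi_norm p.2 i)).trans h2) (abs_nonneg _)
      rw [hT, le_div_iff₀ hν', ← abs_mul, mul_comm]
      have := abs_sub (ν j * p.1 + ∑ i, ν (j.succAbove i) * p.2 i) (∑ i, ν (j.succAbove i) * p.2 i)
      rw [add_sub_cancel_right] at this
      linarith
  have hΦi : Integrable Φ := hΦc.integrable_of_hasCompactSupport hΦs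
  rw [e1]
  refine ⟨(hmp.integrable_comp_emb (MeasurableEquiv.measurableEmbedding _)).2 hΦi, ?_⟩
  rw [hmp.integral_comp (MeasurableEquiv.measurableEmbedding _)]
  rw [Measure.volume_eq_prod] at hΦi ⊢
  rw [integral_prod_symm Φ hΦi]
  have hinner : ∀ y : V m, ∫ t : ℝ, Φ (t, y) = |(ν j)⁻¹| * (∫ t, h t) * ρ y := by
    intro y
    simp only [hΦ]
    rw [integral_mul_const,
      Measure.integral_comp_mul_left (fun s => h (s + ∑ i, ν (j.succAbove i) * y i)) (ν j),
      integral_add_right_eq_self h, smul_eq_mul]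
  simp only [hinner, integral_const_mul]

variable {n : ℕ} {u w : V n → ℝ} {d : Fin n} {C : ℝ}

/-- The profile of a function of one linear form. -/
theorem Upper.profile (hw : Upper u d w C) {ν : V n} (hν : ∑ l, ν l ^ 2 = 1)
    (hline : ∀ x, w x = w ((∑ l, ν l * x l) • ν)) :
    ∃ g : ℝ → ℝ, Prof g ∧ (∀ x, w x = g (∑ l, ν l * x l)) ∧
      ∀ l x, pd l w x = ν l * deriv g (∑ k, ν k * x k) := by
  set g : ℝ → ℝ := fun s => w (s • ν) with hg
  set g1 : ℝ → ℝ := fun s => ∑ l, ν l * pd l w (s • ν) with hg1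
  have hd : ∀ s, HasDerivAt g (g1 s) s := fun s => by
    have hl : HasDerivAt (fun s : ℝ => s • ν) ν s := by
      simpa using (hasDerivAt_id s).smul_const ν
    have := (hw.c2.differentiable (by norm_num) _).hasFDerivAt.comp_hasDerivAt s hl
    rwa [fderiv_apply_eq_sum] at this
  have hgd : deriv g = g1 := funext fun s => (hd s).deriv
  have hlin : ∀ x : V n, HasFDerivAt (fun x : V n => ∑ l, ν l * x l)
      (∑ l, ν l • (ContinuousLinearMap.proj l : V n →L[ℝ] ℝ)) x := fun x =>
    HasFDerivAt.fun_sum fun l _ =>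
      ((ContinuousLinearMap.proj l : V n →L[ℝ] ℝ).hasFDerivAt (x := x)).const_mul (ν l)
  have hpd : ∀ l x, pd l w x = ν l * g1 (∑ k, ν k * x k) := fun l x => by
    have h1 := (hd (∑ k, ν k * x k)).comp_hasFDerivAt x (hlin x)
    rw [show (g ∘ fun x : V n => ∑ k, ν k * x k) = w from funext fun y => (hline y).symm] at h1
    rw [pd, h1.fderiv]
    simp [e, Pi.single_apply, mul_comm]
  have hd2 : ∀ s, HasDerivAt g1 (∑ l, ν l * ∑ k, ν k * pd k (pd l w) (s • ν)) s := fun s => by
    refine HasDerivAt.fun_sum fun l _ => HasDerivAt.const_mul (ν l) ?_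
    have hl : HasDerivAt (fun s : ℝ => s • ν) ν s := by
      simpa using (hasDerivAt_id s).smul_const ν
    have := ((pd_c1 hw.c2 l).differentiable one_ne_zero _).hasFDerivAt.comp_hasDerivAt s hl
    rwa [fderiv_apply_eq_sum] at this
  have hlap : ∀ s, HasDerivAt g1 (g s ^ 3 - g s) s := fun s => by
    refine (hd2 s).congr_deriv ?_
    obtain ⟨G2, hG2⟩ : ∃ G2, G2 = ∑ l, ν l * ∑ k, ν k * pd k (pd l w) (s • ν) := ⟨_, rfl⟩
    have hs : ∑ k, ν k * (s • ν : V n) k = s := by
      simp only [Pi.smul_apply, smul_eq_mul]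
      rw [Finset.sum_congr rfl fun k _ => show ν k * (s * ν k) = s * ν k ^ 2 by ring,
        ← Finset.mul_sum, hν, mul_one]
    have hpp : ∀ l k, pd k (pd l w) (s • ν) = ν l * (ν k * G2) := fun l k => by
      have hgd2 : HasDerivAt g1 G2 (∑ i, ν i * (s • ν : V n) i) := by rw [hs, hG2]; exact hd2 s
      have h1 := (hgd2.comp_hasFDerivAt (s • ν) (hlin (s • ν))).const_mul (ν l)
      rw [pd, show pd l w = fun x => ν l * g1 (∑ k, ν k * x k) from funext (hpd l)]
      rw [show (fun y => ν l * (g1 ∘ fun x : V n => ∑ k, ν k * x k) y) =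
        fun x => ν l * g1 (∑ k, ν k * x k) from rfl] at h1
      rw [h1.fderiv]
      simp [e, Pi.single_apply, mul_comm]
    have h2 := hw.eq (s • ν)
    simp only [lap, hpp] at h2
    rw [Finset.sum_congr rfl fun l _ => show ν l * (ν l * G2) = ν l ^ 2 * G2 by ring,
      ← Finset.sum_mul, hν, one_mul] at h2
    rw [← hG2]
    exact h2
  refine ⟨g, ?_, hline, fun l x => by rw [hgd]; exact hpd l x⟩
  constructor
  · intro t; rw [hgd]; exact hd t
  · intro t; rw [hgd]; exact hlap t
  · exact fun t => hw.bdd _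
  · refine ⟨∑ l, |ν l| * C, fun t => ?_⟩
    rw [hgd]
    refine (Finset.abs_sum_le_sum_abs _ _).trans (Finset.sum_le_sum fun l _ => ?_)
    rw [abs_mul]
    exact mul_le_mul_of_nonneg_left (hw.g1 l _) (abs_nonneg _)
  -- stability
  intro φ₁ hφ₁ hφ₁s
  obtain ⟨j, hj⟩ : ∃ j, ν j ≠ 0 := by
    by_contra h0
    push Not at h0
    simp [h0] at hν
  obtain ⟨m, rfl⟩ : ∃ m, n = m + 1 := Nat.exists_eq_succ_of_ne_zero (Fin.pos j).ne'
  have hgc : Continuous g := continuous_iff_continuousAt.2 fun t => (hd t).continuousAt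
  obtain ⟨B, hB0, hbB, -⟩ := exists_deriv_bound
  have hφ₁c := hφ₁.continuous
  have hφ₁d := hφ₁.continuous_deriv le_rfl
  set T := ∫ t, deriv φ₁ t ^ 2 with hT
  set A := ∫ t, (deriv φ₁ t ^ 2 + (3 * g t ^ 2 - 1) * φ₁ t ^ 2) with hA
  set Z := ∫ t, φ₁ t ^ 2 with hZ
  have hT0 : 0 ≤ T := integral_nonneg fun t => sq_nonneg _
  have hZ0 : 0 ≤ Z := integral_nonneg fun t => sq_nonneg _
  have key : ∀ τ N : ℝ, 0 < τ → 1 ≤ N →
      0 ≤ A + τ * T + (1 + 1 / τ) * Z * (((m : ℝ) + 1) * (B / N) ^ 2 * 4 ^ m) := by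
    intro τ N hτ hN
    have hN0 : 0 < N := by linarith
    set ρ : V m → ℝ := boxCut Finset.univ N with hρ
    set χ : V (m + 1) → ℝ := fun x => boxCut (Finset.univ.erase j) N x with hχ
    have hχρ : ∀ x : V (m + 1), χ x = ρ (fun i => x (j.succAbove i)) := fun x => by
      simp only [hχ, hρ, boxCut]
      rw [← Finset.compl_singleton, ← Fin.image_succAbove_univ,
        Finset.prod_image fun a _ b _ h => Fin.succAbove_right_injective h]
    have hρc : Continuous ρ := (boxCut_c1 _ _).continuous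
    have hρs : HasCompactSupport ρ := HasCompactSupport.intro (K := box fun _ => 2 * N) isCompact_Icc
      fun y hy => by
        by_contra hne
        refine hy (mem_box fun i => ?_)
        by_contra hi
        exact hne (boxCut_zero hN0 (Finset.mem_univ i) (not_le.1 hi).le)
    set φ : V (m + 1) → ℝ := fun x => φ₁ (∑ l, ν l * x l) * χ x with hφ
    have hlc : ContDiff ℝ 1 fun x : V (m + 1) => ∑ l, ν l * x l :=
      ContDiff.sum fun l _ => contDiff_const.mul (contDiff_coord l)
    have hφc : ContDiff ℝ 1 φ := (hφ₁.comp hlc).mul (boxCut_c1 _ _)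
    set f1 : ℝ → ℝ := fun t => (1 + τ) * deriv φ₁ t ^ 2 + (3 * g t ^ 2 - 1) * φ₁ t ^ 2 with hf1
    set f2 : ℝ → ℝ := fun t => φ₁ t ^ 2 with hf2
    set ρ2 : V m → ℝ := fun y => ρ y ^ 2 with hρ2
    set σ : V m → ℝ := fun y => boxCut Finset.univ (2 * N) y with hσ
    have hσs : HasCompactSupport σ := HasCompactSupport.intro (K := box fun _ => 2 * (2 * N))
      isCompact_Icc fun y hy => by
        by_contra hne
        refine hy (mem_box fun i => ?_)
        by_contra hi
        exact hne (boxCut_zero (by linarith) (Finset.mem_univ i) (not_le.1 hi).le)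
    have hf1c : Continuous f1 := by simp only [hf1]; fun_prop
    have hf1s : HasCompactSupport f1 :=
      ((hφ₁s.deriv.comp_left (g := fun s : ℝ => s ^ 2) (by simp)).mul_left).add
        (hφ₁s.comp_left (g := fun s : ℝ => s ^ 2) (by simp)).mul_left
    have hf2c : Continuous f2 := by simp only [hf2]; fun_prop
    have hf2s : HasCompactSupport f2 := hφ₁s.comp_left (g := fun s : ℝ => s ^ 2) (by simp)
    have hρ2c : Continuous ρ2 := by simp only [hρ2]; fun_prop
    have hρ2s : HasCompactSupport ρ2 := hρs.comp_left (g := fun s : ℝ => s ^ 2) (by simp)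
    obtain ⟨i1, I1⟩ := integral_slice j ν hj hf1c hf1s hρ2c hρ2s
    obtain ⟨i2, I2⟩ := integral_slice j ν hj hf2c hf2s (boxCut_c1 Finset.univ (2 * N)).continuous hσs
    have hφs : HasCompactSupport φ := by
      obtain ⟨R, hR⟩ : ∃ R, ∀ t, φ₁ t ≠ 0 → |t| ≤ R := by
        obtain ⟨R, hR⟩ := hφ₁s.isBounded.exists_norm_le
        exact ⟨R, fun t ht => hR t (subset_tsupport _ ht)⟩
      set T₀ := 2 * N + (|R| + (∑ l, |ν l|) * (2 * N)) / |ν j| with hT₀
      refine HasCompactSupport.intro (K := box fun _ => T₀) isCompact_Icc fun x hx => ?_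
      by_contra hne
      simp only [hφ, mul_eq_zero, not_or] at hne
      have hoth : ∀ i, i ≠ j → |x i| ≤ 2 * N := fun i hi => by
        by_contra hc
        exact hne.2 (boxCut_zero hN0 (Finset.mem_erase.2 ⟨hi, Finset.mem_univ i⟩) (not_le.1 hc).le)
      refine hx (mem_box fun i => ?_)
      have hq : 0 ≤ (|R| + (∑ l, |ν l|) * (2 * N)) / |ν j| := by positivity
      by_cases hi : i = j
      · subst hi
        have h1 := hR _ hne.1
        rw [← Finset.add_sum_erase _ _ (Finset.mem_univ i)] at h1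
        have h2 : |∑ l ∈ Finset.univ.erase i, ν l * x l| ≤ (∑ l, |ν l|) * (2 * N) := by
          refine (Finset.abs_sum_le_sum_abs _ _).trans ?_
          rw [Finset.sum_mul]
          refine (Finset.sum_le_sum fun l hl => ?_).trans
            (Finset.sum_le_sum_of_subset_of_nonneg (Finset.erase_subset _ _)
              fun l _ _ => by positivity)
          rw [abs_mul]
          exact mul_le_mul_of_nonneg_left (hoth l (Finset.ne_of_mem_erase hl)) (abs_nonneg _)
        have h3 := abs_sub (ν i * x i + ∑ l ∈ Finset.univ.erase i, ν l * x l)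
          (∑ l ∈ Finset.univ.erase i, ν l * x l)
        rw [add_sub_cancel_right, abs_mul] at h3
        have h4 : |x i| ≤ (|R| + (∑ l, |ν l|) * (2 * N)) / |ν i| := by
          rw [le_div_iff₀ (abs_pos.2 hj)]
          linarith [le_abs_self R]
        linarith
      · linarith [hoth i hi]
    have hst := hw.stable φ hφc hφs
    have hpt : ∀ x, gsq φ x + (3 * w x ^ 2 - 1) * φ x ^ 2 ≤
        f1 (∑ l, ν l * x l) * ρ2 (fun i => x (j.succAbove i)) + (1 + 1 / τ) * ((m : ℝ) + 1) * (B / N) ^ 2 *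
          (f2 (∑ l, ν l * x l) * σ (fun i => x (j.succAbove i))) := by
      intro x
      set t := ∑ l, ν l * x l with htdef
      have hw' : w x = g t := hline x
      have hpφ : ∀ l, pd l φ x = ν l * deriv φ₁ t * χ x + φ₁ t * pd l χ x := fun l => by
        have h1 := (hφ₁.differentiable one_ne_zero t).hasDerivAt.comp_hasFDerivAt x (hlin x)
        rw [hφ, pd_mul (f := fun x : V (m + 1) => φ₁ (∑ k, ν k * x k))
          ((hφ₁.comp hlc).differentiable one_ne_zero) ((boxCut_c1 _ _).differentiable one_ne_zero), pd,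
          show (fun x : V (m + 1) => φ₁ (∑ k, ν k * x k)) = φ₁ ∘ (fun x : V (m + 1) => ∑ k, ν k * x k)
            from rfl, h1.fderiv]
        simp [e, Pi.single_apply, mul_comm, mul_left_comm, hχ]
        exact Or.inl rfl
      have hgs : gsq φ x ≤ (1 + τ) * deriv φ₁ t ^ 2 * χ x ^ 2 +
          (1 + 1 / τ) * φ₁ t ^ 2 * ∑ l, pd l χ x ^ 2 := by
        have hl : ∀ l, pd l φ x ^ 2 ≤ (1 + τ) * (ν l ^ 2 * (deriv φ₁ t ^ 2 * χ x ^ 2)) +
            (1 + 1 / τ) * φ₁ t ^ 2 * pd l χ x ^ 2 := fun l => by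
          rw [hpφ]
          set A' := ν l * deriv φ₁ t * χ x
          set D' := φ₁ t * pd l χ x
          have e' : (1 + τ) * (ν l ^ 2 * (deriv φ₁ t ^ 2 * χ x ^ 2)) +
              (1 + 1 / τ) * φ₁ t ^ 2 * pd l χ x ^ 2 - (A' + D') ^ 2 = (τ * A' - D') ^ 2 / τ := by
            simp only [A', D']; field_simp; ring
          linarith [div_nonneg (sq_nonneg (τ * A' - D')) hτ.le]
        refine (Finset.sum_le_sum fun l _ => hl l).trans (le_of_eq ?_)
        rw [Finset.sum_add_distrib, ← Finset.mul_sum, ← Finset.sum_mul, hν, ← Finset.mul_sum]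
        ring
      have hσ0 : 0 ≤ σ (fun i => x (j.succAbove i)) := (boxCut_bound _ _ _).1
      have hχg : ∑ l, pd l χ x ^ 2 ≤ ((m : ℝ) + 1) * (B / N) ^ 2 * σ (fun i => x (j.succAbove i)) := by
        by_cases hin : ∀ i, i ≠ j → |x i| ≤ 2 * N
        · have : σ (fun i => x (j.succAbove i)) = 1 :=
            boxCut_one (by linarith) fun i _ => hin _ (Fin.succAbove_ne j i)
          rw [this, mul_one]
          calc ∑ l, pd l χ x ^ 2 ≤ ∑ _l : Fin (m + 1), (B / N) ^ 2 := Finset.sum_le_sum fun l _ => by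
                rw [← sq_abs (pd l χ x)]
                refine pow_le_pow_left₀ (abs_nonneg _) ((abs_pd_boxCut hB0 hbB _ hN0 l x).trans ?_) 2
                split_ifs
                · exact le_rfl
                · positivity
            _ = ((m : ℝ) + 1) * (B / N) ^ 2 := by simp
        · have : ∀ l, pd l χ x = 0 := fun l => image_eq_zero_of_notMem_tsupport fun h' => hin
            fun i hi => by
              have hcl : tsupport χ ⊆ {x | |x i| ≤ 2 * N} := closure_minimal (fun y hy => by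
                by_contra hc
                exact hy (boxCut_zero hN0 (Finset.mem_erase.2 ⟨hi, Finset.mem_univ i⟩)
                  (not_le.1 hc).le)) (isClosed_le (by fun_prop) continuous_const)
              exact hcl (tsupport_pd_subset χ l h')
          simp only [this]
          simp
          positivity
      have h1 := mul_le_mul_of_nonneg_left hχg (by positivity : 0 ≤ (1 + 1 / τ) * φ₁ t ^ 2)
      have e2 : φ x = φ₁ t * χ x := rfl
      have e3 : ρ2 (fun i => x (j.succAbove i)) = χ x ^ 2 := by simp only [hρ2, hχρ x]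
      rw [e2, e3, hw']
      simp only [hf1, hf2]
      have : (1 + τ) * deriv φ₁ t ^ 2 * χ x ^ 2 + (3 * g t ^ 2 - 1) * (φ₁ t * χ x) ^ 2 =
          ((1 + τ) * deriv φ₁ t ^ 2 + (3 * g t ^ 2 - 1) * φ₁ t ^ 2) * χ x ^ 2 := by ring
      linarith
    have hint : Integrable fun x => gsq φ x + (3 * w x ^ 2 - 1) * φ x ^ 2 := by
      refine ((gsq_continuous hφc).integrable_of_hasCompactSupport (gsq_compact hφs)).add
        (integrable_mul_supp (f := fun x => 3 * w x ^ 2 - 1) (g := fun x => φ x ^ 2) ?_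
          (hφc.continuous.pow 2) (hφs.comp_left (g := fun s : ℝ => s ^ 2) (by simp)))
      have := hw.c2.continuous; fun_prop
    have hm := hst.trans (integral_mono hint (i1.add (i2.const_mul _)) hpt)
    simp only [Pi.add_apply] at hm
    rw [integral_add i1 (i2.const_mul _), integral_const_mul, I1, I2] at hm
    have hI1 : ∫ t, f1 t = A + τ * T := by
      rw [hA, hT, ← integral_const_mul, ← integral_add
        ((show Continuous fun t => deriv φ₁ t ^ 2 + (3 * g t ^ 2 - 1) * φ₁ t ^ 2 by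
          fun_prop).integrable_of_hasCompactSupport
          ((hφ₁s.deriv.comp_left (g := fun s : ℝ => s ^ 2) (by simp)).add
            (hφ₁s.comp_left (g := fun s : ℝ => s ^ 2) (by simp)).mul_left))
        ((integrable_sq_of_compact hφ₁d hφ₁s.deriv).const_mul τ)]
      congr 1; funext t; simp only [hf1]; ring
    have hlo : (2 * N) ^ m ≤ ∫ y, ρ2 y := by
      have hb : ∫ y : V m, (box fun _ => N).indicator (fun _ => (1 : ℝ)) y = (2 * N) ^ m := by
        rw [integral_box (fun _ => hN0.le)]; simp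
      rw [← hb]
      refine integral_mono (integrable_box _ _) (hρ2c.integrable_of_hasCompactSupport hρ2s) fun y => ?_
      by_cases hy : y ∈ box fun _ => N
      · rw [Set.indicator_of_mem hy]
        simp only [hρ2, hρ]
        rw [boxCut_one hN0 fun i _ => abs_le.2 ⟨hy.1 i, hy.2 i⟩]
        simp
      · rw [Set.indicator_of_notMem hy]; exact sq_nonneg _
    have hhi : ∫ y, σ y ≤ (8 * N) ^ m := by
      have hb : ∫ y : V m, (box fun _ => 2 * (2 * N)).indicator (fun _ => (1 : ℝ)) y = (8 * N) ^ m := by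
        rw [integral_box (fun _ => by linarith)]; simp; ring
      rw [← hb]
      refine integral_mono ((boxCut_c1 _ _).continuous.integrable_of_hasCompactSupport hσs)
        (integrable_box _ _) fun y => ?_
      by_cases hy : y ∈ box fun _ => 2 * (2 * N)
      · rw [Set.indicator_of_mem hy]; exact (boxCut_bound _ _ _).2
      · rw [Set.indicator_of_notMem hy]
        refine le_of_eq (image_eq_zero_of_notMem_tsupport fun h' => hy ?_)
        exact closure_minimal (fun z hz => mem_box fun i => by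
          by_contra hc
          exact hz (boxCut_zero (by linarith) (Finset.mem_univ i) (not_le.1 hc).le)) isClosed_Icc h'
    have hP : 0 < ∫ y, ρ2 y := lt_of_lt_of_le (by positivity) hlo
    have hσle : ∫ y, σ y ≤ 4 ^ m * ∫ y, ρ2 y := hhi.trans (by
      rw [show (8 * N) = 4 * (2 * N) by ring, mul_pow]
      exact mul_le_mul_of_nonneg_left hlo (by positivity))
    rw [hI1, ← hZ] at hm
    have hk : 0 < |(ν j)⁻¹| := abs_pos.2 (inv_ne_zero hj)
    have h5 : (1 + 1 / τ) * ((m : ℝ) + 1) * (B / N) ^ 2 * (|(ν j)⁻¹| * Z * ∫ y, σ y) ≤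
        (1 + 1 / τ) * ((m : ℝ) + 1) * (B / N) ^ 2 * (|(ν j)⁻¹| * Z * (4 ^ m * ∫ y, ρ2 y)) := by
      gcongr
    have h6 : 0 ≤ (|(ν j)⁻¹| * ∫ y, ρ2 y) *
        (A + τ * T + (1 + 1 / τ) * Z * (((m : ℝ) + 1) * (B / N) ^ 2 * 4 ^ m)) := by linarith
    exact (mul_nonneg_iff_of_pos_left (mul_pos hk hP)).1 h6
  have hlimN : ∀ τ : ℝ, 0 < τ → 0 ≤ A + τ * T := fun τ hτ => by
    have h1 : Tendsto (fun N : ℝ => A + τ * T + (1 + 1 / τ) * Z * (((m : ℝ) + 1) * (B / N) ^ 2 * 4 ^ m))
        atTop (𝓝 (A + τ * T + (1 + 1 / τ) * Z * (((m : ℝ) + 1) * (0 : ℝ) ^ 2 * 4 ^ m))) :=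
      ((((((tendsto_id.const_div_atTop B)).pow 2).const_mul _).mul_const _).const_mul _).const_add _
    rw [zero_pow two_ne_zero, mul_zero, zero_mul, mul_zero, add_zero] at h1
    exact ge_of_tendsto h1 (eventually_atTop.2 ⟨1, fun N hN => key τ N hτ hN⟩)
  have h2 : Tendsto (fun τ : ℝ => A + τ * T) (𝓝[>] 0) (𝓝 (A + 0 * T)) :=
    Tendsto.mono_left ((tendsto_id.mul_const T).const_add A) nhdsWithin_le_nhds
  rw [zero_mul, add_zero] at h2
  exact ge_of_tendsto h2 (eventually_nhdsWithin_of_forall fun τ hτ => hlimN τ hτ)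

end Vale.Agent.P134
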