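import Vale.Agent.P134.Basic

/-!
P134: the linearised equation tested against derivatives of a monotone solution.
-/

namespace Vale.Agent.P134

open MeasureTheory Filter Set
open scoped BigOperators Topology

variable {n : ℕ}

/-- A bounded solution increasing in the direction `d`. -/
structure Sol (u : V n → ℝ) (d : Fin n) : Prop where
  c2 : ContDiff ℝ 2 u
  bdd : ∀ x, |u x| ≤ 1
  eq : ∀ x, lap u x = u x ^ 3 - u x
  mono : ∀ x, 0 < pd d u x

/-- The potential of the linearised equation. -/
noncomputable def W2 (u : V n → ℝ) (x : V n) : ℝ := 3 * u x ^ 2 - 1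

/-- Squared gradient. -/
noncomputable def gsq (φ : V n → ℝ) (x : V n) : ℝ := ∑ j, pd j φ x ^ 2

/-- The defect of the ratio of `pd i u` and `pd d u` from being constant. -/
noncomputable def defect (u : V n → ℝ) (d i : Fin n) (x : V n) : ℝ :=
  ∑ j, (pd j (pd i u) x - pd i u x * pd j (pd d u) x / pd d u x) ^ 2

theorem pd_mul {f g : V n → ℝ} (hf : Differentiable ℝ f) (hg : Differentiable ℝ g) (j : Fin n)
    (x : V n) : pd j (fun y => f y * g y) x = pd j f x * g x + f x * pd j g x := by
  rw [pd, fderiv_fun_mul (hf x) (hg x)]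
  simp [pd]; ring

theorem pd_div {f g : V n → ℝ} (hf : Differentiable ℝ f) (hg : Differentiable ℝ g) {x : V n}
    (h : g x ≠ 0) (j : Fin n) :
    pd j (fun y => f y / g y) x = (pd j f x * g x - f x * pd j g x) / g x ^ 2 := by
  have h1 : HasFDerivAt (fun y => f y / g y)
      (f x • (-(g x ^ 2)⁻¹) • fderiv ℝ g x + (g x)⁻¹ • fderiv ℝ f x) x := by
    simp only [div_eq_mul_inv]
    exact (hf x).hasFDerivAt.fun_mul ((hasDerivAt_inv h).comp_hasFDerivAt x (hg x).hasFDerivAt)
  rw [pd, h1.fderiv]
  simp only [add_apply, smul_apply, smul_eq_mul, pd]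
  field_simp
  ring

theorem tsupport_pd_subset (g : V n → ℝ) (j : Fin n) : tsupport (pd j g) ⊆ tsupport g :=
  tsupport_fderiv_apply_subset ℝ (e j)

theorem hasCompactSupport_pd {g : V n → ℝ} (h : HasCompactSupport g) (j : Fin n) :
    HasCompactSupport (pd j g) :=
  h.fderiv_apply ℝ (e j)

theorem integrable_mul_supp {f g : V n → ℝ} (hf : Continuous f) (hg : Continuous g)
    (hgs : HasCompactSupport g) : Integrable fun x => f x * g x :=
  (hf.mul hg).integrable_of_hasCompactSupport hgs.mul_left

/-- Integration by parts. -/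
theorem ibp {f g : V n → ℝ} (hf : ContDiff ℝ 1 f) (hg : ContDiff ℝ 1 g) (hgs : HasCompactSupport g)
    (j : Fin n) : ∫ x, f x * pd j g x = -∫ x, pd j f x * g x :=
  integral_mul_fderiv_eq_neg_fderiv_mul_of_integrable
    (integrable_mul_supp (pd_continuous hf j) hg.continuous hgs)
    (integrable_mul_supp hf.continuous (pd_continuous hg j) (hasCompactSupport_pd hgs j))
    (integrable_mul_supp hf.continuous hg.continuous hgs)
    (fun x _ => hf.differentiable one_ne_zero x) (fun x _ => hg.differentiable one_ne_zero x)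

theorem pd_comm {u : V n → ℝ} (hu : ContDiff ℝ 2 u) (i j : Fin n) (x : V n) :
    pd i (pd j u) x = pd j (pd i u) x := by
  have hd : DifferentiableAt ℝ (fderiv ℝ u) x :=
    (hu.fderiv_right (m := 1) (by norm_num)).differentiable one_ne_zero x
  have key : ∀ a b : Fin n, pd a (pd b u) x = fderiv ℝ (fderiv ℝ u) x (e a) (e b) := by
    intro a b
    show fderiv ℝ (fun y => fderiv ℝ u y (e b)) x (e a) = _
    rw [fderiv_clm_apply hd (differentiableAt_const _)]
    simp
  rw [key, key]
  exact (hu.contDiffAt.isSymmSndFDerivAt (by simp)).eq _ _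

variable {u : V n → ℝ} {d : Fin n}

/-- The derivatives solve the linearised equation weakly. -/
theorem Sol.weak (h : Sol u d) (i : Fin n) {φ : V n → ℝ} (hφ : ContDiff ℝ 1 φ)
    (hφs : HasCompactSupport φ) :
    ∫ x, (∑ j, pd j (pd i u) x * pd j φ x + W2 u x * pd i u x * φ x) = 0 := by
  obtain ⟨C, hC0, hC1, hC2⟩ := derivative_bounds h.c2 h.bdd h.eq
  have hud := h.c2.differentiable (by norm_num : (2 : WithTop ℕ∞) ≠ 0)
  set f : ℝ → ℝ := fun s => s ^ 3 - s with hf
  set a : ℕ → ℝ := fun k => 1 / ((k : ℝ) + 1) with ha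
  set F : ℕ → V n → ℝ := fun k x => ∑ j, ((pd j u (x + a k • e i) - pd j u x) / a k) * pd j φ x +
    ((f (u (x + a k • e i)) - f (u x)) / a k) * φ x with hF
  have hapos : ∀ k, 0 < a k := fun k => by simp only [ha]; positivity
  have hzero : ∀ k, ∫ x, F k x = 0 := by
    intro k
    set D : V n → ℝ := fun x => (a k)⁻¹ * (u (x + a k • e i) - u x) with hD
    have hsh : ContDiff ℝ 2 fun x => u (x + a k • e i) := h.c2.comp (contDiff_id.add contDiff_const)
    have hDc : ContDiff ℝ 2 D := contDiff_const.mul (hsh.sub h.c2)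
    have hpdD : ∀ j, pd j D = fun x => (a k)⁻¹ * (pd j u (x + a k • e i) - pd j u x) := by
      intro j
      rw [hD, pd_const_mul (f := fun x => u (x + a k • e i) - u x)
        ((hsh.sub h.c2).differentiable (by norm_num)), pd_sub (hsh.differentiable (by norm_num)) hud,
        pd_add_right]
    have hlapD : ∀ x, lap D x = (a k)⁻¹ * (f (u (x + a k • e i)) - f (u x)) := by
      intro x
      simp only [hf, ← h.eq, lap, ← Finset.sum_sub_distrib, Finset.mul_sum]
      refine Finset.sum_congr rfl fun j _ => ?_
      have d1 := (pd_c1 h.c2 j).differentiable one_ne_zero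
      rw [hpdD j, pd_const_mul (f := fun x => pd j u (x + a k • e i) - pd j u x)
        ((d1.comp (differentiable_id.add_const _)).sub d1),
        pd_sub (f := fun x => pd j u (x + a k • e i)) (d1.comp (differentiable_id.add_const _)) d1,
        pd_add_right]
    have hint : ∀ j, Integrable fun x => pd j D x * pd j φ x := fun j =>
      integrable_mul_supp (pd_continuous (hDc.of_le (by norm_num)) j) (pd_continuous hφ j)
        (hasCompactSupport_pd hφs j)
    have hint2 : ∀ j, Integrable fun x => pd j (pd j D) x * φ x := fun j =>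
      integrable_mul_supp (pd_continuous (pd_c1 hDc j) j) hφ.continuous hφs
    have key : ∫ x, ∑ j, (pd j D x * pd j φ x + pd j (pd j D) x * φ x) = 0 := by
      rw [integral_finsetSum (f := fun j x => pd j D x * pd j φ x + pd j (pd j D) x * φ x) _
        fun j _ => (hint j).add (hint2 j)]
      refine Finset.sum_eq_zero fun j _ => ?_
      rw [integral_add (hint j) (hint2 j), ibp (pd_c1 hDc j) hφ hφs j]
      ring
    rw [← key]
    congr 1
    funext x
    rw [Finset.sum_add_distrib, ← Finset.sum_mul]
    show _ = _ + lap D x * φ x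
    rw [hlapD x]
    simp only [hF, hpdD, div_eq_inv_mul]
  have hlim : ∀ x, Tendsto (fun k => F k x) atTop
      (𝓝 (∑ j, pd j (pd i u) x * pd j φ x + W2 u x * pd i u x * φ x)) := by
    intro x
    have hat : Tendsto a atTop (𝓝[≠] 0) :=
      tendsto_nhdsWithin_iff.2 ⟨tendsto_one_div_add_atTop_nhds_zero_nat,
        Eventually.of_forall fun k => (hapos k).ne'⟩
    have hline : HasDerivAt (fun s : ℝ => x + s • e i) (e i) 0 := by
      simpa using ((hasDerivAt_id (0 : ℝ)).smul_const (e i)).const_add x
    have hslope : ∀ g : V n → ℝ, Differentiable ℝ g →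
        Tendsto (fun k => (g (x + a k • e i) - g x) / a k) atTop (𝓝 (pd i g x)) := by
      intro g hg
      have hd : HasDerivAt (g ∘ fun s : ℝ => x + s • e i) (pd i g x) 0 :=
        HasFDerivAt.comp_hasDerivAt (0 : ℝ) (by simpa using (hg x).hasFDerivAt) hline
      simpa [Function.comp_def, slope_def_field] using
        (hasDerivAt_iff_tendsto_slope.1 hd).comp hat
    refine (tendsto_finsetSum _ fun j _ => ?_).add ?_
    · rw [← pd_comm h.c2 i j]
      exact (hslope _ ((pd_c1 h.c2 j).differentiable one_ne_zero)).mul_const _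
    · have hfd : Differentiable ℝ fun y => f (u y) := by
        simp only [hf]; exact (hud.pow 3).sub hud
      have e1 : pd i (fun y => f (u y)) x = W2 u x * pd i u x := by
        have h1 : HasFDerivAt (fun y => f (u y)) ((3 * u x ^ 2 - 1) • fderiv ℝ u x) x := by
          have h2 : HasDerivAt f (3 * u x ^ 2 - 1) (u x) := by
            simpa [hf] using (hasDerivAt_pow 3 (u x)).fun_sub (hasDerivAt_id' (u x))
          exact h2.comp_hasFDerivAt x (hud x).hasFDerivAt
        rw [pd, h1.fderiv]; rfl
      rw [← e1]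
      exact (hslope _ hfd).mul_const _
  have hlip : ∀ j x (s : ℝ), |pd j u (x + s • e i) - pd j u x| ≤ C * |s| := by
    intro j x s
    have h' := Convex.norm_image_sub_le_of_norm_hasDerivWithin_le
      (f := fun r : ℝ => pd j u (x + r • e i)) (f' := fun r => pd i (pd j u) (x + r • e i))
      (fun r _ => HasDerivAt.hasDerivWithinAt <|
        ((pd_c1 h.c2 j).differentiable one_ne_zero _).hasFDerivAt.comp_hasDerivAt r
        (by simpa using ((hasDerivAt_id r).smul_const (e i)).const_add x))
      (fun r _ => by rw [Real.norm_eq_abs]; exact hC2 j i _) convex_univ (mem_univ (0 : ℝ))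
      (mem_univ s)
    simpa [Real.norm_eq_abs] using h'
  have hlipu : ∀ x (s : ℝ), |u (x + s • e i) - u x| ≤ C * |s| := by
    intro x s
    have h' := Convex.norm_image_sub_le_of_norm_hasDerivWithin_le
      (f := fun r : ℝ => u (x + r • e i)) (f' := fun r => pd i u (x + r • e i))
      (fun r _ => HasDerivAt.hasDerivWithinAt <| (hud _).hasFDerivAt.comp_hasDerivAt r
        (by simpa using ((hasDerivAt_id r).smul_const (e i)).const_add x))
      (fun r _ => by rw [Real.norm_eq_abs]; exact hC1 i _) convex_univ (mem_univ (0 : ℝ))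
      (mem_univ s)
    simpa [Real.norm_eq_abs] using h'
  have hcontF : ∀ k, Continuous (F k) := fun k => by
    have c1 := fun j => pd_continuous (h.c2.of_le (by norm_num : (1 : WithTop ℕ∞) ≤ 2)) j
    have c2 := fun j => pd_continuous hφ j
    have c3 := h.c2.continuous
    have c4 := hφ.continuous
    simp only [hF, hf]
    fun_prop
  have hlimint := tendsto_integral_of_dominated_convergence (μ := (volume : Measure (V n))) (F := F)
    (fun x => ∑ j, C * |pd j φ x| + 3 * C * |φ x|) (fun k => (hcontF k).aestronglyMeasurable)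
    ((integrable_finsetSum _ fun j _ => (((pd_continuous hφ j).integrable_of_hasCompactSupport
      (hasCompactSupport_pd hφs j)).abs.const_mul C)).add
        ((hφ.continuous.integrable_of_hasCompactSupport hφs).abs.const_mul (3 * C)))
    (fun k => Eventually.of_forall fun x => by
      rw [Real.norm_eq_abs]
      refine (abs_add_le _ _).trans (add_le_add ((Finset.abs_sum_le_sum_abs _ _).trans
        (Finset.sum_le_sum fun j _ => ?_)) ?_)
      · rw [abs_mul, abs_div, abs_of_pos (hapos k)]
        refine mul_le_mul_of_nonneg_right ?_ (abs_nonneg _)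
        rw [div_le_iff₀ (hapos k)]
        simpa [abs_of_pos (hapos k)] using hlip j x (a k)
      · rw [abs_mul, abs_div, abs_of_pos (hapos k)]
        refine mul_le_mul_of_nonneg_right ?_ (abs_nonneg _)
        rw [div_le_iff₀ (hapos k)]
        set p := u (x + a k • e i) with hp
        set q := u x with hq
        have hp' := abs_le.1 (h.bdd (x + a k • e i))
        have hq' := abs_le.1 (h.bdd x)
        rw [← hp] at hp'
        rw [← hq] at hq'
        have h3 : |p ^ 2 + p * q + q ^ 2 - 1| ≤ 3 := by
          rw [abs_le]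
          constructor <;> nlinarith [sq_nonneg (p + q), sq_nonneg (p - q)]
        calc |f p - f q| = |p ^ 2 + p * q + q ^ 2 - 1| * |p - q| := by
              rw [← abs_mul]; simp only [hf]; ring_nf
          _ ≤ 3 * (C * |a k|) := mul_le_mul h3 (hlipu x (a k)) (abs_nonneg _) (by norm_num)
          _ = 3 * C * a k := by rw [abs_of_pos (hapos k)]; ring)
    (Eventually.of_forall hlim)
  simp only [hzero] at hlimint
  exact tendsto_nhds_unique hlimint tendsto_const_nhds

theorem gsq_continuous {φ : V n → ℝ} (hφ : ContDiff ℝ 1 φ) : Continuous (gsq φ) :=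
  continuous_finsetSum _ fun j _ => (pd_continuous hφ j).pow 2

theorem gsq_compact {φ : V n → ℝ} (hφs : HasCompactSupport φ) : HasCompactSupport (gsq φ) :=
  HasCompactSupport.intro (K := tsupport φ) hφs fun x hx => Finset.sum_eq_zero fun j _ => by
    rw [image_eq_zero_of_notMem_tsupport (fun h' => hx (tsupport_pd_subset φ j h'))]
    simp

theorem W2_continuous (h : Sol u d) : Continuous (W2 u) := by
  have := h.c2.continuous
  unfold W2; fun_prop

theorem defect_continuous (h : Sol u d) (i : Fin n) : Continuous (defect u d i) :=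
  continuous_finsetSum _ fun j _ => ((pd_continuous (pd_c1 h.c2 i) j).sub
    (((pd_c1 h.c2 i).continuous.mul (pd_continuous (pd_c1 h.c2 d) j)).div₀
      (pd_c1 h.c2 d).continuous fun x => (h.mono x).ne')).pow 2

/-- The quadratic form of the linearisation. -/
noncomputable def Qf (u φ : V n → ℝ) : ℝ := ∫ x, (gsq φ x + W2 u x * φ x ^ 2)

/-- The quadratic form is a weighted Dirichlet integral. -/
theorem Sol.form_eq (h : Sol u d) {φ : V n → ℝ} (hφ : ContDiff ℝ 1 φ) (hφs : HasCompactSupport φ) :
    Qf u φ = ∫ x, ∑ j, (pd j φ x - φ x * pd j (pd d u) x / pd d u x) ^ 2 := by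
  set v := pd d u with hv
  have hv1 : ContDiff ℝ 1 v := pd_c1 h.c2 d
  have hvd := hv1.differentiable one_ne_zero
  have hφd := hφ.differentiable one_ne_zero
  set ψ : V n → ℝ := fun x => φ x * φ x / v x with hψ
  have hψc : ContDiff ℝ 1 ψ := (hφ.mul hφ).div hv1 fun x => (h.mono x).ne'
  have hψs : HasCompactSupport ψ := HasCompactSupport.intro (K := tsupport φ) hφs fun x hx => by
    simp [hψ, image_eq_zero_of_notMem_tsupport hx]
  have hw := h.weak d hψc hψs
  rw [← sub_zero (Qf u φ), ← hw, Qf, ← integral_sub]
  · congr 1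
    funext x
    have hvx : v x ≠ 0 := (h.mono x).ne'
    have e1 : ∀ j, pd j ψ x =
        (2 * φ x * pd j φ x * v x - φ x * φ x * pd j v x) / v x ^ 2 := by
      intro j
      rw [hψ, pd_div (f := fun y => φ y * φ y) (hφd.mul hφd) hvd hvx, pd_mul hφd hφd]
      ring
    have e2 : W2 u x * v x * ψ x = W2 u x * φ x ^ 2 := by
      rw [hψ]; field_simp [hvx]
    rw [← hv, e2, gsq, add_sub_add_right_eq_sub, ← Finset.sum_sub_distrib]
    refine Finset.sum_congr rfl fun j _ => ?_
    rw [e1]
    field_simp
    ring
  · exact ((gsq_continuous hφ).integrable_of_hasCompactSupport (gsq_compact hφs)).add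
      (integrable_mul_supp (W2_continuous h) (hφ.continuous.pow 2)
        (hφs.comp_left (g := fun t : ℝ => t ^ 2) (by simp)))
  · exact (integrable_finsetSum _ fun j _ => integrable_mul_supp (pd_continuous hv1 j)
      (pd_continuous hψc j) (hasCompactSupport_pd hψs j)).add
        (integrable_mul_supp ((W2_continuous h).mul hv1.continuous) hψc.continuous hψs)

/-- Stability. -/
theorem Sol.stable (h : Sol u d) {φ : V n → ℝ} (hφ : ContDiff ℝ 1 φ) (hφs : HasCompactSupport φ) :
    0 ≤ Qf u φ := by
  rw [h.form_eq hφ hφs]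
  exact integral_nonneg fun x => Finset.sum_nonneg fun j _ => sq_nonneg _

/-- The form at a cut-off derivative. -/
theorem Sol.form_deriv (h : Sol u d) (i : Fin n) {η : V n → ℝ} (hη : ContDiff ℝ 1 η)
    (hηs : HasCompactSupport η) :
    Qf u (fun x => η x * pd i u x) = ∫ x, pd i u x ^ 2 * gsq η x := by
  set w := pd i u with hw
  have hw1 : ContDiff ℝ 1 w := pd_c1 h.c2 i
  have hwd := hw1.differentiable one_ne_zero
  have hηd := hη.differentiable one_ne_zero
  set φ : V n → ℝ := fun x => η x * η x * w x with hφ
  have hφc : ContDiff ℝ 1 φ := (hη.mul hη).mul hw1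
  have hφs : HasCompactSupport φ := (hηs.mul_right).mul_right
  have hweak := h.weak i hφc hφs
  rw [← sub_zero (Qf u _), ← hweak, Qf, ← integral_sub]
  · congr 1
    funext x
    have e2 : W2 u x * w x * φ x = W2 u x * (η x * w x) ^ 2 := by rw [hφ]; ring
    rw [← hw, e2, gsq, add_sub_add_right_eq_sub, gsq, Finset.mul_sum, ← Finset.sum_sub_distrib]
    refine Finset.sum_congr rfl fun j _ => ?_
    rw [hφ, pd_mul (f := fun y => η y * η y) (hηd.mul hηd) hwd, pd_mul hηd hηd, pd_mul hηd hwd]
    ring
  · have hc := hη.mul hw1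
    exact ((gsq_continuous hc).integrable_of_hasCompactSupport (gsq_compact hηs.mul_right)).add
      (integrable_mul_supp (W2_continuous h) (hc.continuous.pow 2)
        (hηs.mul_right.comp_left (g := fun t : ℝ => t ^ 2) (by simp)))
  · exact (integrable_finsetSum _ fun j _ => integrable_mul_supp (pd_continuous hw1 j)
      (pd_continuous hφc j) (hasCompactSupport_pd hφs j)).add
        (integrable_mul_supp ((W2_continuous h).mul hw1.continuous) hφc.continuous hφs)

/-- The defect is paid by the gradient of the cut-off. -/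
theorem Sol.defect_le (h : Sol u d) (i : Fin n) {η : V n → ℝ} (hη : ContDiff ℝ 1 η)
    (hηs : HasCompactSupport η) :
    ∫ x, η x ^ 2 * defect u d i x ≤ 4 * ∫ x, pd i u x ^ 2 * gsq η x := by
  have e1 := h.form_eq (φ := fun x => η x * pd i u x) (hη.mul (pd_c1 h.c2 i)) hηs.mul_right
  rw [h.form_deriv i hη hηs] at e1
  set v := pd d u with hv
  set w := pd i u with hw
  set A : V n → ℝ := fun x => ∑ j,
    (pd j (fun y => η y * w y) x - η x * w x * pd j v x / v x) ^ 2 with hA
  have hexp : ∀ x, η x ^ 2 * defect u d i x ≤ 2 * A x + 2 * (w x ^ 2 * gsq η x) := by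
    intro x
    simp only [hA, defect, gsq, ← hv, ← hw, Finset.mul_sum, ← Finset.sum_add_distrib]
    refine Finset.sum_le_sum fun j _ => ?_
    rw [pd_mul (hη.differentiable one_ne_zero) ((pd_c1 h.c2 i).differentiable one_ne_zero), ← hw]
    have e3 : 2 * (pd j η x * w x + η x * pd j w x - η x * w x * pd j v x / v x) ^ 2 +
        2 * (w x ^ 2 * pd j η x ^ 2) - η x ^ 2 * (pd j w x - w x * pd j v x / v x) ^ 2 =
        (2 * (pd j η x * w x) + η x * (pd j w x - w x * pd j v x / v x)) ^ 2 := by ring
    linarith [sq_nonneg (2 * (pd j η x * w x) + η x * (pd j w x - w x * pd j v x / v x))]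
  have hcA : Continuous A := by
    refine continuous_finsetSum _ fun j _ => ((pd_continuous (hη.mul (pd_c1 h.c2 i)) j).sub
      (((hη.continuous.mul (pd_c1 h.c2 i).continuous).mul (pd_continuous (pd_c1 h.c2 d) j)).div₀
        (pd_c1 h.c2 d).continuous fun x => (h.mono x).ne')).pow 2
  have hAs : HasCompactSupport A := HasCompactSupport.intro (K := tsupport η) hηs fun x hx =>
    Finset.sum_eq_zero fun j _ => by
      have h1 : pd j (fun y => η y * w y) x = 0 := image_eq_zero_of_notMem_tsupport
        fun h' => hx (tsupport_mul_subset_left (tsupport_pd_subset _ j h'))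
      simp [h1, image_eq_zero_of_notMem_tsupport hx]
  have hiA : Integrable A := hcA.integrable_of_hasCompactSupport hAs
  have hiG : Integrable fun x => w x ^ 2 * gsq η x :=
    integrable_mul_supp ((pd_c1 h.c2 i).continuous.pow 2) (gsq_continuous hη) (gsq_compact hηs)
  have hL0 : Continuous fun x => η x ^ 2 * defect u d i x :=
    Continuous.mul (hη.continuous.pow 2) (defect_continuous h i)
  have hL1 : HasCompactSupport fun x => η x ^ 2 * defect u d i x :=
    HasCompactSupport.intro (K := tsupport η) hηs fun x hx => by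
      rw [image_eq_zero_of_notMem_tsupport hx]
      simp
  have hiL : Integrable fun x => η x ^ 2 * defect u d i x :=
    hL0.integrable_of_hasCompactSupport hL1
  have hA1 : ∫ x, A x = ∫ x, w x ^ 2 * gsq η x := e1.symm
  have hmono : ∫ x, η x ^ 2 * defect u d i x ≤ ∫ x, (2 * A x + 2 * (w x ^ 2 * gsq η x)) :=
    integral_mono hiL ((hiA.const_mul 2).add (hiG.const_mul 2)) hexp
  rw [integral_add (hiA.const_mul 2) (hiG.const_mul 2), integral_const_mul, integral_const_mul,
    hA1] at hmono
  linarith

end Vale.Agent.P134
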