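import Vale.Agent.P134.Stable

/-!
P134: Lipschitz bounds for the Hessian and limits of functions with Lipschitz gradients.
-/

namespace Vale.Agent.P134

open MeasureTheory Filter Set
open scoped BigOperators Topology

variable {n : ℕ}

/-- A bound on the partial derivatives bounds the increments. -/
theorem lip_of_pd {q : V n → ℝ} (hq : Differentiable ℝ q) {C : ℝ}
    (hC : ∀ i x, |pd i q x| ≤ C) (x y : V n) : |q y - q x| ≤ (n : ℝ) * C * ‖y - x‖ := by
  have hd : ∀ z, HasFDerivWithinAt q (fderiv ℝ q z) univ z := fun z =>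
    (hq z).hasFDerivAt.hasFDerivWithinAt
  have hb : ∀ z ∈ (univ : Set (V n)), ‖fderiv ℝ q z‖ ≤ (n : ℝ) * |C| := fun z _ => by
    refine ContinuousLinearMap.opNorm_le_bound _ (by positivity) fun w => ?_
    rw [fderiv_apply_eq_sum, Real.norm_eq_abs]
    refine (Finset.abs_sum_le_sum_abs _ _).trans ?_
    calc ∑ j, |w j * pd j q z| ≤ ∑ _j : Fin n, ‖w‖ * |C| := Finset.sum_le_sum fun j _ => by
          rw [abs_mul]
          exact mul_le_mul ((Real.norm_eq_abs (w j)).ge.trans (norm_le_pi_norm w j))
            ((hC j z).trans (le_abs_self C)) (abs_nonneg _) (norm_nonneg _)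
      _ = (n : ℝ) * |C| * ‖w‖ := by simp; ring
  have h := convex_univ.norm_image_sub_le_of_norm_hasFDerivWithin_le (fun z _ => hd z) hb
    (mem_univ x) (mem_univ y)
  rw [Real.norm_eq_abs] at h
  rcases n.eq_zero_or_pos with hn | hn
  · subst hn
    simpa using h
  · have : 0 ≤ C := (abs_nonneg _).trans (hC ⟨0, hn⟩ x)
    rwa [abs_of_nonneg this] at h

/-- The first-order Taylor remainder. -/
theorem taylor_le {q : V n → ℝ} (hq : Differentiable ℝ q) {C : ℝ}
    (hC : ∀ i x y, |pd i q x - pd i q y| ≤ C * ‖x - y‖) (x h : V n) :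
    |q (x + h) - q x - ∑ i, h i * pd i q x| ≤ (n : ℝ) * C * ‖h‖ ^ 2 := by
  set D := ∑ i, h i * pd i q x with hD
  have hline : ∀ s : ℝ, HasDerivAt (fun s : ℝ => q (x + s • h) - s * D)
      (∑ i, h i * (pd i q (x + s • h) - pd i q x)) s := fun s => by
    have h1 : HasDerivAt (fun s : ℝ => x + s • h) h s := by
      simpa using ((hasDerivAt_id s).smul_const h).const_add x
    have h2 : HasDerivAt (fun s : ℝ => q (x + s • h)) (fderiv ℝ q (x + s • h) h) s :=
      (hq _).hasFDerivAt.comp_hasDerivAt s h1
    refine (h2.sub (hasDerivAt_mul_const D)).congr_deriv ?_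
    rw [fderiv_apply_eq_sum, hD, ← Finset.sum_sub_distrib]
    exact Finset.sum_congr rfl fun i _ => by ring
  have hbd : ∀ s ∈ Icc (0 : ℝ) 1, ‖∑ i, h i * (pd i q (x + s • h) - pd i q x)‖ ≤
      (n : ℝ) * C * ‖h‖ ^ 2 := by
    intro s hs
    rw [Real.norm_eq_abs]
    refine (Finset.abs_sum_le_sum_abs _ _).trans ?_
    calc ∑ i, |h i * (pd i q (x + s • h) - pd i q x)| ≤ ∑ _i : Fin n, ‖h‖ * (C * ‖h‖) :=
          Finset.sum_le_sum fun i _ => by
            rw [abs_mul]
            refine mul_le_mul ((Real.norm_eq_abs (h i)).ge.trans (norm_le_pi_norm h i))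
              ((hC i _ _).trans ?_) (abs_nonneg _) (norm_nonneg _)
            rw [add_sub_cancel_left, norm_smul, Real.norm_eq_abs, abs_of_nonneg hs.1]
            rcases eq_or_lt_of_le (norm_nonneg h) with h0 | h0
            · simp [← h0]
            · have hC0 : 0 ≤ C := by
                have := (abs_nonneg _).trans (hC i (x + h) x)
                rw [add_sub_cancel_left] at this
                exact nonneg_of_mul_nonneg_left this h0
              exact mul_le_mul_of_nonneg_left (mul_le_of_le_one_left h0.le hs.2) hC0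
      _ = (n : ℝ) * C * ‖h‖ ^ 2 := by simp; ring
  have h0 := (convex_Icc (0 : ℝ) 1).norm_image_sub_le_of_norm_hasDerivWithin_le
    (fun s _ => (hline s).hasDerivWithinAt) hbd (left_mem_Icc.2 zero_le_one)
    (right_mem_Icc.2 zero_le_one)
  simp only [Real.norm_eq_abs, one_smul, one_mul, zero_smul, add_zero, zero_mul, sub_zero,
    abs_one, mul_one] at h0
  calc |q (x + h) - q x - D| = |q (x + h) - D - q x| := by congr 1; ring
    _ ≤ _ := h0

/-- A partial derivative is close to the corresponding difference quotient. -/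
theorem pd_interp {q : V n → ℝ} (hq : Differentiable ℝ q) {C : ℝ}
    (hC : ∀ i x y, |pd i q x - pd i q y| ≤ C * ‖x - y‖) (i : Fin n) (x : V n) {r : ℝ} (hr : 0 < r) :
    |pd i q x| ≤ |q (x + r • e i) - q x| / r + (n : ℝ) * C * r := by
  have h := taylor_le hq hC x (r • e i)
  have e1 : ∑ l, (r • e i : V n) l * pd l q x = r * pd i q x := by
    simp [e, Pi.single_apply]
  have e2 : ‖(r • e i : V n)‖ = r := by
    rw [norm_smul, e, Pi.norm_single]
    simp [abs_of_pos hr]
  rw [e1, e2] at h
  have h2 : r * |pd i q x| ≤ |q (x + r • e i) - q x| + (n : ℝ) * C * r ^ 2 := by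
    rw [← abs_of_pos hr, ← abs_mul, abs_of_pos hr]
    have := abs_sub_abs_le_abs_sub (r * pd i q x) (q (x + r • e i) - q x)
    rw [abs_sub_comm (r * pd i q x)] at this
    linarith
  rw [← mul_le_mul_iff_of_pos_left hr]
  refine h2.trans (le_of_eq ?_)
  field_simp

/-- Two functions with close values have close derivatives. -/
theorem pd_close_of_values {p q : V n → ℝ} (hp : Differentiable ℝ p) (hq : Differentiable ℝ q)
    {C : ℝ} (hCp : ∀ i x y, |pd i p x - pd i p y| ≤ C * ‖x - y‖)
    (hCq : ∀ i x y, |pd i q x - pd i q y| ≤ C * ‖x - y‖) (i : Fin n) (x : V n) {r : ℝ} (hr : 0 < r) :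
    |pd i p x - pd i q x| ≤
      (|p (x + r • e i) - q (x + r • e i)| + |p x - q x|) / r + (n : ℝ) * (2 * C) * r := by
  have h := pd_interp (q := fun z => p z - q z) (hp.sub hq) (C := 2 * C) (fun l y z => ?_) i x hr
  · rw [pd_sub hp hq] at h
    refine h.trans (add_le_add (div_le_div_of_nonneg_right ?_ hr.le) le_rfl)
    exact abs_sub _ _
  · rw [pd_sub hp hq]
    simp only
    have h1 := abs_le.1 (hCp l y z)
    have h2 := abs_le.1 (hCq l y z)
    rw [abs_le]
    constructor <;> linarith

/-- Pointwise limits of functions with equi-Lipschitz gradients. -/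
theorem limit_c1 {q : ℕ → V n → ℝ} {qi : V n → ℝ} (hq : ∀ k, Differentiable ℝ (q k)) {C : ℝ}
    (hC : ∀ k i x y, |pd i (q k) x - pd i (q k) y| ≤ C * ‖x - y‖)
    (hlim : ∀ x, Tendsto (fun k => q k x) atTop (𝓝 (qi x))) :
    ContDiff ℝ 1 qi ∧ (∀ i x, Tendsto (fun k => pd i (q k) x) atTop (𝓝 (pd i qi x))) ∧
      ∀ i x y, |pd i qi x - pd i qi y| ≤ C * ‖x - y‖ := by
  have hca : ∀ i x, ∃ l, Tendsto (fun k => pd i (q k) x) atTop (𝓝 l) := by
    intro i x
    refine cauchySeq_tendsto_of_complete (Metric.cauchySeq_iff.2 fun δ hδ => ?_)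
    set K := (n : ℝ) * (2 * |C|) with hK
    set r := δ / (2 * (K + 1)) with hr
    have hr0 : 0 < r := by positivity
    have hKr : K * r < δ / 2 := by
      rw [hr, mul_div, div_lt_div_iff₀ (by positivity) two_pos]
      linarith
    obtain ⟨N₁, hN₁⟩ := Metric.cauchySeq_iff.1 (hlim (x + r • e i)).cauchySeq (δ * r / 4) (by positivity)
    obtain ⟨N₂, hN₂⟩ := Metric.cauchySeq_iff.1 (hlim x).cauchySeq (δ * r / 4) (by positivity)
    refine ⟨max N₁ N₂, fun k hk l hl => ?_⟩
    have h1 := hN₁ k (le_of_max_le_left hk) l (le_of_max_le_left hl)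
    have h2 := hN₂ k (le_of_max_le_right hk) l (le_of_max_le_right hl)
    rw [Real.dist_eq] at h1 h2 ⊢
    have hC' : ∀ k i x y, |pd i (q k) x - pd i (q k) y| ≤ |C| * ‖x - y‖ := fun k i x y =>
      (hC k i x y).trans (mul_le_mul_of_nonneg_right (le_abs_self C) (norm_nonneg _))
    refine (pd_close_of_values (hq k) (hq l) (hC' k) (hC' l) i x hr0).trans_lt ?_
    have h3 : (|q k (x + r • e i) - q l (x + r • e i)| + |q k x - q l x|) / r < δ / 2 := by
      rw [div_lt_iff₀ hr0]; linarith
    linarith
  choose G hG using hca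
  have hGl : ∀ i x y, |G i x - G i y| ≤ C * ‖x - y‖ := fun i x y =>
    le_of_tendsto ((hG i x).sub (hG i y)).abs (Eventually.of_forall fun k => hC k i x y)
  have htay : ∀ x h, |qi (x + h) - qi x - ∑ i, h i * G i x| ≤ (n : ℝ) * C * ‖h‖ ^ 2 := fun x h =>
    le_of_tendsto (((hlim (x + h)).sub (hlim x)).sub
      (tendsto_finsetSum _ fun i _ => (hG i x).const_mul (h i))).abs
      (Eventually.of_forall fun k => taylor_le (hq k) (hC k) x h)
  have hd : ∀ x, HasFDerivAt qi
      (∑ i, G i x • (ContinuousLinearMap.proj i : V n →L[ℝ] ℝ)) x := by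
    intro x
    rw [hasFDerivAt_iff_isLittleO_nhds_zero]
    refine (Asymptotics.IsBigO.of_bound ((n : ℝ) * C) (Eventually.of_forall fun h => ?_)).trans_isLittleO
      (Asymptotics.isLittleO_norm_pow_id (n := 2) one_lt_two)
    rw [Real.norm_eq_abs, Real.norm_eq_abs, abs_of_nonneg (sq_nonneg ‖h‖)]
    refine le_trans (le_of_eq ?_) (htay x h)
    simp only [sum_apply, smul_apply, ContinuousLinearMap.proj_apply, smul_eq_mul]
    congr 2
    exact Finset.sum_congr rfl fun i _ => mul_comm _ _
  have hpd : ∀ i x, pd i qi x = G i x := fun i x => by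
    rw [pd, (hd x).fderiv]
    simp [e, Pi.single_apply]
  refine ⟨contDiff_one_iff_fderiv.2 ⟨fun x => (hd x).differentiableAt, ?_⟩,
    fun i x => by rw [hpd]; exact hG i x, fun i x y => by rw [hpd, hpd]; exact hGl i x y⟩
  rw [show fderiv ℝ qi = fun x => ∑ i, G i x • (ContinuousLinearMap.proj i : V n →L[ℝ] ℝ) from
    funext fun x => (hd x).fderiv]
  refine continuous_finsetSum _ fun i _ => ?_
  have hL : LipschitzWith C.toNNReal (G i) := LipschitzWith.of_dist_le_mul fun x y => by
    rw [Real.dist_eq, dist_eq_norm]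
    exact (hGl i x y).trans (mul_le_mul_of_nonneg_right (Real.le_coe_toNNReal C) (norm_nonneg _))
  exact hL.continuous.smul continuous_const

/-- The Hessian of a bounded solution is Lipschitz. -/
theorem hessian_lip {u : V n → ℝ} (hu : ContDiff ℝ 2 u) (hb : ∀ x, |u x| ≤ 1)
    (heq : ∀ x, lap u x = u x ^ 3 - u x) :
    ∃ C : ℝ, 0 ≤ C ∧ (∀ i x, |pd i u x| ≤ C) ∧ (∀ i j x, |pd j (pd i u) x| ≤ C) ∧
      (∀ i x y, |pd i u x - pd i u y| ≤ C * ‖x - y‖) ∧
      ∀ i j x y, |pd j (pd i u) x - pd j (pd i u) y| ≤ C * ‖x - y‖ := by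
  obtain ⟨C, hC0, hC1, hC2⟩ := derivative_bounds hu hb heq
  have hn : (0 : ℝ) ≤ n := Nat.cast_nonneg n
  set A := (n : ℝ) * C with hA
  have hA0 : 0 ≤ A := by positivity
  have hud := hu.differentiable (by norm_num : (2 : WithTop ℕ∞) ≠ 0)
  have hpdd : ∀ l, Differentiable ℝ (pd l u) := fun l => (pd_c1 hu l).differentiable one_ne_zero
  have hlip1 : ∀ i x y, |pd i u x - pd i u y| ≤ A * ‖x - y‖ := fun i x y => by
    rw [abs_sub_comm, norm_sub_rev]
    exact lip_of_pd (hpdd i) (fun l z => hC2 i l z) x y
  set K := 2 * ((3 * A + 6 * C * A) + ((n : ℝ) + 2) * A) with hK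
  refine ⟨max C (max A K), le_max_of_le_left hC0, fun i x => (hC1 i x).trans (le_max_left _ _),
    fun i j x => (hC2 i j x).trans (le_max_left _ _), fun i x y => (hlip1 i x y).trans
      (mul_le_mul_of_nonneg_right (le_max_of_le_right (le_max_left _ _)) (norm_nonneg _)),
    fun i j x y => le_trans ?_
      (mul_le_mul_of_nonneg_right (le_max_of_le_right (le_max_right _ _)) (norm_nonneg _))⟩
  set h := x - y with hh
  set w : V n → ℝ := fun z => u (z + h) - u z with hw
  have hsh : ContDiff ℝ 2 fun z => u (z + h) := hu.comp (contDiff_id.add contDiff_const)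
  have hwc : ContDiff ℝ 2 w := hsh.sub hu
  have hpw : ∀ l, pd l w = fun z => pd l u (z + h) - pd l u z := fun l => by
    rw [hw, pd_sub (hsh.differentiable (by norm_num)) hud, pd_add_right]
  have hppw : ∀ l z, pd j (pd l w) z = pd j (pd l u) (z + h) - pd j (pd l u) z := fun l z => by
    rw [hpw, pd_sub (f := fun z => pd l u (z + h)) ((hpdd l).comp (differentiable_id.add_const _))
      (hpdd l), pd_add_right]
  have hwj : ∀ z, |pd j w z| ≤ A * ‖h‖ := fun z => by
    rw [hpw]
    simpa using hlip1 j (z + h) z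
  have key : ∀ z (s : ℝ), |pd i w (z + s • e j) - pd i w z| ≤ K * ‖h‖ * |s| := by
    intro z s
    set q : V n → ℝ := fun p => w (p + s • e j) - w p with hq
    have hshw : ContDiff ℝ 2 fun p => w (p + s • e j) := hwc.comp (contDiff_id.add contDiff_const)
    have hqA : ∀ p, |q p| ≤ A * ‖h‖ * |s| := by
      intro p
      have hline : ∀ r : ℝ, HasDerivAt (fun r : ℝ => p + r • e j) (e j) r := fun r => by
        simpa using ((hasDerivAt_id r).smul_const (e j)).const_add p
      have h' := Convex.norm_image_sub_le_of_norm_hasDerivWithin_le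
        (f := fun r : ℝ => w (p + r • e j)) (f' := fun r => pd j w (p + r • e j))
        (fun r _ => HasDerivAt.hasDerivWithinAt <|
          (hwc.differentiable (by norm_num) _).hasFDerivAt.comp_hasDerivAt r (hline r))
        (fun r _ => by rw [Real.norm_eq_abs]; exact hwj _) convex_univ (mem_univ (0 : ℝ))
        (mem_univ s)
      simpa [Real.norm_eq_abs] using h'
    have hqB : ∀ p, |lap q p| ≤ (3 * A + 6 * C * A) * ‖h‖ * |s| := by
      intro p
      have e1 : lap q p = (lap u (p + s • e j + h) - lap u (p + s • e j)) -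
          (lap u (p + h) - lap u p) := by
        simp only [lap, ← Finset.sum_sub_distrib]
        refine Finset.sum_congr rfl fun l _ => ?_
        have hd1 : Differentiable ℝ (pd l w) := (pd_c1 hwc l).differentiable one_ne_zero
        have e2 : pd l (pd l w) = fun z => pd l (pd l u) (z + h) - pd l (pd l u) z := by
          rw [hpw, pd_sub (f := fun z => pd l u (z + h))
            ((hpdd l).comp (differentiable_id.add_const _)) (hpdd l), pd_add_right]
        rw [hq, pd_sub (hshw.differentiable (by norm_num)) (hwc.differentiable (by norm_num)),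
          pd_add_right, pd_sub (f := fun z => pd l w (z + s • e j))
            (hd1.comp (differentiable_id.add_const _)) hd1, pd_add_right, e2]
      rw [e1, heq, heq, heq, heq]
      set a' := u (p + s • e j + h) with ha'
      set b' := u (p + s • e j) with hb'
      set a := u (p + h) with ha
      set b := u p with hb0
      have qa' := abs_le.1 (hb (p + s • e j + h))
      have qb' := abs_le.1 (hb (p + s • e j))
      have qa := abs_le.1 (hb (p + h))
      have qb := abs_le.1 (hb p)
      rw [← ha'] at qa'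
      rw [← hb'] at qb'
      rw [← ha] at qa
      rw [← hb0] at qb
      have hz : |(a' - b') - (a - b)| ≤ A * ‖h‖ * |s| := hqA p
      have hab : |a - b| ≤ A * ‖h‖ := by
        simpa [ha, hb0] using lip_of_pd hud hC1 p (p + h)
      have hsn : ‖(s • e j : V n)‖ = |s| := by simp [norm_smul, e, Pi.norm_single]
      have hΔa : |a' - a| ≤ C * |s| := by
        have h' := Convex.norm_image_sub_le_of_norm_hasDerivWithin_le
          (f := fun r : ℝ => u (p + h + r • e j)) (f' := fun r => pd j u (p + h + r • e j))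
          (fun r _ => HasDerivAt.hasDerivWithinAt <| (hud _).hasFDerivAt.comp_hasDerivAt r
            (by simpa using ((hasDerivAt_id r).smul_const (e j)).const_add (p + h)))
          (fun r _ => by rw [Real.norm_eq_abs]; exact hC1 j _) convex_univ (mem_univ (0 : ℝ))
          (mem_univ s)
        simpa [Real.norm_eq_abs, ha', ha, add_right_comm p] using h'
      have hΔb : |b' - b| ≤ C * |s| := by
        have h' := Convex.norm_image_sub_le_of_norm_hasDerivWithin_le
          (f := fun r : ℝ => u (p + r • e j)) (f' := fun r => pd j u (p + r • e j))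
          (fun r _ => HasDerivAt.hasDerivWithinAt <| (hud _).hasFDerivAt.comp_hasDerivAt r
            (by simpa using ((hasDerivAt_id r).smul_const (e j)).const_add p))
          (fun r _ => by rw [Real.norm_eq_abs]; exact hC1 j _) convex_univ (mem_univ (0 : ℝ))
          (mem_univ s)
        simpa [Real.norm_eq_abs, hb', hb0] using h'
      have e3 : a' ^ 3 - a' - (b' ^ 3 - b') - (a ^ 3 - a - (b ^ 3 - b)) =
          (a' ^ 2 + a' * b' + b' ^ 2 - 1) * ((a' - b') - (a - b)) +
          ((a' + a) * (a' - a) + (b' * (a' - a) + a * (b' - b)) + (b' + b) * (b' - b)) * (a - b) := by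
        ring
      rw [e3]
      have p1 : |a' ^ 2 + a' * b' + b' ^ 2 - 1| ≤ 3 := by
        rw [abs_le]
        constructor
        · nlinarith [sq_nonneg (a' + b')]
        · nlinarith [mul_nonneg (sub_nonneg.2 qa'.2) (neg_le_iff_add_nonneg.1 qa'.1),
            mul_nonneg (sub_nonneg.2 qb'.2) (neg_le_iff_add_nonneg.1 qb'.1), sq_nonneg (a' - b')]
      have p2 : |(a' + a) * (a' - a) + (b' * (a' - a) + a * (b' - b)) + (b' + b) * (b' - b)| ≤
          6 * (C * |s|) := by
        have t1 : |a' + a| * |a' - a| ≤ 2 * (C * |s|) :=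
          mul_le_mul (abs_le.2 ⟨by linarith, by linarith⟩) hΔa (abs_nonneg _) zero_le_two
        have t2 : |b'| * |a' - a| ≤ 1 * (C * |s|) :=
          mul_le_mul (abs_le.2 qb') hΔa (abs_nonneg _) zero_le_one
        have t3 : |a| * |b' - b| ≤ 1 * (C * |s|) :=
          mul_le_mul (abs_le.2 qa) hΔb (abs_nonneg _) zero_le_one
        have t4 : |b' + b| * |b' - b| ≤ 2 * (C * |s|) :=
          mul_le_mul (abs_le.2 ⟨by linarith, by linarith⟩) hΔb (abs_nonneg _) zero_le_two
        refine (abs_add_three _ _ _).trans ?_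
        have t5 := abs_add_le (b' * (a' - a)) (a * (b' - b))
        simp only [abs_mul] at t5 ⊢
        linarith
      calc |(a' ^ 2 + a' * b' + b' ^ 2 - 1) * ((a' - b') - (a - b)) +
            ((a' + a) * (a' - a) + (b' * (a' - a) + a * (b' - b)) + (b' + b) * (b' - b)) * (a - b)|
          ≤ 3 * (A * ‖h‖ * |s|) + 6 * (C * |s|) * (A * ‖h‖) := by
            refine (abs_add_le _ _).trans (add_le_add ?_ ?_) <;> rw [abs_mul]
            · exact mul_le_mul p1 hz (abs_nonneg _) (by norm_num)
            · exact mul_le_mul p2 hab (abs_nonneg _) (by positivity)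
        _ = _ := by ring
    have h' := abs_pd_le (hshw.sub hwc) hqA hqB i z
    rw [pd_sub (hshw.differentiable (by norm_num)) (hwc.differentiable (by norm_num)),
      pd_add_right] at h'
    refine h'.trans (le_of_eq ?_)
    rw [hK]; ring
  have hwd : Differentiable ℝ (pd i w) := (pd_c1 hwc i).differentiable one_ne_zero
  have hder : HasDerivAt (fun s : ℝ => pd i w (y + s • e j)) (pd j (pd i w) y) 0 := by
    have a : HasDerivAt (fun s : ℝ => y + s • e j) (e j) 0 := by
      simpa using ((hasDerivAt_id (0 : ℝ)).smul_const (e j)).const_add y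
    exact HasFDerivAt.comp_hasDerivAt (l := pd i w) (0 : ℝ) (by simpa using (hwd y).hasFDerivAt) a
  have hfin : |pd j (pd i w) y| ≤ K * ‖h‖ := by
    refine le_of_tendsto ((hasDerivAt_iff_tendsto_slope.1 hder).abs) ?_
    filter_upwards [self_mem_nhdsWithin] with s hs
    simp only [slope_def_field, sub_zero, zero_smul, add_zero]
    rw [abs_div, div_le_iff₀ (abs_pos.2 hs)]
    exact key y s
  rw [hppw, hh, add_sub_cancel] at hfin
  exact hfin

end Vale.Agent.P134
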