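import Vale.Agent.P134.Energy

/-!
P134: almost periodicity in all but three variables gives proportional derivatives.
-/

namespace Vale.Agent.P134

open MeasureTheory Filter Set
open scoped BigOperators Topology

variable {n : ℕ} {u : V n → ℝ} {d : Fin n}

/-- A solution almost periodic in all but three variables has proportional derivatives. -/
theorem Sol.proportional3 (h : Sol u d) {M : Finset (Fin n)} (hdM : d ∉ M) (hcard : Mᶜ.card ≤ 3)
    (hap : APer M u) (i : Fin n) : ∃ c : ℝ, ∀ x, pd i u x = c * pd d u x := by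
  classical
  obtain ⟨K, hK0, hK⟩ := h.energy_growth hdM hcard hap
  obtain ⟨B, hB0, hbB, -⟩ := exists_deriv_bound
  refine h.ratio_of_growth hap.recurrent i (Kw := K * (16 * 2 ^ M.card * (n : ℝ) * B)) (by positivity)
    fun N l hN hl => ?_
  set W : ℝ := 2 * 4 ^ l with hW
  have hW1 : 1 ≤ W := by
    have : (1 : ℝ) ≤ 4 ^ l := one_le_pow₀ (by norm_num)
    linarith
  have hW0 : 0 < W := by linarith
  have hN2 : 0 < 2 * N := by linarith
  set φ : V n → ℝ := fun x => boxCut M (2 * N) x * boxCut Mᶜ W x with hφ
  have hφc : ContDiff ℝ 1 φ := (boxCut_c1 _ _).mul (boxCut_c1 _ _)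
  set s : V n := sides M (2 * (2 * N)) (2 * W) with hs
  have hsupp : ∀ x, φ x ≠ 0 → x ∈ box s := fun x hx => mem_box fun p => by
    simp only [hs, sides]
    simp only [hφ, ne_eq, mul_eq_zero, not_or] at hx
    split_ifs with hp
    · by_contra hc
      exact hx.1 (boxCut_zero hN2 hp (not_le.1 hc).le)
    · by_contra hc
      exact hx.2 (boxCut_zero hW0 (Finset.mem_compl.2 hp) (not_le.1 hc).le)
  have hts : tsupport φ ⊆ box s := closure_minimal (fun x hx => hsupp x hx) isClosed_Icc
  have hφs : HasCompactSupport φ := HasCompactSupport.intro (K := box s) isCompact_Icc fun x hx => by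
    by_contra hc; exact hx (hsupp x hc)
  have hφ0 : ∀ x, 0 ≤ φ x := fun x => mul_nonneg (boxCut_bound _ _ _).1 (boxCut_bound _ _ _).1
  have hψ : ∀ x, ∑ p, |pd p φ x| ≤ (box s).indicator (fun _ => (n : ℝ) * (B / W)) x := by
    intro x
    by_cases hx : x ∈ box s
    · rw [Set.indicator_of_mem hx]
      calc ∑ p, |pd p φ x| ≤ ∑ _p : Fin n, B / W := Finset.sum_le_sum fun p _ => by
            rw [hφ, pd_mul ((boxCut_c1 _ _).differentiable one_ne_zero)
              ((boxCut_c1 _ _).differentiable one_ne_zero)]
            refine (abs_add_le _ _).trans ?_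
            rw [abs_mul, abs_mul, abs_of_nonneg (boxCut_bound Mᶜ W x).1,
              abs_of_nonneg (boxCut_bound M (2 * N) x).1]
            have a1 := abs_pd_boxCut hB0 hbB M hN2 p x
            have a2 := abs_pd_boxCut hB0 hbB Mᶜ hW0 p x
            have b1 := mul_le_of_le_one_right (abs_nonneg (pd p (boxCut M (2 * N)) x)) (boxCut_bound Mᶜ W x).2
            have b2 := mul_le_of_le_one_left (abs_nonneg (pd p (boxCut Mᶜ W) x)) (boxCut_bound M (2 * N) x).2
            by_cases hp : p ∈ M
            · rw [if_pos hp] at a1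
              rw [if_neg (fun h' => Finset.mem_compl.1 h' hp)] at a2
              have : B / (2 * N) ≤ B / W := div_le_div_of_nonneg_left hB0 hW0 (by linarith)
              linarith
            · rw [if_neg hp] at a1
              rw [if_pos (Finset.mem_compl.2 hp)] at a2
              linarith
        _ = _ := by simp
    · rw [Set.indicator_of_notMem hx]
      refine le_of_eq (Finset.sum_eq_zero fun p _ => ?_)
      rw [image_eq_zero_of_notMem_tsupport fun h' => hx (hts (tsupport_pd_subset φ p h')), abs_zero]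
  have hs0 : ∀ p, 0 ≤ s p := fun p => by simp only [hs, sides]; split_ifs <;> linarith
  have hint : ∫ x, ∑ p, |pd p φ x| ≤ (8 * N) ^ M.card * (4 * W) ^ 3 * ((n : ℝ) * (B / W)) := by
    refine (integral_mono_of_nonneg (Eventually.of_forall fun x => Finset.sum_nonneg fun p _ => abs_nonneg _)
      (integrable_box s _) (Eventually.of_forall hψ)).trans ?_
    rw [integral_box hs0, hs, prod_sides, show 2 * (2 * (2 * N)) = 8 * N by ring,
      show 2 * (2 * W) = 4 * W by ring]
    refine mul_le_mul_of_nonneg_right (mul_le_mul_of_nonneg_left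
      (pow_le_pow_right₀ (by linarith) hcard) (by positivity)) (by positivity)
  have hlow : ∫ x, (box (sides M (2 * N) W)).indicator (fun x => pd i u x ^ 2) x ≤ ∫ x, gsq u x * φ x := by
    refine integral_mono ((integrable_indicator_iff measurableSet_Icc).2
      ((show Continuous fun x => pd i u x ^ 2 from (pd_c1 h.c2 i).continuous.pow 2).continuousOn.integrableOn_compact
        isCompact_Icc)) (integrable_mul_supp (gsq_continuous (h.c2.of_le (by norm_num))) hφc.continuous hφs)
      fun x => ?_
    by_cases hx : x ∈ box (sides M (2 * N) W)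
    · rw [Set.indicator_of_mem hx]
      have hin : ∀ p, |x p| ≤ sides M (2 * N) W p := fun p => abs_le.2 ⟨hx.1 p, hx.2 p⟩
      have e1 : φ x = 1 := by
        simp only [hφ]
        rw [boxCut_one hN2 (fun p hp => by simpa [sides, hp] using hin p),
          boxCut_one hW0 (fun p hp => by simpa [sides, Finset.mem_compl.1 hp] using hin p), one_mul]
      rw [e1, mul_one]
      exact Finset.single_le_sum (f := fun j => pd j u x ^ 2) (fun j _ => sq_nonneg _) (Finset.mem_univ i)
    · rw [Set.indicator_of_notMem hx]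
      exact mul_nonneg (Finset.sum_nonneg fun j _ => sq_nonneg _) (hφ0 x)
  refine hlow.trans ((hK φ hφc hφs hφ0).trans ((mul_le_mul_of_nonneg_left hint hK0).trans (le_of_eq ?_)))
  rw [show (8 * N) = 2 * (4 * N) by ring, mul_pow 2 (4 * N)]
  field_simp
  ring

end Vale.Agent.P134

namespace Vale.Agent.P134

/-- Almost periodicity is the same for the two norms. -/
theorem aper_pull {n : ℕ} {U : EuclideanSpace ℝ (Fin n) → ℝ} {M : Finset (Fin n)}
    (h : ∀ ε : ℝ, 0 < ε → ∃ L : ℝ, ∀ a : EuclideanSpace ℝ (Fin n), (∀ i, i ∉ M → a i = 0) →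
      ∃ b : EuclideanSpace ℝ (Fin n), (∀ i, i ∉ M → b i = 0) ∧ ‖b - a‖ ≤ L ∧
        ∀ x, |U (x + b) - U x| ≤ ε) :
    APer M fun y => U ((coord n).symm y) := by
  intro ε hε
  obtain ⟨L, hL⟩ := h ε hε
  refine ⟨‖(coord n).toContinuousLinearMap‖ * L, fun a ha => ?_⟩
  obtain ⟨b, hb0, hb1, hb2⟩ := hL ((coord n).symm a) fun i hi => by
    rw [coord_symm_apply]; exact ha i hi
  refine ⟨coord n b, fun i hi => by rw [coord_apply]; exact hb0 i hi, ?_, fun y => ?_⟩
  · have h1 : coord n b - a = (coord n).toContinuousLinearMap (b - (coord n).symm a) := by simp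
    rw [h1]
    exact ((coord n).toContinuousLinearMap.le_opNorm _).trans
      (mul_le_mul_of_nonneg_left hb1 (norm_nonneg _))
  · simp only [map_add, ContinuousLinearEquiv.symm_apply_apply]
    exact hb2 _

end Vale.Agent.P134
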